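import Vale.Agent.P236K.AlgB
import Vale.Agent.P257.H80.HazLog
import Mathlib.FieldTheory.IsAlgClosed.AlgebraicClosure

/-!
# P236, block S: the cocycle `b_j` on the automorphisms of the additive group is not a coboundary
-/

namespace Vale.Agent.P236K

open Vale.Agent.P217 Vale.Agent.P251.F Polynomial

section Ad

variable {B : Type} [CommRing B] {A : Type} [CommRing A] [Algebra B A]

/-- the additive polynomial `a + ∑ g_i a ^ 3 ^ (i + 1)` without its linear term -/
noncomputable def adF (a : A) : B[X] →ₗ[B] A :=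
  Polynomial.lsum fun i => LinearMap.toSpanSingleton B A (a ^ 3 ^ (i + 1))

theorem adF_apply (a : A) (g : B[X]) : adF a g = g.sum fun i c => c • a ^ 3 ^ (i + 1) := rfl

theorem adF_monomial (a : A) (k : ℕ) (c : B) : adF a (monomial k c) = c • a ^ 3 ^ (k + 1) := by
  rw [adF_apply, sum_monomial_index]
  exact zero_smul _ _

theorem adF_add (h3 : (3 : A) = 0) (a b : A) (g : B[X]) : adF (a + b) g = adF a g + adF b g := by
  rw [adF_apply, adF_apply, adF_apply, ← Polynomial.sum_add]
  refine Finset.sum_congr rfl fun i _ => ?_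
  obtain ⟨r, hr⟩ := add_pow_three_pow a b (i + 1)
  dsimp only
  rw [hr, h3, zero_mul, add_zero, smul_add]

theorem map_adF {A' : Type} [CommRing A'] [Algebra B A'] (φ : A →ₐ[B] A') (a : A) (g : B[X]) :
    φ (adF a g) = adF (φ a) g := by
  rw [adF_apply, adF_apply, Polynomial.sum, Polynomial.sum, map_sum]
  exact Finset.sum_congr rfl fun i _ => by rw [map_smul, map_pow]

/-- the twisted term of a product -/
noncomputable def tw (g : B[X]) (k : ℕ) (c : B) : B[X] :=
  g.sum fun i x => monomial (k + i + 1) (x * c ^ 3 ^ (i + 1))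

theorem adF_tw (a : A) (g : B[X]) (k : ℕ) (c : B) :
    adF (c • a ^ 3 ^ (k + 1)) g = adF a (tw g k c) := by
  rw [tw, Polynomial.sum, map_sum, adF_apply, Polynomial.sum]
  refine Finset.sum_congr rfl fun i _ => ?_
  rw [adF_monomial, _root_.smul_pow, smul_smul, ← pow_mul, ← pow_add,
    show k + 1 + (i + 1) = k + i + 1 + 1 by ring]

theorem coeff_tw (g : B[X]) {k n : ℕ} (c : B) (h : n ≤ k) : (tw g k c).coeff n = 0 := by
  rw [tw, Polynomial.sum, finsetSum_coeff]
  exact Finset.sum_eq_zero fun i _ => by rw [coeff_monomial, if_neg (by omega)]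

theorem tw_monomial (l k : ℕ) (b c : B) :
    tw (monomial l b) k c = monomial (k + l + 1) (b * c ^ 3 ^ (l + 1)) := by
  rw [tw, sum_monomial_index]
  rw [zero_mul, monomial_zero_right]

theorem coeff_adF (g : B[X]) (n : ℕ) : PowerSeries.coeff n (adF (PowerSeries.X : PowerSeries B) g) =
    ∑ i ∈ g.support, if n = 3 ^ (i + 1) then g.coeff i else 0 := by
  rw [adF_apply, Polynomial.sum, map_sum]
  refine Finset.sum_congr rfl fun i _ => ?_
  rw [map_smul, PowerSeries.coeff_X_pow, smul_eq_mul, mul_ite, mul_one, mul_zero]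

theorem coeff_adF_lt (g : B[X]) {n : ℕ} (h : n < 3) :
    PowerSeries.coeff n (adF (PowerSeries.X : PowerSeries B) g) = 0 := by
  rw [coeff_adF]
  refine Finset.sum_eq_zero fun i _ => if_neg ?_
  have : 0 < 3 ^ i := by positivity
  rw [pow_succ]
  omega

theorem coeff_adF_three (g : B[X]) :
    PowerSeries.coeff 3 (adF (PowerSeries.X : PowerSeries B) g) = g.coeff 0 := by
  rw [coeff_adF, Finset.sum_eq_single 0]
  · simp
  · intro i _ hi
    refine if_neg fun h => hi ?_
    have := Nat.pow_right_injective (by norm_num : 2 ≤ 3) ((pow_one 3).trans h)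
    omega
  · intro h
    rw [notMem_support_iff.1 h, ite_self]

theorem coeff_adF_zero {g : B[X]} {n : ℕ} (h : ∀ i < n, g.coeff i = 0) :
    PowerSeries.coeff n (adF (PowerSeries.X : PowerSeries B) g) = 0 := by
  rw [coeff_adF]
  refine Finset.sum_eq_zero fun i _ => ?_
  split_ifs with h1
  · refine h i ?_
    have := Nat.lt_pow_self (n := i + 1) (by norm_num : 1 < 3)
    omega
  · rfl

/-- the strict additive series `x + ∑ g_i x ^ 3 ^ (i + 1)` -/
noncomputable def adS (g : B[X]) : InvSeries B where
  val := PowerSeries.X + adF PowerSeries.X g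
  cc := by
    rw [map_add, PowerSeries.constantCoeff_X, ← PowerSeries.coeff_zero_eq_constantCoeff_apply,
      coeff_adF_lt g (by norm_num), add_zero]
  isUnit := by
    rw [map_add, PowerSeries.coeff_one_X, coeff_adF_lt g (by norm_num), add_zero]
    exact isUnit_one

theorem adS_c (g : B[X]) (n : ℕ) : (adS g).c n = PowerSeries.coeff (n + 1) PowerSeries.X +
    PowerSeries.coeff (n + 1) (adF (PowerSeries.X : PowerSeries B) g) := map_add _ _ _

theorem adS_c_zero (g : B[X]) : (adS g).c 0 = 1 := by
  rw [adS_c, coeff_adF_lt g (by norm_num), add_zero, PowerSeries.coeff_one_X]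

theorem adS_c_one (g : B[X]) : (adS g).c 1 = 0 := by
  rw [adS_c, coeff_adF_lt g (by norm_num), add_zero, PowerSeries.coeff_X, if_neg (by norm_num)]

theorem adS_c_two (g : B[X]) : (adS g).c 2 = g.coeff 0 := by
  rw [adS_c, coeff_adF_three, PowerSeries.coeff_X, if_neg (by norm_num), zero_add]

theorem adS_c_congr {g g' : B[X]} {n : ℕ} (h : ∀ i < n + 1, g.coeff i = g'.coeff i) :
    (adS g).c n = (adS g').c n := by
  have h1 := coeff_adF_zero (g := g - g') (n := n + 1) fun i hi => by
    rw [coeff_sub, h i hi, sub_self]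
  rw [map_sub, map_sub, sub_eq_zero] at h1
  rw [adS_c, adS_c, h1]

theorem adS_zero : adS (0 : B[X]) = 1 := by
  ext1
  change _ + adF _ 0 = _
  rw [map_zero, add_zero, InvSeries.one_val]

theorem subst_adS {τ : Type} {a : MvPowerSeries τ B} (ha : PowerSeries.HasSubst a) (g : B[X]) :
    PowerSeries.subst a (adS g).val = a + adF a g := by
  change PowerSeries.subst a (PowerSeries.X + adF PowerSeries.X g) = _
  rw [← PowerSeries.coe_substAlgHom ha, map_add, map_adF, PowerSeries.substAlgHom_X]

theorem three_mv (h3 : (3 : B) = 0) (τ : Type) : (3 : MvPowerSeries τ B) = 0 := by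
  rw [← map_ofNat (MvPowerSeries.C (σ := τ) (R := B)) 3, h3, map_zero]

theorem adS_mul (h3 : (3 : B) = 0) (g : B[X]) (k : ℕ) (c : B) :
    adS g * adS (monomial k c) = adS (g + monomial k c + tw g k c) := by
  ext1
  refine (subst_adS (adS (monomial k c)).hs g).trans ?_
  change (PowerSeries.X + adF PowerSeries.X (monomial k c)) +
    adF (PowerSeries.X + adF PowerSeries.X (monomial k c)) g = PowerSeries.X + adF _ _
  rw [adF_add (three_mv h3 Unit), map_add, map_add, adF_monomial, adF_tw]
  abel

theorem adS_smul (h3 : (3 : B) = 0) (g : B[X]) : adS g • addLaw B = addLaw B := by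
  rw [InvSeries.smul_eq_iff_isHom]
  refine ⟨(adS g).cc, ?_⟩
  have hX : ∀ i : Fin 2, PowerSeries.HasSubst (MvPowerSeries.X i : MvPowerSeries (Fin 2) B) :=
    fun i => hasSubst_of_cc (MvPowerSeries.constantCoeff_X i)
  have h0 : ∀ i : Fin 2, MvPowerSeries.constantCoeff (PowerSeries.subst
      (MvPowerSeries.X i : MvPowerSeries (Fin 2) B) (adS g).val : MvPowerSeries (Fin 2) B) = 0 :=
    fun i => PowerSeries.constantCoeff_subst_eq_zero (MvPowerSeries.constantCoeff_X i) _ (adS g).cc
  refine Eq.trans ?_ (P257.H80.subst_addLaw _ _ (h0 0) (h0 1)).symm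
  change PowerSeries.subst (MvPowerSeries.X 0 + MvPowerSeries.X 1 : MvPowerSeries (Fin 2) B) _ = _
  rw [subst_adS (hX 0), subst_adS (hX 1), subst_adS (hasSubst_of_cc (by simp)),
    adF_add (three_mv h3 _)]
  abel

end Ad

/-- an algebraically closed field of characteristic three -/
abbrev Kb : Type := AlgebraicClosure (ZMod 3)

theorem three_Kb : (3 : Kb) = 0 := by exact_mod_cast CharP.cast_eq_zero Kb 3

theorem exists_as (c : Kb) : ∃ b : Kb, b ^ 3 - b = c := by
  obtain ⟨b, hb⟩ := IsAlgClosed.exists_root (X ^ 3 - X - C c : Kb[X]) (by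
    have h : (X ^ 3 - X - C c : Kb[X]).degree = 3 := by compute_degree!
    rw [h]
    norm_num)
  refine ⟨b, ?_⟩
  simpa [sub_eq_zero] using hb

/-- the value of `b_j` -/
def bval {B : Type} [CommRing B] (j : ℕ) (u v : B) : B :=
  u ^ 3 ^ j * (v ^ 3 ^ j * v ^ 3 ^ j) + u ^ 3 ^ j * (u ^ 3 ^ j * v ^ 3 ^ j)

theorem bval_comm {B : Type} [CommRing B] (j : ℕ) (u v : B) : bval j u v = bval j v u := by
  rw [bval, bval]; ring

theorem bval_zero {B : Type} [CommRing B] (j : ℕ) (v : B) : bval j 0 v = 0 := by
  rw [bval, zero_pow (by positivity), zero_mul, zero_mul, add_zero]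

theorem no_hom (j N : ℕ) (Z : Kb[X] → Kb)
    (hN : ∀ g g' : Kb[X], (∀ i < N + 1, g.coeff i = g'.coeff i) → Z g = Z g')
    (hm : ∀ (g : Kb[X]) (k : ℕ) (c : Kb), Z (g + monomial k c + tw g k c) =
      Z g + Z (monomial k c) + bval j (8 * (monomial k c).coeff 0) (8 * g.coeff 0)) : False := by
  induction N with
  | zero =>
    have h1 : ∀ s t : Kb, Z (monomial 0 (s + t)) =
        Z (monomial 0 s) + Z (monomial 0 t) + bval j (8 * t) (8 * s) := fun s t => by
      have h2 := hm (monomial 0 s) 0 t
      rw [coeff_monomial, coeff_monomial, if_pos rfl, if_pos rfl] at h2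
      rw [← h2]
      refine hN _ _ fun i hi => ?_
      rw [coeff_add, coeff_tw _ _ (by omega), add_zero, map_add]
    have h8 : (8 : Kb) = -1 := by linear_combination 3 * three_Kb
    have h0 := h1 0 0
    have h2 := h1 1 1
    have h3 := h1 (1 + 1) 1
    have ho : Odd (3 ^ j) := Odd.pow (by decide)
    rw [add_zero, mul_zero, bval_zero] at h0
    rw [show (1 + 1 + 1 : Kb) = 0 by linear_combination three_Kb, h2,
      show (8 : Kb) * (1 + 1) = 1 by linear_combination 5 * three_Kb, mul_one, h8, bval, bval,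
      ho.neg_one_pow, one_pow] at h3
    exact one_ne_zero (α := Kb) (by
      linear_combination - h3 - h0 - (Z (monomial 0 1) - 1) * three_Kb)
  | succ N ih =>
    have h1 : ∀ g g' : Kb[X], (∀ i < N + 1, g.coeff i = g'.coeff i) →
        Z g' = Z g + Z (monomial (N + 1) (g'.coeff (N + 1) - g.coeff (N + 1))) := by
      intro g g' h
      have h2 := hm g (N + 1) (g'.coeff (N + 1) - g.coeff (N + 1))
      rw [coeff_monomial, if_neg (by omega), mul_zero, bval_zero, add_zero] at h2
      rw [← h2]
      refine hN _ _ fun i hi => ?_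
      rw [coeff_add, coeff_tw _ _ (by omega), add_zero, coeff_add, coeff_monomial]
      split_ifs with h3
      · rw [← h3]; ring
      · rw [h i (by omega), add_zero]
    have h2 : ∀ c : Kb, Z (monomial (N + 1) c) = 0 := fun c => by
      obtain ⟨b, rfl⟩ := exists_as c
      have h3 := hm (monomial 0 1) N b
      have h4 := hm (monomial N b) 0 1
      have h5 := h1 (monomial N b + monomial 0 1 + tw (monomial N b) 0 1)
        (monomial 0 1 + monomial N b + tw (monomial 0 1) N b) fun i hi => by
          rw [coeff_add, coeff_add _ (tw _ _ _), coeff_tw (k := N) _ _ (by omega), tw_monomial,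
            coeff_monomial (n := 0 + N + 1), if_neg (by omega), add_comm (monomial N b)]
      rw [h3, h4, bval_comm, coeff_add, coeff_add _ (tw _ _ _), add_comm (monomial N b),
        tw_monomial, tw_monomial, coeff_monomial (n := 0 + N + 1), coeff_monomial (n := N + 0 + 1),
        if_pos (by omega), if_pos (by omega), add_sub_add_left_eq_sub, one_pow, mul_one,
        one_mul, zero_add, pow_one] at h5
      linear_combination -h5
    exact ih fun g g' h => by rw [h1 g g' h, h2, add_zero]

/-- a strict automorphism of the additive law -/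
structure IsAdd {B : Type} [CommRing B] (f : InvSeries B) : Prop where
  str : f ∈ strict B
  add : f • addLaw B = addLaw B
  one : f.c 1 = 0

theorem isAdd_adS {B : Type} [CommRing B] (h3 : (3 : B) = 0) (g : B[X]) : IsAdd (adS g) :=
  ⟨adS_c_zero g, adS_smul h3 g, adS_c_one g⟩

theorem nb_alg (j M : ℕ) (x y z : InvSeries Kb → Kb)
    (hz : ∀ f f' : InvSeries Kb, (∀ m < M, f.c m = f'.c m) → z f = z f')
    (h : ∀ f g : InvSeries Kb, IsAdd f → IsAdd g →
      bval j (8 * f.c 2) (8 * g.c 2) = x g + z (g * f) + y f) : False := by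
  refine no_hom j M (fun g => z (adS g) - z 1) (fun g g' hg => ?_) fun g k c => ?_
  · rw [hz _ _ fun m hm => adS_c_congr fun i hi => hg i (by omega)]
  · have h0 : IsAdd (1 : InvSeries Kb) := adS_zero (B := Kb) ▸ isAdd_adS three_Kb 0
    have h1 := h _ _ (isAdd_adS three_Kb (monomial k c)) (isAdd_adS three_Kb g)
    have h2 := h _ _ h0 (isAdd_adS three_Kb g)
    have h3 := h _ _ (isAdd_adS three_Kb (monomial k c)) h0
    have h4 := h _ _ h0 h0
    rw [InvSeries.c_one_succ, mul_zero, bval_zero, mul_one] at h2 h4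
    rw [InvSeries.c_one_succ, mul_zero, bval_comm, bval_zero, one_mul] at h3
    rw [adS_mul three_Kb, adS_c_two, adS_c_two] at h1
    linear_combination - h1 + h2 + h3 - h4

end Vale.Agent.P236K
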