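import Vale.Agent.P236K.NDef
import Vale.Agent.P236K.AlgN

/-!
# P236, block S: the product `h_0 b_0 ^ 3` is detected on a cyclic group of order three
-/

namespace Vale.Agent.P236K

open Vale.Agent.P217 Vale.Agent.P251.F Vale.Agent.P251.I Polynomial
open Vale.Agent.P257.H712 (cupN)

section Cyc

variable {A A' : Type} [AddCommGroup A] [AddCommGroup A']

/-- the functional on functions of two consecutive vertices -/
def PP : (ZMod 3 → ZMod 3 → A) →+ A where
  toFun f := ∑ a, (f a (a + 1) - f a a)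
  map_zero' := by simp
  map_add' f g := by
    rw [← Finset.sum_add_distrib]
    exact Finset.sum_congr rfl fun a _ => add_sub_add_comm _ _ _ _

theorem PP_apply (f : ZMod 3 → ZMod 3 → A) : PP f = ∑ a, (f a (a + 1) - f a a) := rfl

theorem PP_fst (h : ZMod 3 → A) : PP (fun x _ => h x) = 0 := by simp [PP_apply]

theorem PP_snd (h : ZMod 3 → A) : PP (fun _ y => h y) = 0 := by
  rw [PP_apply, Finset.sum_sub_distrib, sub_eq_zero]
  exact Equiv.sum_comp (Equiv.addRight 1) h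

theorem PP_shift (f : ZMod 3 → ZMod 3 → A) : PP (fun x y => f (x + 1) (y + 1)) = PP f :=
  Equiv.sum_comp (Equiv.addRight (1 : ZMod 3)) fun a => f a (a + 1) - f a a

theorem PP_zero : PP (fun _ _ => (0 : A)) = 0 := PP_fst fun _ => 0

theorem PP_map (ψ : A →+ A') (f : ZMod 3 → ZMod 3 → A) : PP (fun x y => ψ (f x y)) = ψ (PP f) := by
  simp only [PP_apply, map_sum, map_sub]

theorem PP_add (f g : ZMod 3 → ZMod 3 → A) : PP (fun x y => f x y + g x y) = PP f + PP g :=
  map_add PP f g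

/-- the functional with given first edge -/
def QQ (e : ZMod 3) : ((Fin 8 → ZMod 3) → A) →+ A where
  toFun f := PP fun a a' => PP fun b b' => PP fun c c' => f ![0, e, a, a', b, b', c, c']
  map_zero' := by simp only [Pi.zero_apply, PP_zero]
  map_add' f g := by simp only [Pi.add_apply, PP_add]

theorem QQ_apply (e : ZMod 3) (f : (Fin 8 → ZMod 3) → A) : QQ e f =
    PP fun a a' => PP fun b b' => PP fun c c' => f ![0, e, a, a', b, b', c, c'] := rfl

theorem QQ_face (Y : (Fin 7 → ZMod 3) → A) (hY : ∀ v, Y (fun i => v i + 1) = Y v) (j : Fin 8) :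
    QQ 1 (fun v => Y (v ∘ j.succAbove)) = QQ 0 (fun v => Y (v ∘ j.succAbove)) := by
  obtain ⟨Z, hZ⟩ : ∃ Z : ZMod 3 → ZMod 3 → ZMod 3 → ZMod 3 → ZMod 3 → ZMod 3 → ZMod 3 → A,
      ∀ v, Y v = Z (v 0) (v 1) (v 2) (v 3) (v 4) (v 5) (v 6) :=
    ⟨fun a b c d e f g => Y ![a, b, c, d, e, f, g], fun v => congrArg Y (by
      funext i
      fin_cases i <;> rfl)⟩
  rw [QQ_apply, QQ_apply]
  simp only [hZ]
  fin_cases j
  · have h : ∀ a b c d e f, Z 1 (a + 1) (b + 1) (c + 1) (d + 1) (e + 1) (f + 1) = Z 0 a b c d e f :=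
      fun a b c d e f => by simpa [hZ] using hY ![0, a, b, c, d, e, f]
    change (PP fun a a' => PP fun b b' => PP fun c c' => Z 1 a a' b b' c c') =
      PP fun a a' => PP fun b b' => PP fun c c' => Z 0 a a' b b' c c'
    simp only [← h]
    rw [← PP_shift]
    refine congrArg PP (funext₂ fun a a' => ?_)
    rw [← PP_shift]
    exact congrArg PP (funext₂ fun b b' => (PP_shift _).symm)
  · rfl
  · change (PP fun _ a' => PP fun b b' => PP fun c c' => Z 0 1 a' b b' c c') =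
      PP fun _ a' => PP fun b b' => PP fun c c' => Z 0 0 a' b b' c c'
    simp only [PP_snd]
  · change (PP fun a _ => PP fun b b' => PP fun c c' => Z 0 1 a b b' c c') =
      PP fun a _ => PP fun b b' => PP fun c c' => Z 0 0 a b b' c c'
    simp only [PP_fst]
  · change (PP fun a a' => PP fun _ b' => PP fun c c' => Z 0 1 a a' b' c c') =
      PP fun a a' => PP fun _ b' => PP fun c c' => Z 0 0 a a' b' c c'
    simp only [PP_snd]
  · change (PP fun a a' => PP fun b _ => PP fun c c' => Z 0 1 a a' b c c') =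
      PP fun a a' => PP fun b _ => PP fun c c' => Z 0 0 a a' b c c'
    simp only [PP_fst]
  · change (PP fun a a' => PP fun b b' => PP fun _ c' => Z 0 1 a a' b b' c') =
      PP fun a a' => PP fun b b' => PP fun _ c' => Z 0 0 a a' b b' c'
    simp only [PP_snd]
  · change (PP fun a a' => PP fun b b' => PP fun c _ => Z 0 1 a a' b b' c) =
      PP fun a a' => PP fun b b' => PP fun c _ => Z 0 0 a a' b b' c
    simp only [PP_fst]

/-- the cocycle `b` -/
def bK (x y z : ZMod 3) : ZMod 3 := (y - x) * (z - y) ^ 2 + (y - x) ^ 2 * (z - y)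

/-- the cocycle `h b ^ 3` -/
def hK (v : Fin 8 → ZMod 3) : ZMod 3 :=
  (v 1 - v 0) * bK (v 1) (v 2) (v 3) * bK (v 3) (v 4) (v 5) * bK (v 5) (v 6) (v 7)

theorem QQ_hK : QQ 1 hK - QQ 0 hK = -1 := by decide +kernel

end Cyc

section Grp

variable {B : Type} [CommRing B] [Algebra (ZMod 3) B] (ε : B)

theorem three_alg : (3 : B) = 0 := by
  rw [← map_ofNat (algebraMap (ZMod 3) B) 3]
  exact (congrArg _ (by decide)).trans (map_zero _)

theorem pow_adS (k : ℕ) : ∃ g : B[X], adS (monomial 0 ε) ^ k = adS g ∧ g.coeff 0 = k * ε := by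
  induction k with
  | zero => exact ⟨0, by rw [pow_zero, adS_zero], by simp⟩
  | succ k ih =>
    obtain ⟨g, h1, h2⟩ := ih
    refine ⟨_, by rw [pow_succ, h1, adS_mul three_alg], ?_⟩
    rw [coeff_add, coeff_add, coeff_tw _ _ le_rfl, h2, coeff_monomial, if_pos rfl]
    push_cast
    ring

theorem adS_cube (h : ε ^ 13 = 0) : adS (monomial 0 ε) ^ 3 = 1 := by
  have h1 : ∀ g g' : B[X], tw (g + g') 0 ε = tw g 0 ε + tw g' 0 ε := fun g g' =>
    Polynomial.sum_add_index _ _ _ (fun i => by simp) fun i a b => by rw [add_mul, map_add]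
  rw [pow_succ, pow_two, adS_mul three_alg, adS_mul three_alg, h1, h1, tw_monomial, tw_monomial,
    ← adS_zero]
  congr 1
  have h2 : ε * ε ^ 3 ^ (0 + 1) * ε ^ 3 ^ (0 + 0 + 1 + 1) = 0 := by rw [← h]; ring
  have h3 : (3 : B[X]) = 0 := by rw [← map_ofNat (C : B →+* B[X]) 3, three_alg, map_zero]
  rw [h2, map_zero]
  linear_combination (monomial 0 ε + monomial (0 + 0 + 1) (ε * ε ^ 3 ^ (0 + 1))) * h3

/-- the cyclic group -/
noncomputable def GG (a : ZMod 3) : InvSeries B := adS (monomial 0 ε) ^ a.val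

theorem GG_spec (a : ZMod 3) : IsAdd (GG ε a) ∧ (GG ε a).c 2 = algebraMap _ B a * ε := by
  obtain ⟨g, h1, h2⟩ := pow_adS ε a.val
  rw [GG, h1, adS_c_two, h2, ← map_natCast (algebraMap (ZMod 3) B), ZMod.natCast_zmod_val]
  exact ⟨isAdd_adS three_alg g, rfl⟩

theorem GG_add (h : ε ^ 13 = 0) (a b : ZMod 3) : GG ε (a + b) = GG ε a * GG ε b := by
  rw [GG, GG, GG, ZMod.val_add, ← pow_eq_pow_mod _ (adS_cube ε h), pow_add]

/-- the chain with given vertices -/
noncomputable def ch {n : ℕ} (v : Fin (n + 1) → ZMod 3) : Chain Laz n B where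
  pt := Laz.lift (P251.F.addLaw B)
  g i := GG ε (v i - v 0)
  strict _ := (GG_spec ε _).1.str
  zero := by rw [sub_self, GG, ZMod.val_zero, pow_zero]

theorem ch_res (h : ε ^ 13 = 0) {m n : ℕ} (v : Fin (n + 1) → ZMod 3)
    (α : Fin (m + 1) → Fin (n + 1)) : (ch ε v).res α = ch ε (v ∘ α) := by
  ext1
  · change Laz.lift (GG ε _ • Laz.univ.map (Laz.lift (P251.F.addLaw B))) = Laz.lift (P251.F.addLaw B)
    rw [Laz.univ_map_lift, (GG_spec ε _).1.add]
  · funext i
    change GG ε _ * (GG ε _)⁻¹ = GG ε (v (α i) - v (α 0))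
    rw [mul_inv_eq_iff_eq_mul, ← GG_add ε h, sub_add_sub_cancel]

theorem ev_ch_t {t : Cob Laz 1} (ht : IsT1 3 t) (v : Fin 2 → ZMod 3) :
    Cob.ev (ch ε v) t = algebraMap _ B (v 1 - v 0) * (8 * ε) := by
  obtain ⟨q, rfl⟩ := P236Z.Det.t1_eq ht
  rw [map_add, map_mul, map_mul, Cob.ev_X, Cob.ev_X, map_ofNat]
  change 8 * (GG ε (v 1 - v 0)).c 2 + (GG ε (v 1 - v 0)).c 1 * _ = _
  rw [(GG_spec ε _).2, (GG_spec ε _).1.one]
  ring

theorem ev_ch_b (h : ε ^ 13 = 0) {t : Cob Laz 1} (ht : IsT1 3 t) (v : Fin 3 → ZMod 3) :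
    Cob.ev (ch ε v) (bcls 3 t) = algebraMap _ B (bK (v 0) (v 1) (v 2)) * (8 * ε) ^ 3 := by
  have h1 : Finset.Ioo 0 3 = {1, 2} := by decide
  rw [bcls, h1, Finset.sum_pair (by decide), map_add, map_zsmul, map_zsmul,
    Cob.ev_cup (a := 1) (b := 1), Cob.ev_cup (a := 1) (b := 1), ch_res ε h, ch_res ε h]
  simp only [map_pow, ev_ch_t ε ht, bK, map_add, map_mul]
  change (1 : ℤ) • ((algebraMap _ B (v 1 - v 0) * _) ^ 1 * (algebraMap _ B (v 2 - v 1) * _) ^ 2) +
    (1 : ℤ) • ((algebraMap _ B (v 1 - v 0) * _) ^ 2 * (algebraMap _ B (v 2 - v 1) * _) ^ 1) = _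
  rw [one_smul, one_smul]
  ring

theorem ev_ch_hb (h : ε ^ 13 = 0) {t : Cob Laz 1} (ht : IsT1 3 t) (v : Fin 8 → ZMod 3) :
    Cob.ev (ch ε v) (cupN t (bcls 3 t) 3 : Cob Laz 7) = algebraMap _ B (hK v) * (8 * ε) ^ 10 := by
  change Cob.ev (ch (n := 1 + 2 + 2 + 2) ε v)
    (Cob.cup (Cob.cup (Cob.cup t (bcls 3 t)) (bcls 3 t)) (bcls 3 t)) = _
  simp only [Cob.ev_cup, ch_res ε h, ev_ch_t ε ht, ev_ch_b ε h ht, hK, map_mul]
  change algebraMap _ B (v 1 - v 0) * _ * (algebraMap _ B (bK (v 1) (v 2) (v 3)) * _) *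
    (algebraMap _ B (bK (v 3) (v 4) (v 5)) * _) * (algebraMap _ B (bK (v 5) (v 6) (v 7)) * _) = _
  ring

end Grp

theorem eb : EB := by
  rintro t ht y ⟨r, hr⟩
  let B := AdjoinRoot (X ^ 13 : (ZMod 3)[X])
  let ε : B := AdjoinRoot.root _
  have h0 : ∀ k, ε ^ k = AdjoinRoot.mk _ (X ^ k) := fun k => by rw [map_pow, AdjoinRoot.mk_X]
  have h : ε ^ 13 = 0 := (h0 13).trans AdjoinRoot.mk_self
  let ψ : ZMod 3 →+ B :=
    (AddMonoidHom.mulRight ((8 * ε) ^ 10)).comp (algebraMap (ZMod 3) B).toAddMonoidHom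
  have h1 : (fun v => ψ (hK v)) = ∑ j : Fin 8, ((-1 : ℤ) ^ (j : ℕ)) •
      fun v : Fin 8 → ZMod 3 => Cob.ev (ch ε (v ∘ j.succAbove)) y := by
    funext v
    have h2 := congrArg (Cob.ev (ch ε v)) hr
    rw [map_sub, map_mul, map_ofNat, three_alg, zero_mul, sub_eq_zero, ev_ch_hb ε h ht,
      Cob.ev_d] at h2
    simp only [ch_res ε h] at h2
    rw [Finset.sum_apply]
    exact h2
  have h2 : ∀ e, QQ e (fun v => ψ (hK v)) = ψ (QQ e hK) := fun e => by
    simp only [QQ_apply, PP_map]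
  have h3 : ψ (-1) = 0 := by
    rw [← QQ_hK, map_sub, ← h2, ← h2, h1, map_sum, map_sum, sub_eq_zero]
    refine Finset.sum_congr rfl fun j _ => ?_
    rw [map_zsmul, map_zsmul, QQ_face (fun v => Cob.ev (ch ε v) y) fun v => ?_]
    congr 2
    ext1
    · rfl
    · funext i
      exact congrArg (GG ε) (add_sub_add_right_eq_sub _ _ _)
  have h4 : ε ^ 10 = 0 := by
    change algebraMap (ZMod 3) B (-1) * (8 * ε) ^ 10 = 0 at h3
    rw [map_neg, map_one, show (8 : B) = -1 by linear_combination 3 * three_alg (B := B)] at h3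
    linear_combination -h3
  rw [h0, AdjoinRoot.mk_eq_zero] at h4
  have h5 := natDegree_le_of_dvd h4 (pow_ne_zero _ X_ne_zero)
  rw [natDegree_X_pow, natDegree_X_pow] at h5
  omega

end Vale.Agent.P236K
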