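import Vale.Agent.P236Z.Det.All

/-!
# P236, block S: every class of weight `2 * 3 ^ (j + 1)` is a multiple of `b_j` modulo `(3, v_1, v_2)`
-/

namespace Vale.Agent.P236K

open Vale.Agent.P251.F Vale.Agent.P251.I Vale.Agent.P251.F.Cob MvPolynomial
open Vale.Agent.P236Z.Det

/-- `t` on the first edge -/
noncomputable def e01 (t : Cob Laz 1) : Cob Laz 2 := Cob.map (Fin.succAbove (2 : Fin 3)) t

/-- `t` on the second edge -/
noncomputable def e12 (t : Cob Laz 1) : Cob Laz 2 := Cob.map (Fin.succAbove (0 : Fin 3)) t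

/-- the cochain `[t ^ a | t ^ (2 a)] + [t ^ (2 a) | t ^ a]`, `a = 3 ^ j` -/
noncomputable def Bt (t : Cob Laz 1) (j : ℕ) : Cob Laz 2 :=
  e01 t ^ 3 ^ j * (e12 t ^ 3 ^ j * e12 t ^ 3 ^ j) + e01 t ^ 3 ^ j * (e01 t ^ 3 ^ j * e12 t ^ 3 ^ j)

theorem isWt_Bt {t : Cob Laz 1} (ht : IsT1 3 t) (j : ℕ) : IsWt (w0 j) (Bt t j) := by
  have h1 : IsWt (((3 ^ j : ℕ) : ℤ) * 2) (e01 t ^ 3 ^ j) := ((isWt_t1 ht).map _).pow _
  have h2 : IsWt (((3 ^ j : ℕ) : ℤ) * 2) (e12 t ^ 3 ^ j) := ((isWt_t1 ht).map _).pow _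
  have h3 : ((3 ^ j : ℕ) : ℤ) * 2 + (((3 ^ j : ℕ) : ℤ) * 2 + ((3 ^ j : ℕ) : ℤ) * 2) = w0 j := by
    rw [w0]; push_cast; ring
  exact (isWt_cast (h1.mul (h2.mul h2)) h3).add (isWt_cast (h1.mul (h1.mul h2)) h3)

theorem add_pow_three_pow {R : Type*} [CommRing R] (u v : R) (j : ℕ) :
    ∃ r, (u + v) ^ 3 ^ j = u ^ 3 ^ j + v ^ 3 ^ j + 3 * r := by
  induction j with
  | zero => exact ⟨0, by simp⟩
  | succ j ih =>
    obtain ⟨r, hr⟩ := ih
    rw [pow_succ, pow_mul, pow_mul, pow_mul, hr]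
    generalize u ^ 3 ^ j = a
    generalize v ^ 3 ^ j = b
    exact ⟨a * b * (a + b) + 3 * (a + b) ^ 2 * r + 9 * (a + b) * r ^ 2 + 9 * r ^ 3, by ring⟩

theorem d_t1 {t : Cob Laz 1} (ht : IsT1 3 t) : d 1 t = 0 := (BCocycle 3 (by norm_num) t ht).2.1

theorem d_one_eq (x : Cob Laz 1) :
    d 1 x = e12 x - Cob.map (Fin.succAbove (1 : Fin 3)) x + e01 x := by
  rw [d_apply, Fin.sum_univ_three]
  simp [e01, e12, sub_eq_add_neg]

theorem d_t1_pow {t : Cob Laz 1} (ht : IsT1 3 t) (j : ℕ) :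
    ∃ r, d 1 (t ^ 3 ^ (j + 1)) = - 3 * Bt t j + 9 * r := by
  have h1 := d_t1 ht
  rw [d_one_eq] at h1
  have h2 : Cob.map (Fin.succAbove (1 : Fin 3)) t = e01 t + e12 t := by linear_combination -h1
  obtain ⟨r, hr⟩ := add_pow_three_pow (e01 t) (e12 t) j
  rw [d_one_eq, e12, e01, map_pow, map_pow, map_pow, h2, ← e12, ← e01, Bt, pow_succ, pow_mul,
    pow_mul, pow_mul, hr]
  generalize e01 t ^ 3 ^ j = a
  generalize e12 t ^ 3 ^ j = b
  exact ⟨- ((a + b) ^ 2 * r + 3 * (a + b) * r ^ 2 + 3 * r ^ 3), by ring⟩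

/-- A cocycle modulo three and its Bockstein. -/
theorem listM {t : Cob Laz 1} (ht : IsT1 3 t) {j : ℕ} {y : Cob Laz 1} (hy : IsWt (w0 j) y)
    {x r : Cob Laz 2} (hx : IsWt (w0 j) x) (hd : d 1 y = 3 * x + 9 * r) :
    ∃ (c : ℤ) (z : Cob Laz 0) (y' : Cob Laz 1), IsWt (w0 j) z ∧ IsWt (w0 j) y' ∧
      y - d 0 z - c * t ^ 3 ^ (j + 1) ∈ II 1 ∧ x - d 1 y' + c * Bt t j ∈ II 2 := by
  obtain ⟨dd⟩ := exists_dat norm evp ht
  obtain ⟨c, Z, G, h', hG, e⟩ := listA land hone ht dd (j := j) (isWt_cast hy (w0_eq j))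
    ⟨x + 3 * r, by linear_combination hd⟩
  obtain ⟨s, hs⟩ := d_t1_pow ht j
  have hT : IsWt (w0 j) ((c : Cob Laz 1) * t ^ 3 ^ (j + 1)) :=
    isWt_int_mul c (isWt_cast ((isWt_t1 ht).pow _) (by rw [w0_eq]; ring))
  refine ⟨c, proj (w0 j) (C Z), proj (w0 j) h', isWt_proj _ _, isWt_proj _ _, ?_, ?_⟩
  · have h3 : y - D Z - c * t ^ 3 ^ (j + 1) ∈ II 1 := by
      rw [e]
      exact Ideal.add_mem _ (Ideal.pow_le_self two_ne_zero hG) (three_mul_mem _)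
    have h4 := proj_mem_II (w0 j) h3
    rwa [proj_sub, proj_sub, proj_self hT, proj_self hy, ← d_C, proj_d] at h4
  · have h1 := congrArg (d 1) e
    rw [map_sub, map_sub, d_D, d_int_mul, hs, map_add, d_three_mul, hd] at h1
    have h5 : x - d 1 h' + c * Bt t j + 3 * (r - c * s) ∈ II 2 := by
      apply mem_II_of_three
      have := d_mem_sq hG
      rwa [show 3 * (x - d 1 h' + c * Bt t j + 3 * (r - c * s)) = d 1 G by
        linear_combination h1]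
    have h6 : x - d 1 h' + c * Bt t j ∈ II 2 := by
      simpa using Ideal.sub_mem _ h5 (three_mul_mem (r - (c : Cob Laz 2) * s))
    have h7 := proj_mem_II (w0 j) h6
    rwa [proj_add, proj_sub, proj_self hx, proj_d,
      proj_self (isWt_int_mul c (isWt_Bt ht j))] at h7

/-- A cocycle modulo a large power of three. -/
theorem listB {t : Cob Laz 1} (ht : IsT1 3 t) {j : ℕ} {x : Cob Laz 2} (hx : IsWt (w0 j) x)
    (hd : (3 : Cob Laz 3) ^ (j + 5) ∣ d 2 x) :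
    ∃ (c : ℤ) (y : Cob Laz 1), IsWt (w0 j) y ∧ x - d 1 y - c * Bt t j ∈ II 2 := by
  obtain ⟨dd⟩ := exists_dat norm evp ht
  obtain ⟨h0, hw0, r, hr⟩ := sah.1 (2 * 3 ^ (j + 1)) _ x
    (isWt_cast hx (by rw [w0]; push_cast; ring)) hd
  obtain ⟨q, hq⟩ := four_cast j 2
  obtain ⟨u, v, huv⟩ := exists_inv q 3
  have h2 := congrArg (Int.cast : ℤ → Cob Laz 2) huv
  obtain ⟨h, hw, r1, hr1⟩ := descend land hone ht dd (x := x) (j + 1) ((u : Cob Laz 1) * h0)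
    (isWt_int_mul u (isWt_cast hw0 (by push_cast; ring))) ⟨u * r + v * x, by
      rw [d_int_mul]
      rw [hq] at hr
      push_cast at hr h2
      linear_combination (u : Cob Laz 2) * hr - 3 ^ (j + 2) * x * h2⟩
  obtain ⟨c, -, y, -, hy, -, h3⟩ := listM ht (isWt_cast hw (w0_eq j).symm) hx (r := - 9 * r1)
    (by linear_combination - hr1)
  refine ⟨-c, y, hy, ?_⟩
  rwa [Int.cast_neg, neg_mul, sub_neg_eq_add]

end Vale.Agent.P236K
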