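import Vale.Agent.P236K.Moore
import Vale.Agent.P251.B.Final

/-!
# P236, block S: the class `β₁`
-/

open CategoryTheory MonoidalCategory MonObj Limits Pretriangulated

set_option linter.unusedSectionVars false

namespace Vale.Agent.P236K

open Vale.Agent.P251 Vale.Agent.P251.S Vale.Agent.P251.T Vale.Agent.P251.M Vale.Agent.P251.F
  Vale.Agent.P251.I Vale.Agent.P251.H EvenSpheres Vale.Agent.P257 Vale.Agent.P257.H80
  Vale.Agent.P236Z Vale.Agent.P236Z.Det Vale.Agent.P251.Z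
open Vale.Agent.P251.St (SHCat RingSp)
open Vale.Agent.P236Z.St (AdamsTower)

open Vale.Agent.P236Z.Dt Vale.Agent.P251.B

variable {T : SHCat} (D : MUData T.C) (U : UnitCof D.R)

theorem d_t1_cube {t : Cob Laz 1} (ht : IsT1 3 t) : Cob.d 1 (-t ^ 3) = 3 * Bt t 0 := by
  have h1 := d_t1 ht
  rw [d_one_eq] at h1
  have h2 : Cob.map (Fin.succAbove (1 : Fin 3)) t = e01 t + e12 t := by linear_combination -h1
  rw [map_neg, d_one_eq, e12, e01, map_pow, map_pow, map_pow, h2, ← e12, ← e01, Bt]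
  ring

/-- The class `β₁`, of order three. -/
theorem exists_beta {t : Cob Laz 1} (ht : IsT1 3 t) :
    ∃ c : (stdEven T.C).S (w0 0) ⟶ U.cobar.B 2 (𝟙_ T.C), (3 : ℤ) • c ≫ U.bd 1 _ = 0 ∧
      c ≫ unitMap D.R _ = D.evw 2 _ ⟨Bt t 0, isWt_Bt ht 0⟩ ≫ qq D U 2 := by
  obtain ⟨C, i, δ, hC⟩ := exists_cone (((3 : ℕ) : ℤ) • 𝟙 (𝟙_ T.C))
  have hT : Cob.IsWt (w0 0) (-t ^ 3) := (isWt_cast ((isWt_t1 ht).pow 3) (by rw [w0]; norm_num)).neg
  let θ : (𝟙_ T.C)⟦2 * w0 0⟧ ⟶ D.R ⊗ U.cobar.B 1 (𝟙_ T.C) :=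
    (sphE T.C _).inv ≫ D.evw 1 _ ⟨_, hT⟩ ≫ qq D U 1
  have hθ : θ ≫ U.cobar.k 1 _ ≫ unitMap D.R _ =
      (3 : ℤ) • ((sphE T.C _).inv ≫ D.evw 2 _ ⟨Bt t 0, isWt_Bt ht 0⟩ ≫ qq D U 2) := by
    have h1 : (3 : ℤ) • (⟨Bt t 0, isWt_Bt ht 0⟩ : Cob.wt Laz 2 (w0 0)) = Cob.dwt Laz 1 _ ⟨_, hT⟩ :=
      Subtype.ext ((zsmul_eq_mul _ _).trans (d_t1_cube ht).symm)
    rw [← Preadditive.comp_zsmul, ← Preadditive.zsmul_comp, ← map_zsmul, h1, D.evw_dwt, ← dd]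
    simp only [θ, Category.assoc]
    rw [dd_qq D U 1]
  obtain ⟨x, hx, -⟩ : ∃ x : (𝟙_ T.C)⟦2 * w0 0⟧ ⟶ U.cobar.B 2 (𝟙_ T.C),
      (3 : ℤ) • x = θ ≫ U.cobar.k 1 _ ∧ _ :=
    exists_beta_tower (U.tow (𝟙_ T.C)) (redC i) (𝟙_ T.C) ((3 : ℕ) : ℤ) 10
    (fun t y hy => exists_zsmul_of_red hC y hy)
    (fun s hs => van_modP D U (by norm_num) hC rfl fun w hw => by
      push_cast at hw ⊢
      omega) 11 (by norm_num) (fun y => conn_red hC (conn_B D U 11) _ (by norm_num) y)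
    (2 * w0 0) (by rw [w0]; norm_num) θ (by
      change θ ≫ Dt.red i _ ≫ (U.cobar.k 1 (𝟙_ T.C) ≫ unitMap D.R _) ▷ C = 0
      rw [← red_nat, ← Category.assoc, hθ]
      exact zsmul_comp_red hC _)
  refine ⟨(sphE T.C _).hom ≫ x, ?_, ?_⟩
  · rw [Category.assoc, ← Preadditive.comp_zsmul, ← Preadditive.zsmul_comp, hx, Category.assoc,
      (dist_bd U 1).zero₂₃, comp_zero, comp_zero]
  · rw [← sub_eq_zero]
    refine tf_B D U 2 _ _ ?_
    rw [smul_sub, Category.assoc, ← Preadditive.comp_zsmul, ← Preadditive.zsmul_comp, hx,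
      Category.assoc, hθ, Preadditive.comp_zsmul, Iso.hom_inv_id_assoc, sub_self]

theorem ext_zero : EXT 0 := by
  obtain ⟨T, ⟨S⟩⟩ := St.nonempty_susp
  have F := S.toSpaceFunctor
  have := locallySmall_self.{0} T.C
  obtain ⟨H, _, _, hH⟩ := Dt.exists_HFmon F (p := 3) (by norm_num)
  obtain ⟨M⟩ := nonempty_MUMon F (stdEven T.C) (lineIso F)
  obtain ⟨bs⟩ := M.nonempty_muBasis
  have hD := M.muUniv bs
  generalize M.data bs = D at hD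
  obtain ⟨U⟩ := exists_unitCof D.R
  obtain ⟨t, ht⟩ := T1 3
  obtain ⟨c, h1, h2⟩ := exists_beta D U ht
  obtain ⟨θ₁, h3⟩ := (shiftFunctor T.C (1 : ℤ)).map_surjective ((eS (stem_succ 0)).inv ≫ c ≫ bd2 U)
  obtain ⟨θ, rfl⟩ := (shiftFunctor T.C (1 : ℤ)).map_surjective θ₁
  have h4 := not_af_of_lift hD U ⟨H⟩ hH ht (stem_succ 0) θ c _ 0 (m := 1) (by norm_num)
    (by simp) (by rw [h3, Iso.hom_inv_id_assoc]) h2
  refine ⟨T, F, H, η[H], (stemIso T 0).inv ≫ θ, hH, ?_, fun h => h4 ?_⟩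
  · have h5 : (3 : ℤ) • θ = 0 := (shiftFunctor T.C (1 : ℤ)).map_injective
      ((shiftFunctor T.C (1 : ℤ)).map_injective (by
        rw [Functor.map_zsmul, Functor.map_zsmul, h3, bd2, ← Preadditive.comp_zsmul,
          ← Category.assoc c, ← Preadditive.zsmul_comp, h1]
        simp))
    rw [← Preadditive.comp_zsmul, h5, comp_zero]
  · simpa using h.pre (stemIso T 0).hom

end Vale.Agent.P236K
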