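import Vale.Agent.P236K.Tw
import Vale.Agent.P236Z.Cv.Exp

/-!
# P236, block S: comparison of the tower of `MU` with the Adams tower
-/

open CategoryTheory MonoidalCategory MonObj Limits Pretriangulated

set_option linter.unusedSectionVars false

namespace Vale.Agent.P236K

open Vale.Agent.P251 Vale.Agent.P251.S Vale.Agent.P251.T Vale.Agent.P251.M Vale.Agent.P251.F
  Vale.Agent.P251.I Vale.Agent.P251.H EvenSpheres Vale.Agent.P257 Vale.Agent.P257.H80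
  Vale.Agent.P236Z Vale.Agent.P236Z.Det Vale.Agent.P251.Z
open Vale.Agent.P251.St (SHCat RingSp)
open Vale.Agent.P236Z.St (AdamsTower)

open Vale.Agent.P236Z.Dt

variable {T : SHCat} {D : MUData T.C} (U : UnitCof D.R)

/-- the composite of the first two boundary maps of the tower of `MU` -/
noncomputable def bd2 : U.cobar.B 2 (𝟙_ T.C) ⟶ ((𝟙_ T.C)⟦(1 : ℤ)⟧)⟦(1 : ℤ)⟧ :=
  U.bd 1 (𝟙_ T.C) ≫ (U.bd 0 (𝟙_ T.C))⟦(1 : ℤ)⟧'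

theorem dist_bd (s : ℕ) : Dist (unitMap D.R (U.cobar.B s (𝟙_ T.C))) (U.cobar.k s (𝟙_ T.C))
    (U.bd s (𝟙_ T.C)) := U.towerTriangle_distinguished s _

theorem th₃_id : th₃ (𝟙 D.R) = ((λ_ D.R).hom ▷ D.R) ▷ D.R ≫ (α_ D.R D.R D.R).hom := by
  refine Am.hom_ext fun i => ?_
  rw [Am.v_lift]
  have h0 : η[𝟙_ T.C] = 𝟙 _ := rfl
  fin_cases i
  · change 𝟙 _ ≫ inlM _ _ = ((inrM (𝟙_ T.C) D.R ≫ inlM _ D.R) ≫ inlM _ D.R) ≫ _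
    simp only [inlM, inrM, tensorObj.one_def, h0, MonoidalCategory.tensorHom_def]
    monoidal
  · change 𝟙 _ ≫ inlM _ _ ≫ inrM _ _ = (inrM (𝟙_ T.C ⊗ D.R) D.R ≫ inlM _ D.R) ≫ _
    rw [Category.assoc, inlM_whiskerRight_assoc, inrM_whiskerRight_assoc, Category.id_comp,
      inlM_associator, ← id_tensorHom, inrM_tensor']
  · change 𝟙 _ ≫ inrM _ _ ≫ inrM _ _ = inrM ((𝟙_ T.C ⊗ D.R) ⊗ D.R) D.R ≫ _
    rw [inrM_whiskerRight_assoc, Category.id_comp, inrM_associator]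

variable {R : RingSp T} (A : AdamsTower R.unit) (u : D.R ⟶ R.obj) [IsMonHom u]

theorem un_thom (Y : T.C) : unitMap D.R Y ≫ u ▷ Y = Tr.hur R.unit Y := by
  rw [unitMap, Tr.hur, Category.assoc, ← comp_whiskerRight, IsMonHom.one_hom]

theorem qAm_th₃ : (D.qAm U 3).inv ≫ u ▷ _ ≫ R.obj ◁ (u ▷ _ ≫ R.obj ◁ (u ▷ _)) =
    th₃ u ≫ R.obj ◁ R.obj ◁ (ρ_ R.obj).inv := by
  have h := th₃_nat u (𝟙 D.R)
  rw [th₃_id] at h
  have h1 : th₃ (𝟙 D.R ≫ u) = th₃ u := by simp only [Category.id_comp]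
  rw [← h1, ← h]
  change ((ρ_ _).inv ≫ (α_ _ _ _).hom ≫ (α_ _ _ _).hom ≫ (α_ _ _ _).hom ≫ (λ_ _).hom) ≫ _ = _
  simp only [MonoidalCategory.tensorHom_def]
  monoidal

/-- The map of towers. -/
theorem exists_cmp : ∃ τ : U.cobar.B 2 (𝟙_ T.C) ⟶ (A.X 2 ⊗ S1 T) ⊗ S1 T,
    τ ≫ A.toSphere 2 ▷ S1 T ▷ S1 T ≫ (th2 _).hom = bd2 U ∧
    qq D U 2 ≫ u ▷ _ ≫ R.obj ◁ τ ≫ (α_ _ _ _).inv ≫ (α_ _ _ _).inv ▷ S1 T = th₃ u ≫ St.proj A := by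
  obtain ⟨τ₁, h₁, h₂⟩ := (dist_bd U 0).map₃ (dist_de A 0) A.base.inv
    (u ▷ _ ≫ R.obj ◁ A.base.inv) (by rw [← Category.assoc, un_thom, Tr.hur_naturality])
  obtain ⟨τ₂, h₃, h₄⟩ := (dist_bd U 1).map₃ (dist_de' A 1) τ₁
    (u ▷ _ ≫ R.obj ◁ τ₁) (by rw [← Category.assoc, un_thom, Tr.hur_naturality])
  refine ⟨τ₂, ?_, ?_⟩
  · have h5 : τ₁ ≫ (A.g 0 ≫ A.base.hom) ▷ S1 T ≫ (T.tensor.e _).hom = -U.bd 0 (𝟙_ T.C) := by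
      rw [comp_whiskerRight, Category.assoc, T.tensor.e_naturality, ← Category.assoc (A.g 0 ▷ _),
        ← Category.assoc, ← neg_neg (τ₁ ≫ _), ← Preadditive.comp_neg, ← h₂, Preadditive.neg_comp,
        Category.assoc, ← Functor.map_comp, Iso.inv_hom_id, CategoryTheory.Functor.map_id,
        Category.comp_id]
    have h6 : τ₂ ≫ A.g 1 ▷ S1 T ▷ S1 T ≫ (th1 _).hom = -(U.bd 1 (𝟙_ T.C) ≫ τ₁⟦(1 : ℤ)⟧') := by
      rw [h₄, Preadditive.comp_neg, neg_neg]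
    change τ₂ ≫ (A.g 1 ≫ A.g 0 ≫ A.base.hom) ▷ S1 T ▷ S1 T ≫ (th1 _).hom ≫
      (T.tensor.e _).hom⟦(1 : ℤ)⟧' = _
    rw [comp_whiskerRight, comp_whiskerRight, Category.assoc, th1_nat_assoc, reassoc_of% h6,
      Preadditive.neg_comp, Category.assoc, ← Functor.map_comp, ← Functor.map_comp, h5,
      Functor.map_neg, Preadditive.comp_neg, neg_neg, bd2]
  · have h5 : D.R ◁ U.cobar.k 0 (𝟙_ T.C) ≫ U.cobar.k 1 (𝟙_ T.C) ≫ τ₂ =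
        u ▷ _ ≫ R.obj ◁ (u ▷ _ ≫ R.obj ◁ A.base.inv ≫ de A 0) ≫ (α_ _ _ _).inv ≫
          de A 1 ▷ S1 T := by
      rw [h₃, Category.assoc, whisker_exchange_assoc, ← MonoidalCategory.whiskerLeft_comp_assoc, h₁,
        Category.assoc]
    have h6 : qq D U 2 = (D.qAm U 3).inv ≫
        D.R ◁ (D.R ◁ U.cobar.k 0 (𝟙_ T.C) ≫ U.cobar.k 1 (𝟙_ T.C)) := by
      rw [qq, CobarData.q_two]
      rfl
    have h7 := qAm_th₃ U u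
    rw [h6, Category.assoc, whisker_exchange_assoc, ← MonoidalCategory.whiskerLeft_comp_assoc,
      Category.assoc, h5, proj_eq, pr1]
    simp only [MonoidalCategory.whiskerLeft_comp, Category.assoc] at h7 ⊢
    rw [reassoc_of% h7]
    simp

variable (D) in
/-- the image of the cocycle `b_j` in the first page of the Adams spectral sequence -/
noncomputable def bb {t : Cob Laz 1} (ht : IsT1 3 t) (j : ℕ) :
    (stdEven T.C).S (w0 j) ⟶ ((R.obj ⊗ A.X 2) ⊗ S1 T) ⊗ S1 T :=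
  D.evw 2 (w0 j) ⟨Bt t j, isWt_Bt ht j⟩ ≫ th₃ u ≫ St.proj A

variable (hH : Tr.IsHF 3 R.unit) {t : Cob Laz 1} (ht : IsT1 3 t) {j : ℕ}

include hH

/-- The class in the first page of the Adams spectral sequence from the cocycle for `MU`. -/
theorem key : ∃ k : ℕ, ∀ β, k ≤ β → ∀ (M : T.C) (i : 𝟙_ T.C ⟶ M) (δ : M ⟶ (𝟙_ T.C)⟦(1 : ℤ)⟧),
    Dist ((3 : ℤ) ^ β • 𝟙 (𝟙_ T.C)) i δ → ∀ {V : T.C}
    (ε : (stdEven T.C).S (w0 j) ≅ (V⟦(1 : ℤ)⟧)⟦(1 : ℤ)⟧) (θ : V ⟶ 𝟙_ T.C)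
    (s : (stdEven T.C).S (w0 j) ⟶ U.cobar.B 2 (𝟙_ T.C) ⊗ M) (x : Cob.wt Laz 2 (w0 j))
    (y : Cob.wt Laz 1 (w0 j)) (c : ℤ) (b : V ⟶ R.obj ⊗ A.X 2),
    s ≫ bd2 U ▷ M = ε.hom ≫ (θ⟦(1 : ℤ)⟧')⟦(1 : ℤ)⟧' ≫ red i _ →
    s ≫ unitMap D.R _ ▷ M = D.evw 2 _ x ≫ qq D U 2 ≫ red i _ →
    x.1 - Cob.d 1 y.1 - c * Bt t j ∈ II 2 →
    b ▷ S1 T ▷ S1 T = (th2 V).hom ≫ ε.inv ≫ bb D A u ht j →
    ∃ w : V ⟶ A.X 2, w ≫ A.toSphere 2 = θ ∧ w ≫ Tr.hur R.unit (A.X 2) = c • b := by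
  have h3 : (3 : ℤ) • η[R.obj] = 0 := (hH.ord 3).2 dvd_rfl
  obtain ⟨C, π, io, k, hk, h1, h2⟩ := exists_quot A (X.zsmul_id_eq_zero h3)
  obtain ⟨τ, h4, h5⟩ := exists_cmp U A u
  refine ⟨k, fun β hβ M i δ hM V ε θ s x y c b hs hs' hx hb => h2 θ _ (sig_inj (sig_inj ?_))⟩
  let l : D.R ⊗ U.cobar.B 2 (𝟙_ T.C) ⟶ (C ⊗ S1 T) ⊗ S1 T :=
    u ▷ _ ≫ R.obj ◁ τ ≫ (α_ _ _ _).inv ≫ (α_ _ _ _).inv ▷ S1 T ≫ io ▷ S1 T ▷ S1 T
  have l1 : unitMap D.R _ ≫ l = bd2 U ≫ (th2 _).inv ≫ π ▷ S1 T ▷ S1 T := by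
    rw [← h4, Category.assoc, Category.assoc, Iso.hom_inv_id_assoc, ← comp_whiskerRight,
      ← comp_whiskerRight, ← h1, ← Category.assoc, un_thom, ← Tr.hur_naturality_assoc,
      Tr.hur_tensor, Tr.hur_tensor]
    simp
  have l2 : qq D U 2 ≫ l = th₃ u ≫ St.proj A ≫ io ▷ S1 T ▷ S1 T := by
    rw [← reassoc_of% h5]
  have l3 : D.evw 2 _ x ≫ qq D U 2 ≫ l = c • (bb D A u ht j ≫ io ▷ S1 T ▷ S1 T) := by
    have e1 := evw_thom D hH.conc (p := 3) h3 u (w₀ R.obj) (s := 2) (th₃ u) (Am.v_lift _ _)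
      (x - Cob.dwt Laz 1 _ y - c • ⟨Bt t j, isWt_Bt ht j⟩) (h := 3) (by
        rw [← zsmul_eq_mul] at hx
        exact hx)
    have e2 : D.evw 2 _ (Cob.dwt Laz 1 _ y) ≫ qq D U 2 ≫ l = 0 := by
      rw [D.evw_dwt, ← dd, Category.assoc, dd_qq_assoc D U 1, l1, bd2, Category.assoc,
        reassoc_of% (dist_bd U 1).zero₂₃, zero_comp, comp_zero, comp_zero]
    rw [map_sub, map_sub, map_zsmul, Preadditive.sub_comp, Preadditive.sub_comp, sub_sub,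
      sub_eq_zero] at e1
    rw [l2] at e2 ⊢
    rw [reassoc_of% e1, Preadditive.add_comp, Category.assoc, e2, zero_add,
      Preadditive.zsmul_comp, Preadditive.zsmul_comp, bb]
    simp only [Category.assoc]
  have l4 : (ε.hom ≫ (th2 V).inv ≫ (θ ≫ π) ▷ S1 T ▷ S1 T -
      c • (bb D A u ht j ≫ io ▷ S1 T ▷ S1 T)) ≫ red i _ = 0 := by
    have e1 : (θ⟦(1 : ℤ)⟧')⟦(1 : ℤ)⟧' ≫ (th2 _).inv = (th2 V).inv ≫ θ ▷ S1 T ▷ S1 T := by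
      rw [Iso.comp_inv_eq, Category.assoc, th2_nat, Iso.inv_hom_id_assoc]
    rw [Preadditive.sub_comp, ← l3, Category.assoc, Category.assoc, Category.assoc,
      Category.assoc, red_nat i l, ← reassoc_of% hs', ← comp_whiskerRight, l1,
      comp_whiskerRight (bd2 U), reassoc_of% hs, ← red_nat, comp_whiskerRight, comp_whiskerRight]
    simp only [Category.assoc, reassoc_of% e1, sub_self]
  obtain ⟨z, hz⟩ := (dist_red hM _).lift₂ _ l4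
  obtain ⟨m, rfl⟩ := Nat.exists_eq_add_of_le' hβ
  have e2 : (3 : ℤ) ^ k • 𝟙 ((C ⊗ S1 T) ⊗ S1 T) = 0 := by
    rw [← Cv.DivAux.smul_whisker, ← Cv.DivAux.smul_whisker, hk,
      MonoidalPreadditive.zero_whiskerRight, MonoidalPreadditive.zero_whiskerRight]
  rw [pow_add, ← smul_smul, e2, smul_zero, comp_zero, eq_comm, sub_eq_zero, ← Iso.eq_inv_comp,
    Iso.inv_comp_eq] at hz
  have e3 : ∀ {X Y : T.C} (f : X ⟶ Y), (c • f) ▷ S1 T = c • (f ▷ S1 T) := fun f =>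
    (tensorRight (S1 T)).map_zsmul
  rw [hz, Preadditive.zsmul_comp, e3, e3, comp_whiskerRight, comp_whiskerRight, hb]
  simp only [Category.assoc, Preadditive.comp_zsmul]

omit hH in
/-- The lift to the second stage of the tower of `MU` and its cocycle. -/
theorem exists_lift2 {β : ℕ} {M : T.C} {i : 𝟙_ T.C ⟶ M} {δ : M ⟶ (𝟙_ T.C)⟦(1 : ℤ)⟧}
    (hM : Dist (((3 : ℕ) : ℤ) ^ β • 𝟙 (𝟙_ T.C)) i δ) {w w' : ℤ} (h : w + 1 = w') (hw : ¬ 2 ∣ w)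
    (θ : (stdEven T.C).S w ⟶ 𝟙_ T.C) :
    ∃ (s : (stdEven T.C).S w' ⟶ U.cobar.B 2 (𝟙_ T.C) ⊗ M) (x : Cob.wt Laz 2 w'),
      (3 : Cob Laz 3) ^ β ∣ Cob.d 2 x.1 ∧
      s ≫ bd2 U ▷ M = (eS h).hom ≫ (θ⟦(1 : ℤ)⟧')⟦(1 : ℤ)⟧' ≫ red i _ ∧
      s ≫ unitMap D.R _ ▷ M = D.evw 2 w' x ≫ qq D U 2 ≫ red i _ := by
  obtain ⟨a, ha⟩ := div_zero D U (p := 3) (by norm_num) (by simpa using hw) β
    (θ ≫ U.cobar.d 0 (𝟙_ T.C)) (by rw [Category.assoc, CobarData.d_d, comp_zero])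
  obtain ⟨d₀, E₀⟩ := Tr.dist_tensR (dist_bd U 0).rot.rot.rot.rot.rot M
  obtain ⟨d₁, E₁⟩ := Tr.dist_tensR (dist_bd U 1).rot.rot M
  obtain ⟨s₁, h₁⟩ := E₀.lift₂ ((eS h).hom ≫ (θ⟦(1 : ℤ)⟧')⟦(1 : ℤ)⟧' ≫ red i _) (by
    rw [Category.assoc, Category.assoc, ← red_nat, Functor.map_neg, neg_neg,
      ← Functor.map_comp_assoc, ← Functor.map_comp]
    exact (congrArg (fun f => (eS h).hom ≫ (f⟦(1 : ℤ)⟧')⟦(1 : ℤ)⟧' ≫ red i _) ha.symm).trans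
      (by rw [Functor.map_zsmul, Functor.map_zsmul, zsmul_red' hM, comp_zero]))
  obtain ⟨s₂, h₂⟩ := E₁.lift₂ (-s₁) (by
    let c := ((tensorRight M).commShiftIso (1 : ℤ)).app (D.R ⊗ U.cobar.B 1 (𝟙_ T.C))
    obtain ⟨g, hg⟩ := (shiftFunctor T.C (1 : ℤ)).map_surjective ((eS h).inv ≫
      ((-s₁) ≫ (-(unitMap D.R (U.cobar.B 1 (𝟙_ T.C)))⟦(1 : ℤ)⟧') ▷ M) ≫ c.hom)
    obtain ⟨g', hg'⟩ : ∃ g' : ((stdEven T.C).S w)⟦(1 : ℤ)⟧ ⟶ U.cobar.Q 2 (𝟙_ T.C) ⊗ M,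
        g' ≫ (U.cobar.q 1 (𝟙_ T.C) ▷ M) = g :=
      U.cobar.q_surjective (F := homM (((stdEven T.C).S w)⟦(1 : ℤ)⟧) M) 1 (𝟙_ T.C) g
    rw [red_odd D U (by norm_num) hM 1 w g', zero_comp] at hg'
    rw [← cancel_epi (eS h).inv, ← cancel_mono c.hom, Category.assoc, ← hg, ← hg',
      Functor.map_zero, comp_zero, zero_comp])
  obtain ⟨x, hx, hs⟩ := Cv.un_even D U hM 2 w' s₂
  refine ⟨s₂, x, hx, ?_, ?_⟩
  · have e : (-(U.bd 0 (𝟙_ T.C))⟦(1 : ℤ)⟧') ▷ M = -((U.bd 0 (𝟙_ T.C))⟦(1 : ℤ)⟧' ▷ M) :=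
      (tensorRight M).map_neg
    rw [bd2, comp_whiskerRight, reassoc_of% h₂, ← h₁, e, Preadditive.neg_comp,
      Preadditive.comp_neg]
  · rw [hs, D.phi_apply, qq, Category.assoc, Category.assoc]

/-- Every class of the critical stem is represented by a multiple of `b_j`. -/
theorem classify {w : ℤ} (h : w + 1 = w0 j) (θ : (stdEven T.C).S w ⟶ 𝟙_ T.C)
    (b : (stdEven T.C).S w ⟶ R.obj ⊗ A.X 2)
    (hb : b ▷ S1 T ▷ S1 T = (th2 _).hom ≫ (eS h).inv ≫ bb D A u ht j) :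
    ∃ (c : ℤ) (v : (stdEven T.C).S w ⟶ A.X 2), v ≫ A.toSphere 2 = θ ∧
      v ≫ Tr.hur R.unit (A.X 2) = c • b := by
  obtain ⟨U⟩ := exists_unitCof D.R
  obtain ⟨k, hk⟩ := key U A u hH ht (j := j)
  obtain ⟨M, i, δ, hM⟩ := exists_cone ((3 : ℤ) ^ (j + 5 + k) • 𝟙 (𝟙_ T.C))
  obtain ⟨s, x, hx, h1, h2⟩ := exists_lift2 U hM h (by
    have h5 : w0 j = 2 * 3 ^ (j + 1) := rfl
    omega) θ
  obtain ⟨c, y, hy, h3⟩ := listB ht x.2 ((pow_dvd_pow _ (Nat.le_add_right _ _)).trans hx)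
  exact ⟨c, hk _ (by omega) M i δ hM (eS h) θ s x ⟨y, hy⟩ c b h1 h2 h3 hb⟩

/-- The class `b_j` is not a boundary. -/
theorem not_boundary {F : SpaceFunctor T.C} {e : F.S.obj CCF ≅ (stdEven T.C).L}
    (hD : MUUniv e D) {V : T.C} (hV : ∀ z : V ⊗ S1 T ⟶ R.obj, z = 0)
    (ε : (V ⊗ S1 T) ⊗ S1 T ≅ (stdEven T.C).S (w0 j)) (y : V ⟶ A.X 2)
    (hy : y ≫ A.toSphere 2 = 0) :
    (y ≫ Tr.hur R.unit (A.X 2)) ▷ S1 T ▷ S1 T ≠ ε.hom ≫ bb D A u ht j := by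
  intro h
  obtain ⟨z, hz⟩ := boundary_proj A hV y hy
  obtain ⟨p, q, hpq⟩ := ker_proj A (D.evw 2 (w0 j) ⟨Bt t j, isWt_Bt ht j⟩ ≫ th₃ u -
    ε.inv ≫ z ≫ inrM R.obj (R.obj ⊗ R.obj)) (by
      rw [Preadditive.sub_comp, Category.assoc, Category.assoc, Category.assoc, hz, h,
        Iso.inv_hom_id_assoc, bb, sub_self])
  refine nbh hD hH ht u j (ε.inv ≫ z) p q ?_
  rw [face₁₂, face₀₂, face₀₁, add_assoc, ← hpq, Category.assoc, add_sub_cancel]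

end Vale.Agent.P236K
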