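import Vale.Agent.P236K.Mo
import Vale.Agent.P236TD.Defs

/-!
# P236, block S: the functional coaction of a map of filtration `< 2` on a Moore spectrum
-/

open CategoryTheory MonoidalCategory MonObj Limits Pretriangulated

set_option linter.unusedSectionVars false

namespace Vale.Agent.P236K

open Vale.Agent.P251 Vale.Agent.P251.S Vale.Agent.P251.T Vale.Agent.P251.M Vale.Agent.P251.F
  Vale.Agent.P251.I Vale.Agent.P251.H EvenSpheres Vale.Agent.P257 Vale.Agent.P257.H80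
  Vale.Agent.P236Z Vale.Agent.P236Z.Det Vale.Agent.P251.Z
open Vale.Agent.P251.St (SHCat RingSp)
open Vale.Agent.P236Z.St (AdamsTower)

open Vale.Agent.P236Z.Dt

variable {T : SHCat} (D : MUData T.C) (U : UnitCof D.R)

theorem ker_qq {P : T.C} (z : P ⟶ Am D.R 2) (hz : z ≫ qq D U 1 = 0) :
    ∃ p : P ⟶ D.R, z = p ≫ Am.v D.R (0 : Fin 2) := by
  obtain ⟨d, E⟩ := Tr.dist_tensL (dist_bd U 0) D.R
  obtain ⟨p, hp⟩ := E.lift₂ (z ≫ (D.qAm U 2).inv) (by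
    rw [Category.assoc, ← hz, qq, CobarData.q_succ, CobarData.q_zero]
    exact congrArg (fun f => z ≫ _ ≫ f) (Category.comp_id _).symm)
  refine ⟨p ≫ (ρ_ D.R).hom, ?_⟩
  have h0 : η[𝟙_ T.C] = 𝟙 _ := rfl
  have h1 : Am.v D.R (0 : Fin 2) = inrM (𝟙_ T.C) D.R ≫ inlM _ D.R := rfl
  rw [← cancel_mono (D.qAm U 2).inv, ← hp, qAm_two, h1, Category.assoc, Category.assoc,
    Category.assoc, inlM_whiskerRight_assoc, inrM, h0, inlM]
  refine congrArg (p ≫ ·) ?_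
  change D.R ◁ ((λ_ _).inv ≫ η[D.R] ▷ 𝟙_ T.C) = _
  simp only [id_whiskerRight, Category.id_comp, Iso.inv_hom_id_assoc, Category.assoc]
  monoidal

variable {H : T.C} [MonObj H] [IsCommMonObj H] (hH : Tr.IsHF 3 η[H]) (u : D.R ⟶ H) [IsMonHom u]

theorem dd_th₂ : dd D 1 ≫ th₂ u = (λ_ D.R).hom ≫ u ≫ (inrM H H - inlM H H) := by
  have h0 : η[𝟙_ T.C] = 𝟙 _ := rfl
  have h1 : (λ_ D.R).inv = Am.v D.R (0 : Fin 1) := by
    change _ = inrM (𝟙_ T.C) D.R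
    rw [inrM, h0]
    simp
  rw [← Iso.inv_comp_eq, h1, dd, Fin.sum_univ_two]
  simp only [Preadditive.comp_add, Preadditive.add_comp, Preadditive.comp_zsmul,
    Preadditive.zsmul_comp, Am.v_map_assoc]
  change _ • (Am.v D.R (1 : Fin 2) ≫ _) + _ • (Am.v D.R (0 : Fin 2) ≫ _) = _
  rw [v_zero_pairM, v_one_pairM]
  simp [sub_eq_add_neg]

include hH in
theorem even_van {w : ℤ} (hw : w ≠ 0) (a : (stdEven T.C).S w ⟶ H) : a = 0 := by
  rw [← cancel_epi ((stdEven T.C).sphIso (Iso.refl _) w).inv, hH.conc _ (by omega) (_ ≫ _),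
    comp_zero]

include hH in
theorem val_y {t : Cob Laz 1} (ht : IsT1 3 t) {j : ℕ} (y : Cob.wt Laz 1 (w0 j))
    (z : Cob.wt Laz 0 (w0 j)) (m : ℤ) (hy : y.1 - Cob.d 0 z.1 - m * t ^ 3 ^ (j + 1) ∈ II 1) :
    HRing.of _ _ _ (D.evw 1 _ y ≫ th₂ u) =
      m • HRing.map (E := stdEven T.C) (th₂ u) (D.ev 1 (t ^ 3 ^ (j + 1))) := by
  have hT : Cob.IsWt (w0 j) (t ^ 3 ^ (j + 1)) :=
    isWt_cast ((isWt_t1 ht).pow _) (by rw [w0_eq]; ring)
  have h1 := evw_thom D hH.conc (p := 3) ((hH.ord 3).2 dvd_rfl) u (inlM H H) (s := 1) (th₂ u)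
    (v_zero_pairM _ _) (y - Cob.dwt Laz 0 _ z - m • ⟨_, hT⟩) (h := 3) (by
      rw [← zsmul_eq_mul] at hy
      exact hy)
  have h2 : D.evw 1 _ (Cob.dwt Laz 0 _ z) ≫ th₂ u = 0 := by
    rw [D.evw_dwt, ← dd, Category.assoc, dd_th₂, ← Category.assoc (λ_ _).hom, ← Category.assoc,
      even_van hH (by rw [w0]; positivity) (_ ≫ _ ≫ u), zero_comp]
  rw [map_sub, map_sub, map_zsmul, Preadditive.sub_comp, Preadditive.sub_comp, h2, sub_zero,
    sub_eq_zero, Preadditive.zsmul_comp] at h1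
  rw [h1, ← D.of_evw ⟨_, hT⟩, HRing.map_of]
  exact map_zsmul (DirectSum.of ((stdEven T.C).Gr _) _) _ _

theorem cube (j : ℕ) : P236TD.CUBE j := by
  intro T F H _ _ hH S X C σ b d g c q r hX hC hg hr
  obtain ⟨M⟩ := nonempty_MUMon F (stdEven T.C) (lineIso F)
  obtain ⟨bs⟩ := M.nonempty_muBasis
  have hD := M.muUniv bs
  generalize M.data bs = D at hD
  obtain ⟨u, _⟩ := exists_thom D hH.conc
  obtain ⟨U⟩ := exists_unitCof D.R
  obtain ⟨t, ht⟩ := T1 3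
  have hw : w0 j ≠ 0 := by rw [w0]; positivity
  let ν : (stdEven T.C).S (2 * 3 ^ (j + 1) - 1) ≅ S := stemIso T j ≪≫ σ.symm
  have hX' : Dist ((3 : ℤ) • 𝟙 _) (ν.hom⟦(1 : ℤ)⟧' ≫ b⟦(1 : ℤ)⟧') _ :=
    Tr.dist_iso (dist_shift hX) ((shiftFunctor T.C (1 : ℤ)).mapIso ν)
      ((shiftFunctor T.C (1 : ℤ)).mapIso ν) (Iso.refl _) (by simp) (by simp)
  obtain ⟨g₁, y, -, -, z, -, m, hm, h1, h2, h3, -⟩ := moore_unit D U hH u ht (stem_succ j) hX'
    (-g⟦(1 : ℤ)⟧') fun h => hg ((af_shift 1).1 (by simpa using h.post (-𝟙 _)))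
  obtain ⟨ρ, h4, h5⟩ := hC.rot.map₂ (dist_bd U 0) (𝟙 _) g₁ (by rw [h1]; simp)
  obtain rfl : r = ρ ≫ (ρ_ D.R).hom ≫ u := by
    obtain ⟨a, ha⟩ := hC.desc₃ (r - ρ ≫ (ρ_ D.R).hom ≫ u) (by
      rw [Preadditive.comp_sub, hr, reassoc_of% h4, ← rightUnitor_naturality,
        ← Category.assoc (unitMap _ _), un_thom', Tr.hur_unit, sub_self])
    obtain ⟨a, rfl⟩ := hX'.desc₃ a (by
      rw [← cancel_epi (eO _).inv, hH.conc _ (by omega) (_ ≫ _), comp_zero])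
    rw [← sub_eq_zero, ← ha, ← Iso.inv_hom_id_assoc (eS (stem_succ j)) a,
      even_van hH hw (_ ≫ a), comp_zero, comp_zero, comp_zero]
  let v : (stdEven T.C).S (w0 j) ≅ (S⟦(1 : ℤ)⟧)⟦(1 : ℤ)⟧ := eS (stem_succ j) ≪≫
    (shiftFunctor T.C (1 : ℤ)).mapIso ((shiftFunctor T.C (1 : ℤ)).mapIso ν)
  obtain ⟨p, hp⟩ := ker_qq D U (ρ ≫ (D.qAm U 1).hom ≫ dd D 1 +
      q ≫ d⟦(1 : ℤ)⟧' ≫ v.inv ≫ D.evw 1 _ y) (by
    rw [Preadditive.add_comp, Category.assoc, Category.assoc, dd_qq D U 0, qq, Category.assoc,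
      Iso.hom_inv_id_assoc, CobarData.q_zero, Category.id_comp, ← reassoc_of% h5, h2]
    simp [v])
  have h6 := congrArg (· ≫ th₂ u) hp
  have h7 : (D.qAm U 1).hom ≫ (λ_ D.R).hom = (ρ_ D.R).hom := by
    rw [← Iso.eq_inv_comp, qAm_one]
    simp
  simp only [Preadditive.add_comp, Category.assoc] at h6
  rw [dd_th₂, reassoc_of% h7, v_zero_pairM] at h6
  have h8 := congrArg (· ≫ μ[H]) h6
  have h9 : inlM H H ≫ μ[H] = 𝟙 _ := by simp [inlM]
  have h10 : inrM H H ≫ μ[H] = 𝟙 _ := by simp [inrM]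
  simp only [Preadditive.add_comp, Preadditive.sub_comp, Category.assoc, h9, h10] at h8
  rw [even_van hH hw (D.evw 1 _ y ≫ _)] at h8
  simp only [sub_self, comp_zero, add_zero, Category.comp_id] at h8
  rw [← reassoc_of% h8, zero_comp] at h6
  refine ⟨-(v.inv ≫ D.evw 1 _ y ≫ th₂ u), ?_, fun h => ?_⟩
  · change _ ≫ inrM H H = _ ≫ inlM H H + _
    rw [Preadditive.comp_neg, Preadditive.comp_neg, ← sub_eq_add_neg, ← sub_eq_zero, ← h6]
    simp only [Category.assoc, Preadditive.comp_sub]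
    abel
  · have h11 := of_cube (p := w0 (j + 1)) (by rw [w0, w0]; ring) v
      (-(v.inv ≫ D.evw 1 _ y ≫ th₂ u)) (-(v.inv ≫ D.evw 1 _ y ≫ th₂ u))
      (-(v.inv ≫ D.evw 1 _ y ≫ th₂ u))
    have h12 : HRing.of _ _ _ (v.hom ≫ (-(v.inv ≫ D.evw 1 _ y ≫ th₂ u))) =
        -(m • HRing.map (E := stdEven T.C) (th₂ u) (D.ev 1 (t ^ 3 ^ (j + 1)))) := by
      rw [Preadditive.comp_neg, Iso.hom_inv_id_assoc, ← val_y D hH u ht y z m h3]
      exact map_neg (DirectSum.of ((stdEven T.C).Gr _) _) _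
    rw [Cat.Step.mul3, ← Category.assoc, ← id_tensorHom, tensorHom_comp_tensorHom,
      Category.comp_id] at h
    rw [h, h12, comp_zero, show HRing.of _ _ _ (0 : _ ⟶ H ⊗ H) = 0 from
      map_zero (DirectSum.of ((stdEven T.C).Gr _) _)] at h11
    have h13 : (3 : HRing (stdEven T.C) (H ⊗ H)) = 0 :=
      three_HRing (three_of_hom ((hH.ord 3).2 dvd_rfl) (inlM H H))
    obtain ⟨a, a', ha⟩ : IsCoprime 3 (m ^ 3) :=
      (Int.prime_three.irreducible.coprime_iff_not_dvd.2 hm).pow_right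
    have h14 := congrArg (Int.cast : ℤ → HRing (stdEven T.C) (H ⊗ H)) ha
    refine t1_pow_ne hD hH ht u (3 ^ (j + 1) * 3) ?_
    rw [pow_mul, map_pow, map_pow]
    rw [zsmul_eq_mul] at h11
    push_cast at h14
    generalize HRing.map (E := stdEven T.C) (th₂ u) (D.ev 1 (t ^ 3 ^ (j + 1))) = ξ at h11 ⊢
    linear_combination (a' : HRing (stdEven T.C) (H ⊗ H)) * h11 - ξ ^ 3 * h14 + a * ξ ^ 3 * h13

end Vale.Agent.P236K
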