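import Vale.Agent.P236K.Sk
import Vale.Agent.P236Z.Tr.Main
import Vale.Agent.P236Z.Cv.Div

/-!
# P236, block S: elements of the stable stems, their order and their filtration in two models
-/

open CategoryTheory MonoidalCategory Limits Pretriangulated ZeroObject
open Vale.Agent.P251.T Vale.Agent.P251.H Vale.Agent.P251.M Vale.Agent.P251.I
  Vale.Agent.P251.G Vale.Agent.P251.G.LC Vale.Agent.P236Z Vale.Agent.P236Z.Tr
open Vale.Agent.P251.St (SHCat)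

set_option linter.unusedSectionVars false

namespace Vale.Agent.P236K

variable {T₀ T : SHCat} (F₀ : SpaceFunctor T₀.C) (F : SpaceFunctor T.C)

theorem tor_transfer (p : ℕ) {X Z : FCat} {a : X ⟶ Z} (h : (p : ℤ) • F₀.S.map a = 0) :
    (p : ℤ) • F.S.map a = 0 := by
  let E : FCat := ⟨LC.of Empty, FC.empty⟩
  have hE : IsEmpty E.obj := inferInstanceAs (IsEmpty Empty)
  obtain ⟨w, hw⟩ := ft_transfer F₀ F (a := a ▷ RRF ≫ Z ◁ (FCat.hom (mfold p) : RRF ⟶ RRF))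
    (b := (FCat.hom 0 : E ⟶ Z ⊗ RRF)) ⟨0, by
      rw [Functor.map_comp, S_whiskerLeft_mfold, S_whiskerRight, Preadditive.comp_zsmul,
        Category.comp_id, ← Preadditive.comp_zsmul, ← Preadditive.zsmul_comp,
        ← zsmul_whiskerRight, h]
      simp⟩
  rw [(F.isZero hE).eq_of_tgt w 0, zero_comp, Functor.map_comp, S_whiskerLeft_mfold,
    S_whiskerRight, Preadditive.comp_zsmul, Category.comp_id, ← Preadditive.comp_zsmul,
    ← Preadditive.zsmul_comp, ← zsmul_whiskerRight, eq_comm,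
    Preadditive.IsIso.comp_left_eq_zero, Preadditive.IsIso.comp_right_eq_zero] at hw
  have h1 := eq_conj_whiskerRight (invOf F.line) ((p : ℤ) • F.S.map a)
  rw [hw, MonoidalPreadditive.zero_whiskerRight, zero_comp, eq_comm] at h1
  exact (Preadditive.IsIso.comp_left_eq_zero _ _).1 h1

theorem af_transfer {p : ℕ} {H₀ : T₀.C} {η₀ : 𝟙_ T₀.C ⟶ H₀} (hH₀ : IsHF p η₀) {H : T.C}
    {η : 𝟙_ T.C ⟶ H} (hH : IsHF p η) {s : ℕ} {P Q : FCat} {n : ℤ} (t : P ⟶ Q)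
    (eP : F₀.S.obj P ≅ (𝟙_ T₀.C)⟦n⟧) (h : AF η₀ s (F₀.S.map t)) : AF η s (F.S.map t) := by
  have := locallySmall_self.{0} T₀.C
  obtain ⟨X, j, ⟨U, V, u, K, ⟨eV⟩, hu, hj⟩, hf⟩ := exists_fin (η := η₀) (Rz F₀ F η)
    (rz_zero F₀ F) (fun s X X' j j' hX hj hj' => by
      rw [add_comm]
      exact rz_mul F₀ F (rz_one F₀ F hH₀ hH hX j hj) hj') _ s _ (eP.inv ≫ F₀.S.map t) (h.pre _)
  have h1 : FT (F₀.S.map t) (sc j _) := (FT.iso eP.symm _).trans hf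
  have h2 : FT (F₀.S.map (V ◁ t)) (F₀.S.map (u ▷ Q)) := by
    rw [S_whiskerLeft, S_whiskerRight]
    refine FT.pre _ (FT.trans (FT.post ?_ _) (FT.iso (mu F₀ _ _).symm _))
    refine (h1.whiskerLeft _).trans ?_
    rw [sc_comm, sc_tensor]
    exact ((hj.whiskerRight _).pre _).pre _
  have h3 : AF η s (F.S.map (V ◁ t)) := by
    refine (ft_transfer F₀ F h2).af ?_
    rw [S_whiskerRight]
    exact ((hu.whiskerRight _).post _).pre _
  refine AF.of_whiskerLeft (invOf eV) ?_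
  have h5 := (h3.post (mu F V _).inv).pre (mu F V _).hom
  rw [S_whiskerLeft] at h5
  simpa only [Category.assoc, Iso.hom_inv_id_assoc, Iso.hom_inv_id, Category.comp_id] using h5

theorem af_shift {H : T.C} {η : 𝟙_ T.C ⟶ H} {s : ℕ} {A B : T.C} {f : A ⟶ B} (k : ℤ) :
    AF η s (f⟦k⟧') ↔ AF η s f := by
  have h := P251.S.tensorSph_naturality k f
  constructor
  · intro h1
    refine AF.of_whiskerRight (invOf (Iso.refl ((𝟙_ T.C)⟦k⟧))) ?_
    rw [← Iso.eq_comp_inv] at h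
    rw [h]
    exact (h1.pre _).post _
  · intro h1
    rw [← Iso.inv_comp_eq] at h
    rw [← h]
    exact ((h1.whiskerRight _).post _).pre _

include F₀ F in
/-- An element of a stable stem in another model. -/
theorem elt_transfer {p : ℕ} {H₀ : T₀.C} {η₀ : 𝟙_ T₀.C ⟶ H₀} (hH₀ : IsHF p η₀) {H : T.C}
    {η : 𝟙_ T.C ⟶ H} (hH : IsHF p η) {n : ℤ} (θ₀ : (𝟙_ T₀.C)⟦n⟧ ⟶ 𝟙_ T₀.C) :
    ∃ θ : (𝟙_ T.C)⟦n⟧ ⟶ 𝟙_ T.C, (∀ m : ℕ, (m : ℤ) • θ₀ = 0 → (m : ℤ) • θ = 0) ∧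
      ∀ s, AF η s θ → AF η₀ s θ₀ := by
  obtain ⟨a, b, hb⟩ : ∃ a b : ℕ, n + (a : ℤ) = b :=
    ⟨n.natAbs, (n + (n.natAbs : ℤ)).toNat, by omega⟩
  let c : (𝟙_ T₀.C)⟦n⟧ ⊗ F₀.S.obj (SphF a) ≅ F₀.S.obj (SphF b) := tenOf _ (sphIso F₀ a) ≪≫
    ((shiftFunctorAdd' T₀.C n _ _ hb).app _).symm ≪≫ (sphIso F₀ b).symm
  obtain ⟨M, t, ht⟩ := F₀.full (c.inv ≫ sc θ₀ (F₀.S.obj (SphF a)))
  let eP : F.S.obj (SphF b ⊗ SphF M) ≅ (𝟙_ T.C)⟦n + ((a : ℤ) + M)⟧ := sphShift F _ M ≪≫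
    (shiftFunctor T.C (M : ℤ)).mapIso (sphIso F b) ≪≫
      ((shiftFunctorAdd' T.C (b : ℤ) _ _ (by omega)).app _).symm
  let eQ : F.S.obj (SphF a ⊗ SphF M) ≅ (𝟙_ T.C)⟦(a : ℤ) + M⟧ := sphShift F _ M ≪≫
    (shiftFunctor T.C (M : ℤ)).mapIso (sphIso F a) ≪≫ ((shiftFunctorAdd T.C _ _).app _).symm
  let eR := eP ≪≫ (shiftFunctorAdd T.C n ((a : ℤ) + M)).app (𝟙_ T.C)
  obtain ⟨θ, hθ⟩ := (shiftFunctor T.C ((a : ℤ) + M)).map_surjective (eR.inv ≫ F.S.map t ≫ eQ.hom)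
  refine ⟨θ, fun m hm => ?_, fun s hs => ?_⟩
  · apply (shiftFunctor T.C ((a : ℤ) + M)).map_injective
    rw [Functor.map_zsmul, hθ, ← Preadditive.comp_zsmul, ← Preadditive.zsmul_comp,
      tor_transfer F₀ F m, zero_comp, comp_zero, Functor.map_zero]
    rw [ht, ← Preadditive.comp_zsmul, ← Preadditive.zsmul_comp, ← zsmul_whiskerRight,
      ← Preadditive.comp_zsmul, ← sc_zsmul, hm]
    simp [sc]
  · have h3 := (((af_shift ((a : ℤ) + M)).2 hs).post eQ.inv).pre eR.hom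
    rw [hθ, Category.assoc, Category.assoc, Iso.hom_inv_id_assoc, Iso.hom_inv_id,
      Category.comp_id] at h3
    have h4 := af_transfer F F₀ hH hH₀ t eP h3
    have h6 : AF η₀ s (c.inv ≫ sc θ₀ (F₀.S.obj (SphF a))) := by
      refine AF.of_whiskerRight (invOf (sphIso F₀ M)) ?_
      have h5 := (h4.post (mu F₀ _ _).inv).pre (mu F₀ _ _).hom
      rw [ht] at h5
      simpa only [Category.assoc, Iso.hom_inv_id_assoc, Iso.hom_inv_id, Category.comp_id] using h5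
    refine AF.of_whiskerRight (invOf (sphIso F₀ a)) ?_
    have h7 := (h6.post (λ_ _).inv).pre c.hom
    simpa only [sc, Category.assoc, Iso.hom_inv_id_assoc, Iso.hom_inv_id, Category.comp_id]
      using h7

include F in
/-- The filtration does not depend on the Eilenberg-Mac Lane object. -/
theorem af_change {H H' : T.C} {η : 𝟙_ T.C ⟶ H} {η' : 𝟙_ T.C ⟶ H'} (hH : IsHF 3 η)
    (hH' : IsHF 3 η') {s : ℕ} {A B : T.C} {f : A ⟶ B} (h : AF η s f) : AF η' s f := by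
  have := locallySmall_self.{0} T.C
  obtain ⟨Z, e, r, d, hc, rfl, E⟩ := Cv.DivAux.exists_Z F hH
  obtain ⟨φ, hφ⟩ : ∃ φ, e ≫ φ = η' := (P251.X.bij_of_cofIn hH'.conc hc).2 η'
  obtain ⟨ψ, hψ⟩ := E.desc₂ φ (by
    rw [Preadditive.zsmul_comp, Category.id_comp, Cv.DivAux.smul_of_id (Cv.DivAux.three_H F hH')])
  induction s generalizing B with
  | zero => trivial
  | succ s ih =>
    obtain ⟨C, g, k, rfl, hg, hk⟩ := h
    refine AF.succ (ih hg) ?_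
    have h1 : hur η' B = hur (e ≫ r) B ≫ ψ ▷ B := by
      rw [hur, hur, Category.assoc, ← comp_whiskerRight, Category.assoc, hψ, hφ]
    rw [Null, h1, ← Category.assoc, hk, zero_comp]

end Vale.Agent.P236K
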