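import Vale.Agent.P236K.Val
import Vale.Agent.P236K.Trans
import Vale.Agent.P236Z.Top.All

/-!
# P236, block S: the final statement from the existence and nonexistence statements
-/

open CategoryTheory MonoidalCategory MonObj Limits Pretriangulated

set_option linter.unusedSectionVars false

namespace Vale.Agent.P236K

open Vale.Agent.P251 Vale.Agent.P251.S Vale.Agent.P251.T Vale.Agent.P251.M Vale.Agent.P251.F
  Vale.Agent.P251.I Vale.Agent.P251.H EvenSpheres Vale.Agent.P257 Vale.Agent.P257.H80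
  Vale.Agent.P236Z Vale.Agent.P236Z.Det Vale.Agent.P251.Z
open Vale.Agent.P251.St (SHCat RingSp)
open Vale.Agent.P236Z.St (AdamsTower)

open Vale.Agent.P236Z.Dt
open Vale.Agent.P251.St (Susp)

variable {T : SHCat}

theorem exists_sign_iso {A B : T.C} (α : A ≅ B) {s : ℤ} (hs : s = 1 ∨ s = -1) :
    ∃ β : A ≅ B, β.hom = s • α.hom := by
  rcases hs with rfl | rfl
  · exact ⟨α, (one_smul _ _).symm⟩
  · exact ⟨⟨-α.hom, -α.inv, by simp, by simp⟩, by simp⟩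

theorem three_cases {G : Type*} [AddCommGroup G] {x : G} (h : (3 : ℤ) • x = 0) (m : ℤ) :
    m • x = 0 ∨ m • x = x ∨ m • x = -x := by
  obtain ⟨k, rfl | rfl | rfl⟩ : ∃ k, m = k * 3 ∨ m = k * 3 + 1 ∨ m = k * 3 - 1 :=
    ⟨(m + 1) / 3, by omega⟩
  · exact Or.inl (by rw [mul_smul, h, smul_zero])
  · exact Or.inr (Or.inl (by rw [add_smul, mul_smul, h, smul_zero, zero_add, one_smul]))
  · exact Or.inr (Or.inr (by rw [sub_smul, mul_smul, h, smul_zero, zero_sub, one_smul]))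

theorem sq_smul {G : Type*} [AddCommGroup G] {x : G} (h : (3 : ℤ) • x = 0) {m : ℤ}
    (hm : ¬ (3 : ℤ) ∣ m) : m • m • x = x := by
  obtain ⟨k, rfl | rfl⟩ : ∃ k, m = k * 3 + 1 ∨ m = k * 3 - 1 := ⟨(m + 1) / 3, by omega⟩
  · rw [smul_smul, show (k * 3 + 1) * (k * 3 + 1) = (3 * k * k + 2 * k) * 3 + 1 by ring, add_smul,
      mul_smul, h, smul_zero, zero_add, one_smul]
  · rw [smul_smul, show (k * 3 - 1) * (k * 3 - 1) = (3 * k * k - 2 * k) * 3 + 1 by ring, add_smul,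
      mul_smul, h, smul_zero, zero_add, one_smul]

section Det

variable {H : T.C} {a : 𝟙_ T.C ⟶ H} (A : AdamsTower a)

theorem af_of_filtGe {n : ℤ} {θ : (𝟙_ T.C)⟦n⟧ ⟶ 𝟙_ T.C} (h : A.FiltGe 3 θ) : Tr.AF a 3 θ := by
  obtain ⟨w, rfl⟩ := h
  have h1 := (Tr.AF.of_three (Top.tower_dist A 0) (Top.tower_dist A 1) (Top.tower_dist A 2) w).post
    A.base.hom
  simp only [Category.assoc] at h1
  exact h1

theorem filtGe_of_null {n : ℤ} (w : (𝟙_ T.C)⟦n⟧ ⟶ A.X 2) (h : w ≫ Tr.hur a (A.X 2) = 0) :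
    A.FiltGe 3 (w ≫ A.toSphere 2) := by
  obtain ⟨v, rfl⟩ := (Top.tower_dist A 2).lift₂ w h
  exact ⟨v, (Category.assoc _ _ _).symm⟩

end Det

/-- the sphere of the critical stem -/
noncomputable def stemIso (T : SHCat) (j : ℕ) :
    (stdEven T.C).S (2 * 3 ^ (j + 1) - 1) ≅ (𝟙_ T.C)⟦St.stem j⟧ :=
  (stdEven T.C).sphIso (Iso.refl _) _ ≪≫ eqToIso (by congr 2; rw [St.stem]; ring)

theorem stem_succ (j : ℕ) : (2 * 3 ^ (j + 1) - 1 : ℤ) + 1 = w0 j := by rw [w0]; ring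

variable {R : RingSp T} (A : AdamsTower R.unit) {D : MUData T.C} (u : D.R ⟶ R.obj) [IsMonHom u]
  {t : Cob Laz 1} (ht : IsT1 3 t)

/-- The class `b_j` is well defined up to sign, and represents all classes of the stem. -/
theorem exists_b (F : SpaceFunctor T.C) (hH : Tr.IsHF 3 R.unit)
    (v : (stdEven T.C).S 2 ≅ (𝟙_ T.C)⟦(4 : ℤ)⟧) (ξ : (𝟙_ T.C)⟦(4 : ℤ)⟧ ⟶ R.obj ⊗ R.obj)
    {s : ℤ} (hs : s = 1 ∨ s = -1) (hξ : v.hom ≫ ξ = s • (D.evw 1 2 ⟨t, isWt_t1 ht⟩ ≫ th₂ u))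
    (j : ℕ) : ∃ b, (∀ b', St.IsB A ξ j b' ↔ b' = b ∨ b' = -b) ∧
      ∀ θ : (𝟙_ T.C)⟦St.stem j⟧ ⟶ 𝟙_ T.C, ∃ (c : ℤ) (w : (𝟙_ T.C)⟦St.stem j⟧ ⟶ A.X 2),
        w ≫ A.toSphere 2 = θ ∧ w ≫ Tr.hur R.unit (A.X 2) = c • b := by
  obtain ⟨κ, hκ⟩ := val_b u ht v ξ hs hξ j
  obtain ⟨b₁, hb₁⟩ := sig_surj ((th2 _).hom ≫ (eS (stem_succ j)).inv ≫ bb D A u ht j)
  obtain ⟨b, rfl⟩ := sig_surj b₁
  let ε := whiskerRightIso (whiskerRightIso (stemIso T j).symm (S1 T)) (S1 T) ≪≫ th2 _ ≪≫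
    (eS (stem_succ j)).symm
  have hε : ((stemIso T j).inv ≫ b) ▷ S1 T ▷ S1 T = ε.hom ≫ bb D A u ht j := by
    simp [ε, hb₁]
  have h1 : St.bCochain R (St.xiPow R ξ j) ≫ St.proj A = s • (κ.inv ≫ bb D A u ht j) := by
    rw [← Iso.inv_hom_id_assoc κ (St.bCochain R _), hκ, bb]
    simp
  have hz : ∀ (c : ℤ) {X Y : T.C} (f : X ⟶ Y), (c • f) ▷ S1 T ▷ S1 T = c • (f ▷ S1 T ▷ S1 T) :=
    fun c _ _ f => by rw [Tr.zsmul_whiskerRight, Tr.zsmul_whiskerRight]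
  have h2 : ∀ b', St.IsB A ξ j b' ↔ ∃ α : _ ≅ _, s • (α.hom ≫ κ.inv ≫ bb D A u ht j) =
      b' ▷ S1 T ▷ S1 T := fun b' => exists_congr fun α => by
    change α.hom ≫ _ ≫ _ = (b' ⊗ₘ 𝟙 _) ⊗ₘ 𝟙 _ ↔ _
    rw [h1, tensorHom_id, tensorHom_id, Preadditive.comp_zsmul]
  have h3 : ∀ r : ℤ, r = 1 ∨ r = -1 → St.IsB A ξ j (r • ((stemIso T j).inv ≫ b)) := fun r hr => by
    obtain ⟨β, hβ⟩ := exists_sign_iso (ε ≪≫ κ) hr
    obtain ⟨g', hg'⟩ := exists_sign_iso β hs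
    refine (h2 _).2 ⟨g', ?_⟩
    rw [hg', hβ, hz, hε]
    rcases hs with rfl | rfl <;> simp
  refine ⟨(stemIso T j).inv ≫ b, fun b' => ⟨fun h => ?_, ?_⟩, fun θ => ?_⟩
  · obtain ⟨α, hα⟩ := (h2 _).1 h
    obtain ⟨g', hg'⟩ := exists_sign_iso (α ≪≫ κ.symm) hs
    have h4 : g'.hom ≫ bb D A u ht j = b' ▷ S1 T ▷ S1 T := by rw [hg', ← hα]; simp
    rcases sgn F ((stdEven T.C).sphIso (Iso.refl _) _) g' ε with h5 | h5
    · exact Or.inl (sig_inj (sig_inj (by rw [← h4, h5, hε])))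
    · refine Or.inr (sig_inj (sig_inj ?_))
      rw [← h4, h5, ← neg_one_zsmul (_ ≫ b), hz, hε]
      simp
  · rintro (rfl | rfl)
    · simpa using h3 1 (Or.inl rfl)
    · simpa using h3 (-1) (Or.inr rfl)
  · obtain ⟨c, w, h4, h5⟩ := classify A u hH ht (stem_succ j) ((stemIso T j).hom ≫ θ) b hb₁
    refine ⟨c, (stemIso T j).inv ≫ w, ?_, ?_⟩
    · rw [Category.assoc, h4, Iso.inv_hom_id_assoc]
    · rw [Category.assoc, h5, Preadditive.comp_zsmul]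

theorem ext_transfer {j : ℕ} (h : EXT j) (F : SpaceFunctor T.C) {H : T.C} {a : 𝟙_ T.C ⟶ H}
    (hH : Tr.IsHF 3 a) : ∃ θ : (𝟙_ T.C)⟦St.stem j⟧ ⟶ 𝟙_ T.C, (3 : ℤ) • θ = 0 ∧ ¬ Tr.AF a 3 θ := by
  obtain ⟨T₀, F₀, H₀, a₀, θ₀, hH₀, h1, h2⟩ := h
  obtain ⟨θ, h3, h4⟩ := elt_transfer F₀ F hH₀ hH θ₀
  exact ⟨θ, h3 3 h1, fun h => h2 (h4 3 h)⟩

theorem stFull : StFull := by
  intro e0 n1 e2 e3
  refine ⟨St.nonempty_susp, fun T S => ⟨?_, fun R hR => ?_⟩⟩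
  · have := locallySmall_self.{0} T.C
    obtain ⟨H, _, _, hH⟩ := Dt.exists_HFmon S.toSpaceFunctor (p := 3) (by norm_num)
    exact ⟨⟨H⟩, (Top.isHF_iff 3).2 hH⟩
  have := locallySmall_self.{0} T.C
  have hH := (Top.isHF_iff 3).1 hR
  obtain ⟨M⟩ := nonempty_MUMon S.toSpaceFunctor (stdEven T.C) (lineIso S.toSpaceFunctor)
  obtain ⟨bs⟩ := M.nonempty_muBasis
  have hD := M.muUniv bs
  obtain ⟨u, _⟩ := exists_thom (M.data bs) hH.conc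
  obtain ⟨t, ht⟩ := T1 3
  let v : (stdEven T.C).S 2 ≅ (𝟙_ T.C)⟦(4 : ℤ)⟧ := (stdEven T.C).sphIso (Iso.refl _) 2
  have h3 : (3 : ℤ) • 𝟙 R.obj = 0 := X.zsmul_id_eq_zero ((hH.ord 3).2 dvd_rfl)
  have h0 : (M.data bs).evw 1 2 ⟨t, isWt_t1 ht⟩ ≫ th₂ u ≠ 0 := fun h => by
    refine t1_pow_ne hD hH ht u 1 ?_
    rw [pow_one, ← (M.data bs).of_evw ⟨t, isWt_t1 ht⟩, HRing.map_of, h]
    exact map_zero (DirectSum.of ((stdEven T.C).Gr _) _)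
  have h1 : ∀ x : (𝟙_ T.C)⟦(4 : ℤ)⟧ ⟶ R.obj ⊗ R.obj, x = 0 ∨ ∃ s : ℤ, (s = 1 ∨ s = -1) ∧
      v.hom ≫ x = s • ((M.data bs).evw 1 2 ⟨t, isWt_t1 ht⟩ ≫ th₂ u) := fun x => by
    obtain ⟨m, hm⟩ := xi_gen hD hH ht u (v.hom ≫ x)
    rcases three_cases (Cv.three_ten h3 _) m with h | h | h
    · exact Or.inl ((cancel_epi v.hom).1 (by rw [hm, h, comp_zero]))
    · exact Or.inr ⟨1, Or.inl rfl, by rw [hm, h, one_smul]⟩
    · exact Or.inr ⟨-1, Or.inr rfl, by rw [hm, h, neg_one_zsmul]⟩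
  refine ⟨Top.nonempty_tower _, ⟨v.inv ≫ (M.data bs).evw 1 2 ⟨t, isWt_t1 ht⟩ ≫ th₂ u,
    fun h => h0 ?_⟩, fun A ξ hξ => ?_⟩
  · exact (Preadditive.IsIso.comp_left_eq_zero _ _).1 h
  obtain ⟨s, hs, hs'⟩ := (h1 ξ).resolve_left hξ
  choose b hb hb' using exists_b A u ht S.toSpaceFunctor hH v ξ hs hs'
  have hE : ∀ j, EXT j → ∀ b', St.IsB A ξ j b' → (A.IsPermCycle 2 b' ∧ ¬ A.IsBoundary 2 b') ∧
      ∃ θ, addOrderOf θ = 3 ∧ St.Detects A b' θ := fun j hj b' h => by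
    obtain ⟨θ, h4, h5⟩ := ext_transfer hj S.toSpaceFunctor hH
    replace h5 : ¬ A.FiltGe 3 θ := fun h => h5 (af_of_filtGe A h)
    obtain ⟨c, w, rfl, h7⟩ : ∃ (c : ℤ) (w : (𝟙_ T.C)⟦St.stem j⟧ ⟶ A.X 2),
        w ≫ A.toSphere 2 = θ ∧ w ≫ Tr.hur R.unit (A.X 2) = c • b' := by
      obtain ⟨c, w, h6, h7⟩ := hb' j θ
      rcases (hb j b').1 h with rfl | rfl
      · exact ⟨c, w, h6, h7⟩
      · exact ⟨-c, w, h6, by rw [h7, neg_smul_neg]⟩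
    have h8 : ¬ (3 : ℤ) ∣ c := by
      rintro ⟨c, rfl⟩
      exact h5 (filtGe_of_null A w (by rw [h7, mul_smul, Cv.three_ten h3]))
    refine ⟨⟨fun r => ⟨0, ?_⟩, ?_⟩, _, ?_, h5, w, c, rfl, h8, 0, zero_comp, ?_⟩
    · change 0 ≫ _ = b' ≫ _
      rw [zero_comp, ← sq_smul (Cv.three_ten h3 b') h8, ← h7, Preadditive.zsmul_comp,
        Category.assoc, (Top.tower_dist A 2).zero₂₃, comp_zero, smul_zero]
    · rintro ⟨y, h9, h10⟩
      have h11 := filtGe_of_null A (w - c • y) (by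
        rw [Preadditive.sub_comp, h7, Preadditive.zsmul_comp, ← Top.hur_eq, sub_eq_zero]
        exact congrArg _ h10.symm)
      rw [Preadditive.sub_comp, Preadditive.zsmul_comp, show y ≫ A.toSphere 2 = 0 from h9,
        smul_zero, sub_zero] at h11
      exact h5 h11
    · refine addOrderOf_eq_prime (by rw [← natCast_zsmul]; exact h4) fun h => h5 ?_
      exact ⟨0, zero_comp.trans h.symm⟩
    · change 0 ≫ _ = w ≫ _ - c • b'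
      rw [zero_comp, Top.hur_eq, h7, sub_self]
  have hN : ∀ j, j ∈ St.K A ξ → j = 0 ∨ j = 2 ∨ j = 3 := by
    rintro j ⟨b', -, h4, h5⟩
    by_contra h6
    refine h5 ?_
    rcases (by omega : j = 1 ∨ 4 ≤ j) with rfl | h7
    · obtain ⟨T₀, F₀, H₀, a₀, hH₀, h8⟩ := n1
      have := locallySmall_self.{0} T₀.C
      obtain ⟨y, rfl⟩ := Cv.exists_of_perm A S Cv.sahn (Cv.exp T.C) (Cv.divi T.C) hR
        (by norm_num [St.stem]) 2 b' h4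
      exact Cv.boundary_of A (fun θ => Top.filtGe_three A
        (Tr.trans F₀ S.toSpaceFunctor hH₀ hH 3 _ h8 θ)) le_rfl y
    · exact (((Top.fin2.2 T S).2 _ _ hR).2 A j h7).2 2 le_rfl b' h4
  have hX : ∀ j, j = 0 ∨ j = 2 ∨ j = 3 → EXT j := by
    rintro j (rfl | rfl | rfl)
    exacts [e0, e2, e3]
  refine ⟨fun x => ?_, fun j => ⟨b j, hb j⟩, Set.ext fun j => ⟨hN j, fun h => ?_⟩,
    fun j hj b' h => (hE j (hX j (hN j hj)) b' h).2⟩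
  · rcases h1 x with h | ⟨r, hr, h⟩
    · exact Or.inl h
    · refine Or.inr ?_
      rw [← cancel_epi v.hom, ← cancel_epi v.hom, Preadditive.comp_neg, h, hs']
      rcases hs with rfl | rfl <;> rcases hr with rfl | rfl <;> simp
  · have h4 := (hb j (b j)).2 (Or.inl rfl)
    exact ⟨b j, h4, (hE j (hX j h) _ h4).1⟩

end Vale.Agent.P236K
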