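import Vale.Agent.P236K.Beta
import Vale.Agent.P236K.Cube
import Vale.Agent.P236TD.Main

/-!
# P236, block S: the final statement from the Toda differential and the input of the Toda cell
-/

open CategoryTheory MonoidalCategory MonObj Limits Pretriangulated

set_option linter.unusedSectionVars false

namespace Vale.Agent.P236K

open Vale.Agent.P251 Vale.Agent.P251.S Vale.Agent.P251.T Vale.Agent.P251.M Vale.Agent.P251.F
  Vale.Agent.P251.I Vale.Agent.P251.H EvenSpheres Vale.Agent.P257 Vale.Agent.P257.H80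
  Vale.Agent.P236Z Vale.Agent.P236Z.Det Vale.Agent.P251.Z
open Vale.Agent.P251.St (SHCat RingSp)
open Vale.Agent.P236Z.St (AdamsTower)


theorem exf_of_tin {j : ℕ} (h : P236TD.TIN j) : EXF j := by
  obtain ⟨T, ⟨S⟩⟩ := St.nonempty_susp
  have := locallySmall_self.{0} T.C
  obtain ⟨H, _, _, hH⟩ := Dt.exists_HFmon S.toSpaceFunctor (p := 3) (by norm_num)
  obtain ⟨M, i, δ, hM⟩ := exists_cone ((3 : ℤ) • 𝟙 (𝟙_ T.C))
  obtain ⟨V, σ, f, -, -, hf, -⟩ := h T S.toSpaceFunctor H _ hH M i δ hM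
  let e : (𝟙_ T.C)⟦(4 * 3 ^ (j + 1) - 1 : ℤ)⟧ ≅ V⟦(1 : ℤ)⟧ :=
    (shiftFunctorAdd' T.C (4 * 3 ^ (j + 1) - 2) 1 _ (by ring)).app _ ≪≫
      (shiftFunctor T.C (1 : ℤ)).mapIso σ.symm
  exact ⟨T, S.toSpaceFunctor, H, _, M, i, δ, e.hom ≫ f, hH, hM, fun k => hf (by
    simpa using k.pre e.inv)⟩

theorem full_of (h1 : NOT 1) (h2 : P236TD.TIN 2) : FULL :=
  stFull ext_zero h1 (stMoore 2 (exf_of_tin h2)) (stMoore 3 (P236TD.toda 2 h2 (cube 2)))

end Vale.Agent.P236K
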