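import Vale.Agent.P236K.Mo

/-!
# P236, block S: from the Moore spectrum to the sphere
-/

open CategoryTheory MonoidalCategory MonObj Limits Pretriangulated

set_option linter.unusedSectionVars false

namespace Vale.Agent.P236K

open Vale.Agent.P251 Vale.Agent.P251.S Vale.Agent.P251.T Vale.Agent.P251.M Vale.Agent.P251.F
  Vale.Agent.P251.I Vale.Agent.P251.H EvenSpheres Vale.Agent.P257 Vale.Agent.P257.H80
  Vale.Agent.P236Z Vale.Agent.P236Z.Det Vale.Agent.P251.Z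
open Vale.Agent.P251.St (SHCat RingSp)
open Vale.Agent.P236Z.St (AdamsTower)

open Vale.Agent.P236Z.Dt

variable {T : SHCat}

/-- The Moore spectrum is self dual. -/
theorem exists_dual (F : SpaceFunctor T.C) {M : T.C} {i : 𝟙_ T.C ⟶ M} {δ : M ⟶ S1 T}
    (hM : Dist ((3 : ℤ) • 𝟙 (𝟙_ T.C)) i δ) : ∃ ev : M ⊗ M ⟶ S1 T, ∀ {H : T.C} (a : 𝟙_ T.C ⟶ H)
      (s : ℕ) {V : T.C} (f : V ⟶ M), Tr.AF a s (M ◁ f ≫ ev) → Tr.AF a s f := by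
  have h1 : (3 : ℤ) • δ = 0 := by
    have h := hM.zero₃₁
    rwa [Functor.map_zsmul, CategoryTheory.Functor.map_id, Preadditive.comp_zsmul,
      Category.comp_id] at h
  have h2 : (3 : ℤ) • i = 0 := by
    have h := hM.zero₁₂
    rwa [Preadditive.zsmul_comp, Category.id_comp] at h
  have hl : ∀ (Z : T.C) {X Y : T.C} (f : X ⟶ Y), Z ◁ ((3 : ℤ) • f) = (3 : ℤ) • (Z ◁ f) :=
    fun Z _ _ f => (tensorLeft Z).map_zsmul
  obtain ⟨ev, hev⟩ := (dist_red hM M).desc₂ δ (by rw [Preadditive.zsmul_comp, Category.id_comp, h1])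
  obtain ⟨d₁, E₁⟩ := Tr.dist_tensL hM.rot.rot M
  obtain ⟨co, hco⟩ := E₁.lift₂ ((λ_ (S1 T)).inv ≫ i ▷ S1 T) (by
    rw [Category.assoc, ← whisker_exchange, Functor.map_zsmul, ← smul_neg, hl,
      Preadditive.zsmul_comp, ← Preadditive.comp_zsmul, ← Tr.zsmul_whiskerRight, h2]
    simp)
  let φ : S1 T ⊗ M ⟶ M ⊗ S1 T := co ▷ M ≫ (α_ _ _ _).hom ≫ M ◁ ev
  have h3 : ∀ {V : T.C} (f : V ⟶ M), S1 T ◁ f ≫ φ = co ▷ V ≫ (α_ _ _ _).hom ≫ M ◁ (M ◁ f ≫ ev) :=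
    fun f => by
      rw [whisker_exchange_assoc, associator_naturality_right_assoc,
        MonoidalCategory.whiskerLeft_comp]
  let β : S1 T ⊗ 𝟙_ T.C ≅ 𝟙_ T.C ⊗ S1 T := ρ_ _ ≪≫ (λ_ _).symm
  have h4 : S1 T ◁ i ≫ φ = β.hom ≫ i ▷ S1 T := by
    have h5 : M ◁ i ≫ ev = (ρ_ M).hom ≫ δ := by rw [← hev, Dt.red]; simp
    rw [h3, h5, Iso.trans_hom, Iso.symm_hom, Category.assoc, ← hco]
    simp
  obtain ⟨d₂, E₂⟩ := Tr.dist_tensL hM (S1 T)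
  obtain ⟨d₃, E₃⟩ := Tr.dist_tensR hM (S1 T)
  obtain ⟨ψ, h5, h6⟩ := E₂.map₁ E₃ β.hom φ h4
  obtain rfl : ψ = β.hom := by
    obtain ⟨g, hg⟩ := sig_surj (β.inv ≫ ψ)
    obtain ⟨m, rfl⟩ := exists_int_unit F g
    rw [Iso.eq_inv_comp] at hg
    have h7 : ((3 : ℤ) * (m - 1)) • 𝟙 (𝟙_ T.C) = 0 := sig_inj (by
      rw [← hg, hl, Tr.zsmul_whiskerRight, Tr.zsmul_whiskerRight] at h5
      rw [← cancel_epi β.hom, Tr.zsmul_whiskerRight, mul_sub, sub_smul, Preadditive.comp_sub,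
        _root_.mul_one]
      simp only [MonoidalCategory.whiskerLeft_id, id_whiskerRight, Preadditive.comp_zsmul,
        Preadditive.zsmul_comp, Category.comp_id, Category.id_comp, smul_smul] at h5 ⊢
      rw [← h5]
      simp)
    obtain rfl : m = 1 := by
      have := eq_zero_of_zsmul_id F _ h7
      omega
    rw [← hg]
    simp
  have : IsIso φ := isIso₃_of_isIso₁₂ (Triangle.homMk (Triangle.mk _ _ d₂) (Triangle.mk _ _ d₃)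
    β.hom β.hom φ h5 h4 h6) E₂ E₃ (inferInstanceAs (IsIso β.hom)) (inferInstanceAs (IsIso β.hom))
  refine ⟨ev, fun a s V f h => ?_⟩
  have h7 := ((((h.whiskerLeft M).pre (α_ _ _ _).hom).pre (co ▷ V))).post (inv φ)
  rw [← h3, Category.assoc, IsIso.hom_inv_id, Category.comp_id] at h7
  exact Tr.AF.of_whiskerLeft (tensorSph (-1) (S1 T) ≪≫
    (shiftFunctorCompIsoId T.C (1 : ℤ) (-1) (add_neg_cancel 1)).app _) h7

/-- A class whose cocycle for `MU` is a unit multiple of `b_j` has filtration `< 3`. -/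
theorem not_af_of_lift {F : SpaceFunctor T.C} {e : F.S.obj CCF ≅ (stdEven T.C).L}
    {D : MUData T.C} (hD : MUUniv e D) (U : UnitCof D.R) (R : RingSp T) (hH : Tr.IsHF 3 R.unit)
    {t : Cob Laz 1} (ht : IsT1 3 t) {j : ℕ} {w : ℤ} (h : w + 1 = w0 j)
    (θ : (stdEven T.C).S w ⟶ 𝟙_ T.C) (c : (stdEven T.C).S (w0 j) ⟶ U.cobar.B 2 (𝟙_ T.C))
    (x : Cob.wt Laz 2 (w0 j)) (y : Cob.wt Laz 1 (w0 j)) {m : ℤ} (hm : ¬ (3 : ℤ) ∣ m)
    (h1 : x.1 - Cob.d 1 y.1 - m * Bt t j ∈ II 2)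
    (h2 : c ≫ bd2 U = (eS h).hom ≫ (θ⟦(1 : ℤ)⟧')⟦(1 : ℤ)⟧')
    (h4 : c ≫ unitMap D.R _ = D.evw 2 _ x ≫ qq D U 2) : ¬ Tr.AF R.unit 3 θ := by
  intro h3
  obtain ⟨u, _⟩ := exists_thom D hH.conc
  obtain ⟨A⟩ := Top.nonempty_tower R.unit
  obtain ⟨b₁, hb₁⟩ := sig_surj ((th2 _).hom ≫ (eS h).inv ≫ bb D A u ht j)
  obtain ⟨b₀, rfl⟩ := sig_surj b₁
  obtain ⟨k, hk⟩ := key U A u hH ht (j := j)
  obtain ⟨N, i, δ, hN⟩ := exists_cone ((3 : ℤ) ^ k • 𝟙 (𝟙_ T.C))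
  obtain ⟨v, h5, h6⟩ := hk k le_rfl N i δ hN (eS h) θ (c ≫ red i _) x y m b₀
    (by rw [Category.assoc, ← red_nat, reassoc_of% h2])
    (by rw [Category.assoc, ← red_nat, reassoc_of% h4]) h1 hb₁
  obtain ⟨v', h7⟩ := Tr.AF.lift_three (Top.tower_dist A 0) (Top.tower_dist A 1)
    (Top.tower_dist A 2) (h3.post A.base.inv)
  have h8 : (v' ≫ A.g 2) ≫ A.toSphere 2 = θ := by
    rw [Iso.eq_comp_inv] at h7
    rw [← h7]
    simp only [Category.assoc]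
    rfl
  refine not_boundary A u hH ht hD (j := j) (fun z => ?_) (th2 _ ≪≫ (eS h).symm)
    (m • (v - v' ≫ A.g 2)) ?_ ?_
  · rw [← cancel_epi (T.tensor.e _).inv, ← cancel_epi (eO w).inv,
      hH.conc _ (by omega) (_ ≫ _ ≫ _), comp_zero, comp_zero]
  · rw [Preadditive.zsmul_comp, Preadditive.sub_comp, h5, h8, sub_self, smul_zero]
  · rw [Preadditive.zsmul_comp, Preadditive.sub_comp, h6, Category.assoc,
      (Top.tower_dist A 2).zero₁₂, comp_zero, sub_zero,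
      sq_smul (Cv.three_ten (P251.X.zsmul_id_eq_zero ((hH.ord 3).2 dvd_rfl)) b₀) hm, hb₁,
      Iso.trans_hom, Iso.symm_hom, Category.assoc]

/-- The bottom cell of a map of filtration `< 2` on a Moore spectrum has filtration `< 3`. -/
theorem not_af_three (F : SpaceFunctor T.C) (R : RingSp T) (hH : Tr.IsHF 3 R.unit) {j : ℕ} {w : ℤ}
    (h : w + 1 = w0 j) {X : T.C} {b : ((stdEven T.C).S w)⟦(1 : ℤ)⟧ ⟶ X}
    {d : X ⟶ (((stdEven T.C).S w)⟦(1 : ℤ)⟧)⟦(1 : ℤ)⟧} (hX : Dist ((3 : ℤ) • 𝟙 _) b d)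
    (g : X ⟶ (𝟙_ T.C)⟦(1 : ℤ)⟧) (hg : ¬ Tr.AF R.unit 2 g) (θ : (stdEven T.C).S w ⟶ 𝟙_ T.C)
    (hθ : θ⟦(1 : ℤ)⟧' = b ≫ g) : ¬ Tr.AF R.unit 3 θ := by
  obtain ⟨M⟩ := nonempty_MUMon F (stdEven T.C) (lineIso F)
  obtain ⟨bs⟩ := M.nonempty_muBasis
  have hD := M.muUniv bs
  generalize M.data bs = D at hD
  obtain ⟨u, _⟩ := exists_thom D hH.conc
  obtain ⟨U⟩ := exists_unitCof D.R
  obtain ⟨t, ht⟩ := T1 3
  obtain ⟨-, -, y, x, -, c, m, hm, -, -, -, h1, h2, h4⟩ := moore_unit D U hH u ht h hX g hg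
  exact not_af_of_lift hD U R hH ht h θ c x y (by rwa [dvd_neg]) h1 (by rw [h2, hθ]) h4

theorem stMoore : StMoore := by
  rintro j ⟨T, F, H₀, a₀, M, i, δ, f, hH₀, hM, hf⟩
  have := locallySmall_self.{0} T.C
  obtain ⟨H, _, _, hH⟩ := Dt.exists_HFmon F (p := 3) (by norm_num)
  obtain ⟨ev, hev⟩ := exists_dual F hM
  obtain ⟨d, E⟩ := Tr.dist_tensR hM ((𝟙_ T.C)⟦(4 * 3 ^ (j + 1) - 1 : ℤ)⟧)
  let α : ((stdEven T.C).S (2 * 3 ^ (j + 1) - 1))⟦(1 : ℤ)⟧ ≅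
      𝟙_ T.C ⊗ (𝟙_ T.C)⟦(4 * 3 ^ (j + 1) - 1 : ℤ)⟧ :=
    eO _ ≪≫ eqToIso (by congr 2; ring) ≪≫ (λ_ _).symm
  have hX : Dist ((3 : ℤ) • 𝟙 _) (α.hom ≫ i ▷ _) _ := Tr.dist_iso E α α (Iso.refl _)
    (by rw [Tr.zsmul_whiskerRight]; simp) (Category.comp_id _)
  obtain ⟨θ, hθ⟩ := (shiftFunctor T.C (1 : ℤ)).map_surjective ((α.hom ≫ i ▷ _) ≫ M ◁ f ≫ ev)
  have h1 := not_af_three F ⟨H⟩ hH (stem_succ j) hX _
    (fun h => hf (af_change F hH hH₀ (hev _ _ f h))) θ hθ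
  refine ⟨T, F, H, η[H], (stemIso T j).inv ≫ θ, hH, ?_, fun h => h1 ?_⟩
  · have h2 : (3 : ℤ) • θ = 0 := (shiftFunctor T.C (1 : ℤ)).map_injective (by
      rw [Functor.map_zsmul, hθ, three_b hX, Functor.map_zero])
    rw [← Preadditive.comp_zsmul, h2, comp_zero]
  · simpa using h.pre (stemIso T j).hom

end Vale.Agent.P236K
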