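import Vale.Agent.P236K.NDef
import Vale.Agent.P236K.Moore
import Vale.Agent.P257.H163.Toda
import Vale.Agent.P257.H712.Onto
import Vale.Agent.P257.H314.Line
import Vale.Agent.P257.H545.Leib

/-!
# P236, block S: the Toda differential
-/

open CategoryTheory MonoidalCategory MonObj Limits Pretriangulated

set_option linter.unusedSectionVars false

namespace Vale.Agent.P236K

open Vale.Agent.P251 Vale.Agent.P251.T Vale.Agent.P251.M Vale.Agent.P251.F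
  Vale.Agent.P251.I Vale.Agent.P251.H EvenSpheres Vale.Agent.P257
  Vale.Agent.P236Z Vale.Agent.P236Z.Det Vale.Agent.P251.Z
open Vale.Agent.P251.S hiding IC
open Vale.Agent.P251.St (SHCat RingSp)
open Vale.Agent.P236Z.St (AdamsTower)
open Vale.Agent.P236Z.Dt Vale.Agent.P257.H712 Vale.Agent.P257.H314 Vale.Agent.P257.H762
open Vale.Agent.P251.B (sphE)

theorem chase {C : Couple.{0, 0}} {N : ℕ} {m : ℤ} (z : C.D (N + 1) m)
    (h0 : C.proj m (Nat.zero_le _) z = 0)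
    (hk : ∀ s < N, ∀ e : C.E s (m + 1), C.IsCocycle e → C.k s (m + 1) m rfl e = 0) :
    C.IsCobdy (C.j _ _ z) := by
  have h : ∀ s (hs : s ≤ N), C.proj m (hs.trans (Nat.le_succ N)) z = 0 := by
    intro s
    induction s with
    | zero => exact fun _ => h0
    | succ s ih =>
      intro hs
      obtain ⟨e, he⟩ := C.exact_i s (m + 1) m rfl (C.proj m (hs.trans (Nat.le_succ N)) z) (by
        rw [← proj_one, proj_proj]
        exact ih (by omega))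
      rw [← he]
      refine hk s hs e fun m' h' => ?_
      obtain rfl : m = m' := by omega
      rw [Couple.d_apply, he, ← proj_proj C (Nat.le_succ (s + 1)) (Nat.succ_le_succ hs), proj_one,
        C.j_i]
  have h1 := h N le_rfl
  rw [proj_one] at h1
  obtain ⟨e, he⟩ := C.exact_i N (m + 1) m rfl z h1
  exact ⟨e, by rw [Couple.d_apply, he]⟩

theorem mem_IC_one {s : ℕ} {z : Cob Laz s} : z ∈ IC 3 1 s ↔ (3 : Cob Laz s) ∣ z := by
  have h : Laz.I 3 1 = Ideal.span {((3 : ℕ) : Laz)} := by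
    rw [Laz.I, Ih]
    congr 1
    ext x
    simp [vv_zero, eq_comm]
  rw [IC, h, Ideal.map_span, Set.image_singleton, map_natCast, Ideal.mem_span_singleton,
    Nat.cast_ofNat]

variable {T : SHCat} {D : MUData T.C} (U : UnitCof D.R) {M : T.C} {i : 𝟙_ T.C ⟶ M}
  {δ : M ⟶ (𝟙_ T.C)⟦(1 : ℤ)⟧} (hM : Dist (((3 : ℕ) : ℤ) • 𝟙 (𝟙_ T.C)) i δ)

variable (M) in
/-- the couple of the tower with coefficients in `M` -/
noncomputable abbrev CM : Couple.{0, 0} :=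
  ((U.tow (𝟙_ T.C)).map (tensorRight M)).couple (𝟙_ T.C)

include hM

theorem powB_toda {k a : ℤ} (hk : k = a + 2) (x : (𝟙_ T.C)⟦k⟧ ⟶ U.cobar.B 2 (𝟙_ T.C)) (hξ)
    {n t : ℤ} (h : n + ((0 + 1 : ℕ) : ℤ) = t) (α : (𝟙_ T.C)⟦t⟧ ⟶ U.cobar.B 1 (𝟙_ T.C)) (K : ℕ)
    (hT : ∃ g, ((3 : ℕ) : ℤ) • g = tSm (𝟙 (𝟙_ T.C)) (bet U x) K ⊗ₘ (α ≫ U.bd 0 (𝟙_ T.C))) :
    powB (M₂ U (𝟙_ T.C) (tensorRight M) hk x hξ) K ((CM U M).i 0 n
      ((((U.tow (𝟙_ T.C)).map (tensorRight M)).eD (𝟙_ T.C) h).symm (α ≫ Dt.red i _))) = 0 := by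
  have h1 : n + ((0 : ℕ) : ℤ) + 1 = t := by rw [← h]; push_cast; ring
  obtain ⟨α', h2⟩ := (sh (P := 𝟙_ T.C) (Y := 𝟙_ T.C) _ 1 t h1).surjective (α ≫ U.bd 0 (𝟙_ T.C))
  have h3 : zet U rfl ((CM U M).i 0 n ((((U.tow (𝟙_ T.C)).map (tensorRight M)).eD
      (𝟙_ T.C) h).symm (α ≫ Dt.red i _))) = α' ≫ i := by
    have h4 := ((U.tow (𝟙_ T.C)).map (tensorRight M)).eD_i (𝟙_ T.C) rfl h h1
      ((((U.tow (𝟙_ T.C)).map (tensorRight M)).eD (𝟙_ T.C) h).symm (α ≫ Dt.red i _))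
    rw [AddEquiv.apply_symm_apply] at h4
    have h5 := NatTrans.shift_app_comm (redC i) (1 : ℤ) (𝟙_ T.C)
    rw [Functor.commShiftIso_id_hom_app] at h5
    have h6 : (α ≫ Dt.red i _) ≫ ((U.tow (𝟙_ T.C)).map (tensorRight M)).c 0 =
        sh _ 1 t h1 (α' ≫ Dt.red i _) := by
      rw [sh_comp, h2]
      refine (Category.assoc _ _ _).trans (Eq.trans (congrArg (α ≫ ·) ?_) (Category.assoc _ _ _).symm)
      exact (red_nat_assoc i (U.bd 0 (𝟙_ T.C)) _).symm.trans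
        (congrArg (U.bd 0 (𝟙_ T.C) ≫ ·) (h5.symm.trans (Category.id_comp _)))
    have h7 := (sh (P := 𝟙_ T.C) _ 1 t h1).injective (h4.trans h6)
    refine (congrArg (· ≫ (λ_ M).hom) h7).trans ?_
    rw [Category.assoc, Dt.red]
    simp [unitors_equal]
  rw [powB_eq_zero_iff U hk x hξ rfl, h3]
  have h4 : AI (α ≫ U.bd 0 (𝟙_ T.C)) (α' ⊗ₘ 𝟙 (S1 T)) := by
    rw [← h2, tensorHom_id, sig_eq]
    exact ((AI.of_iso_comp ((shiftFunctorAdd' T.C _ 1 t h1).app _) _).trans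
      (AI.of_comp_iso _ (T.tensor.e _).symm).symm).trans (AI.of_iso_comp (T.tensor.e _) _).symm
  obtain ⟨g, hg⟩ := (((AI_tpow _ K).symm.tensor h4).trans (AI.assoc _ _ _).symm).exists_smul hT
  obtain ⟨g, rfl⟩ := sig_surj g
  rw [tensorHom_id, ← Tr.zsmul_whiskerRight] at hg
  have h5 : ((3 : ℕ) : ℤ) • i = 0 := by
    have h := hM.zero₁₂
    rwa [Preadditive.zsmul_comp, Category.id_comp] at h
  have h6 : ∀ Z : T.C, Z ◁ (((3 : ℕ) : ℤ) • i) = ((3 : ℕ) : ℤ) • (Z ◁ i) :=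
    fun Z => (tensorLeft Z).map_zsmul
  rw [← Category.comp_id (H712.tpow _ K), ← tensorHom_comp_tensorHom, ← sig_inj hg, id_tensorHom,
    Preadditive.zsmul_comp, ← Preadditive.comp_zsmul, ← h6, h5,
    MonoidalPreadditive.whiskerLeft_zero, comp_zero]

theorem dvd_of_isCobdy {s : ℕ} {m t w : ℤ} (h : m + ((s + 1 : ℕ) : ℤ) = t)
    (α : (stdEven T.C).S w ≅ (𝟙_ T.C)⟦t⟧) (z : Cob.wt Laz (s + 1) w) (hz : Cob.d (s + 1) z.1 = 0)
    (hb : (CM U M).IsCobdy (U.qE (𝟙_ T.C) (tensorRight M) (𝟙_ T.C) h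
      (α.inv ≫ phiV D U i (s + 1) w z))) :
    ∃ y : Cob Laz s, (3 : Cob Laz (s + 1)) ∣ z.1 - Cob.d s y := by
  have hC := cyc_modP D (p := 3) (by norm_num) hM
  obtain ⟨c, hc⟩ := U.exists_of_isCobdy (𝟙_ T.C) (tensorRight M) (𝟙_ T.C) h _ (by
    have h1 : Cob.dwt Laz (s + 1) w z = 0 := Subtype.ext hz
    rw [Category.assoc, ← phiV_d, h1, map_zero, comp_zero]) hb
  obtain ⟨y, hy⟩ := hC.phi_surj U s w (α.hom ≫ c)
  replace hy : α.hom ≫ c = phiV D U i s w y := hy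
  refine ⟨y.1, mem_IC_one.1 ((Cyc.phiV_ker hC (U := U) (s + 1) w (z - Cob.dwt Laz s w y)).1 ?_)⟩
  rw [map_sub, phiV_d, ← hy, Category.assoc, hc, Iso.hom_inv_id_assoc, sub_self]

/-- The product `α β ^ 3` is not a boundary on the first page. -/
theorem exists_toda (F : SpaceFunctor T.C) (hB : EB) : ∃ m, m = 33 ∧ ∃ z : (CM U M).D (6 + 1) m,
    (CM U M).proj m (Nat.zero_le _) z = 0 ∧ ¬ (CM U M).IsCobdy ((CM U M).j _ _ z) := by
  obtain ⟨t, ht⟩ := T1 3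
  obtain ⟨-, hdt, hb, hdb, -⟩ := BCocycle 3 (by norm_num) t ht
  have htw : Cob.IsWt 2 t := isWt_t1 ht
  replace hb : Cob.IsWt 6 (bcls 3 t) := hb
  obtain ⟨a, ha⟩ := exists_alpha_one D U (p := 3) (by norm_num) ht (v := 2) rfl htw
  obtain ⟨x, hx⟩ := B.exists_beta_one D U (p := 3) (by norm_num) ht (w := 6) rfl hb
  have hξ := fun s => U.ξ_comm_of_even (k := 2 * 6) 6 rfl x s
  have h1 : (3 : ℤ) + ((0 + 1 : ℕ) : ℤ) = 2 * 2 := rfl
  have hk : (2 * 6 : ℤ) = 10 + 2 := rfl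
  let y : (CM U M).D (0 + 1) 3 :=
    (((U.tow (𝟙_ T.C)).map (tensorRight M)).eD (𝟙_ T.C) h1).symm (a ≫ Dt.red i _)
  refine ⟨Couple.Mul2.deg 10 3 3, rfl, powD (M₂ U (𝟙_ T.C) (tensorRight M) hk x hξ) 3 y, ?_,
    fun h => ?_⟩
  · refine (proj_zero_powD 3 y).trans ?_
    rw [proj_one]
    exact powB_toda U hM hk x hξ h1 a 3 (H163.todaRel F D U (by norm_num) hM t ht htw hb a ha x hx)
  have h2 : (CM U M).j (0 + 1) 3 y = qE U (𝟙_ T.C) (redC i) h1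
      ((sphE T.C 2).inv ≫ D.phi U 1 2 ⟨t, htw⟩) := by
    apply (((U.tow (𝟙_ T.C)).map (tensorRight M)).eE (𝟙_ T.C) h1).injective
    rw [eE_qE, ha, Tow.eE_j, AddEquiv.apply_symm_apply, Category.assoc]
    exact (Category.assoc _ _ _).trans (congrArg (a ≫ ·) (red_nat i _).symm)
  have h3 := (ME₂ U (𝟙_ T.C) (tensorRight M) hk x hξ).j_powD 3 y
  rw [h2, powE_qE U _ _ hk x hξ _ hx, qE_eq] at h3
  have h4 := cupK_realizes ((realizes_iff (sphE T.C 2) ⟨t, htw⟩ _).2 rfl)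
    ((realizes_iff (sphE T.C 6) ⟨bcls 3 t, hb⟩ _).2 rfl) (U := U) 3
  have hw := cupN_isWt htw hb 3
  rw [(realizes_iff _ ⟨_, hw⟩ _).1 h4, Category.assoc] at h3
  obtain ⟨c, hc⟩ := dvd_of_isCobdy U hM (s := 6) (deg_add' hk h1 3) _ ⟨_, hw⟩
    (H545.d_cupN hdb hdt 3) (h3 ▸ h)
  exact hB t ht c hc

/-- The boundary map vanishes on the cocycles of the stem `34`. -/
theorem k_eq_zero (hA : EA) {t : Cob Laz 1} (ht : IsT1 3 t) {w : ℤ} (hw : w = 18)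
    (v : (stdEven T.C).S w ⟶ U.cobar.B 2 (𝟙_ T.C) ⊗ M) (x : Cob.wt Laz 2 w) {c : ℤ}
    (hc : ¬ (3 : ℤ) ∣ c) (y : Cob.wt Laz 1 w)
    (hx : (3 : Cob Laz 2) ∣ x.1 - c * Bt t 1 - Cob.d 1 y.1)
    (hv : v ≫ unitMap D.R _ ▷ M = D.evw 2 w x ≫ qq D U 2 ≫ Dt.red i _) (s : ℕ) (hs : s < 6)
    (e : (CM U M).E s (33 + 1)) (he : (CM U M).IsCocycle e) :
    (CM U M).k s (33 + 1) 33 rfl e = 0 := by
  subst hw
  have hC := cyc_modP D (p := 3) (by norm_num) hM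
  rcases s with _ | s
  · rw [hC.cocycle_zero U (fun w hw => algVan_line le_rfl (by push_cast; omega)) e he, map_zero]
  by_cases h1 : s = 1
  swap
  · exact (hC.van U rfl (fun w hw => algVan_line le_rfl (by push_cast at hw ⊢; omega))
      e he).k_eq_zero _ _
  subst h1
  have h2 : (33 + 1 : ℤ) + ((1 + 1 : ℕ) : ℤ) = 2 * 18 := rfl
  have h3 : (33 + 1 + 1 : ℤ) + ((1 : ℕ) : ℤ) = 2 * 18 := rfl
  obtain ⟨f, hf, rfl⟩ := U.exists_cocycle_qE (𝟙_ T.C) (tensorRight M) (𝟙_ T.C) h2 e he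
  obtain ⟨z, rfl, hz⟩ := Cyc.exists_cocycle hC (sphE T.C 18) f hf
  obtain ⟨c', y', hy', r', hr'⟩ := hA t ht z.1 z.2 (mem_IC_one.1 hz)
  obtain ⟨r, hr⟩ := hx
  obtain ⟨q, hq⟩ : (3 : ℤ) ∣ c * c - 1 := by
    obtain ⟨k, rfl | rfl⟩ : ∃ k, c = 3 * k + 1 ∨ c = 3 * k - 1 := ⟨(c + 1) / 3, by omega⟩
    exacts [⟨3 * k * k + 2 * k, by ring⟩, ⟨3 * k * k - 2 * k, by ring⟩]
  have h4 : phiV D U i 2 18 z = phiV D U i 2 18 ((c' * c) • x +
      Cob.dwt Laz 1 18 (⟨y', hy'⟩ - (c' * c) • y)) := by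
    refine Cyc.phiV_eq hC (mem_IC_one.2 ⟨r' - c' * c * r - c' * q * Bt t 1, ?_⟩)
    have h5 := congrArg (Int.cast : ℤ → Cob Laz 2) hq
    change z.1 - ((c' * c) • x.1 + Cob.d 1 (y' - (c' * c) • y.1)) = _
    rw [map_sub, map_zsmul, zsmul_eq_mul, zsmul_eq_mul]
    push_cast at h5 ⊢
    linear_combination hr' - (c' * c : Cob Laz 2) * hr - (c' * Bt t 1 : Cob Laz 2) * h5
  have h5 : U.qE (𝟙_ T.C) (tensorRight M) (𝟙_ T.C) h2 ((sphE T.C 18).inv ≫ phiV D U i 2 18 x) =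
      (CM U M).j _ _ ((((U.tow (𝟙_ T.C)).map (tensorRight M)).eD (𝟙_ T.C) h2).symm
        ((sphE T.C 18).inv ≫ v)) := by
    apply (U.eT (𝟙_ T.C) (tensorRight M) (𝟙_ T.C) h2).injective
    refine (U.eT_qE _ _ _ h2 _).trans (Eq.trans ?_
      (((U.tow (𝟙_ T.C)).map (tensorRight M)).eE_j (𝟙_ T.C) h2 _).symm)
    rw [AddEquiv.apply_symm_apply, Category.assoc]
    refine Eq.trans (congrArg ((sphE T.C 18).inv ≫ ·) (Eq.trans ?_ hv.symm))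
      (Category.assoc _ _ _).symm
    rw [phiV_apply, D.phi_apply, qq, Category.assoc, Category.assoc, Category.assoc]
    exact congrArg (fun f => _ ≫ _ ≫ f) (red_nat i _).symm
  rw [h4, map_add, map_zsmul, phiV_d, Preadditive.comp_add, Preadditive.comp_zsmul, map_add,
    map_zsmul, h5, ← Category.assoc, ← U.d_qE _ _ _ rfl h3 h2, map_add, map_zsmul, Couple.k_j,
    Couple.d_apply, Couple.k_j, smul_zero, add_zero]

omit hM in
theorem not_one_of (hA : EA) (hB : EB) : NOT 1 := by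
  obtain ⟨T, ⟨S⟩⟩ := St.nonempty_susp
  have F := S.toSpaceFunctor
  have := locallySmall_self.{0} T.C
  obtain ⟨H, _, _, hH⟩ := Dt.exists_HFmon F (p := 3) (by norm_num)
  obtain ⟨M⟩ := nonempty_MUMon F (stdEven T.C) (lineIso F)
  obtain ⟨bs⟩ := M.nonempty_muBasis
  generalize M.data bs = D
  obtain ⟨U⟩ := exists_unitCof D.R
  obtain ⟨t, ht⟩ := T1 3
  obtain ⟨u, _⟩ := exists_thom D hH.conc
  obtain ⟨A⟩ := Top.nonempty_tower η[H]
  refine ⟨T, F, H, η[H], hH, fun θ => ?_⟩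
  obtain ⟨b₁, hb₁⟩ := sig_surj ((th2 _).hom ≫ (eS (stem_succ 1)).inv ≫ bb (R := ⟨H⟩) D A u ht 1)
  obtain ⟨b, rfl⟩ := sig_surj b₁
  obtain ⟨k, hk⟩ := key (R := ⟨H⟩) U A u hH ht (j := 1)
  obtain ⟨N, i', δ', hN⟩ := exists_cone ((3 : ℤ) ^ (k + 1) • 𝟙 (𝟙_ T.C))
  obtain ⟨v, x, hx, h1, h2⟩ := exists_lift2 U hN (stem_succ 1) (by norm_num)
    ((stemIso T 1).hom ≫ θ)
  obtain ⟨c, y, hy, h3⟩ := hA t ht x.1 x.2 ((dvd_pow_self _ (Nat.succ_ne_zero k)).trans hx)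
  by_cases hc : (3 : ℤ) ∣ c
  · obtain ⟨w, h4, h5⟩ := hk _ (Nat.le_succ k) N i' δ' hN _ _ v x ⟨y, hy⟩ c b h1 h2 (by
      obtain ⟨r, hr⟩ := h3
      rw [sub_right_comm, hr]
      exact three_mul_mem r) hb₁
    obtain ⟨c, rfl⟩ := hc
    have h6 := af_of_filtGe A (filtGe_of_null A ((stemIso T 1).inv ≫ w) (by
      rw [Category.assoc, h5, mul_smul,
        Cv.three_ten (X.zsmul_id_eq_zero ((hH.ord 3).2 dvd_rfl)), comp_zero]))
    rwa [Category.assoc, h4, Iso.inv_hom_id_assoc] at h6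
  obtain ⟨M, i, δ, hM⟩ := exists_cone (((3 : ℕ) : ℤ) • 𝟙 (𝟙_ T.C))
  obtain ⟨φ, rfl⟩ := hN.desc₂ i (by
    rw [pow_succ, ← smul_smul, Preadditive.zsmul_comp]
    exact (congrArg _ hM.zero₁₂).trans (smul_zero _))
  obtain ⟨_, rfl, z, h4, h5⟩ := exists_toda U hM F hB
  refine (h5 (chase z h4
    (k_eq_zero U hM hA ht (w := w0 1) rfl (v ≫ _ ◁ φ) x hc ⟨y, hy⟩ h3 ?_))).elim
  rw [Category.assoc, whisker_exchange, reassoc_of% h2, Dt.red, Dt.red, Category.assoc,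
    MonoidalCategory.whiskerLeft_comp]

end Vale.Agent.P236K
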