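import Vale.Agent.P236K.Glue
import Vale.Agent.P236K.Not1
import Vale.Agent.P236K.EB

/-!
# P236, block S: the final statement from one algebraic input and the construction
-/

namespace Vale.Agent.P236K

theorem not_one (hA : EA) : NOT 1 := not_one_of hA eb

theorem full_of_ea (hA : EA) (h : P236TD.TIN 2) : FULL := full_of (not_one hA) h

end Vale.Agent.P236K
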