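import Vale.Agent.P236K.Full

/-!
# P236, block S: maps from a Moore spectrum to the sphere and their cocycles for `MU`
-/

open CategoryTheory MonoidalCategory MonObj Limits Pretriangulated

set_option linter.unusedSectionVars false

namespace Vale.Agent.P236K

open Vale.Agent.P251 Vale.Agent.P251.S Vale.Agent.P251.T Vale.Agent.P251.M Vale.Agent.P251.F
  Vale.Agent.P251.I Vale.Agent.P251.H EvenSpheres Vale.Agent.P257 Vale.Agent.P257.H80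
  Vale.Agent.P236Z Vale.Agent.P236Z.Det Vale.Agent.P251.Z
open Vale.Agent.P251.St (SHCat RingSp)
open Vale.Agent.P236Z.St (AdamsTower)

open Vale.Agent.P236Z.Dt

variable {T : SHCat} (D : MUData T.C) (U : UnitCof D.R)

theorem dist_shift {X Y Z : T.C} {f : X ⟶ Y} {g : Y ⟶ Z} {h : Z ⟶ X⟦(1 : ℤ)⟧} (E : Dist f g h) :
    Dist (f⟦(1 : ℤ)⟧') (g⟦(1 : ℤ)⟧') (-h⟦(1 : ℤ)⟧') := by
  have h1 := Tr.dist_iso E.rot.rot.rot (Iso.refl _) ⟨-𝟙 _, -𝟙 _, by simp, by simp⟩ (Iso.refl _)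
    (f' := f⟦(1 : ℤ)⟧') (g' := g⟦(1 : ℤ)⟧') (by simp) (by simp)
  simpa using h1

theorem qAm_one : (D.qAm U 1).inv = (λ_ D.R).hom ≫ (ρ_ D.R).inv := by
  change (ρ_ _).inv ≫ (α_ _ _ _).hom ≫ (λ_ _).hom = _
  monoidal

theorem qAm_two : (D.qAm U 2).inv = (λ_ D.R).hom ▷ D.R ≫ D.R ◁ (ρ_ D.R).inv := by
  change (ρ_ _).inv ≫ (α_ _ _ _).hom ≫ (α_ _ _ _).hom ≫ (λ_ _).hom = _
  monoidal

theorem tf_B (s : ℕ) (w : ℤ) (a : (stdEven T.C).S w ⟶ D.R ⊗ U.cobar.B s (𝟙_ T.C))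
    (h : (3 : ℤ) • a = 0) : a = 0 := by
  obtain ⟨C, i, δ, hC⟩ := exists_cone (((3 : ℕ) : ℤ) • 𝟙 (𝟙_ T.C))
  refine torsionFree_of_red hC (fun g => ?_) a h
  obtain ⟨c, rfl⟩ : ∃ c : ((stdEven T.C).S w)⟦(1 : ℤ)⟧ ⟶ U.cobar.Q (s + 1) (𝟙_ T.C) ⊗ C,
      c ≫ (U.cobar.q s (𝟙_ T.C) ▷ C) = g :=
    U.cobar.q_surjective (F := homM (((stdEven T.C).S w)⟦(1 : ℤ)⟧) C) s (𝟙_ T.C) g
  rw [odd_red' D U (by norm_num) hC s w c, zero_comp]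

section Lift

variable {w w' : ℤ} (h : w + 1 = w') {X : T.C} {b : ((stdEven T.C).S w)⟦(1 : ℤ)⟧ ⟶ X}
  {d : X ⟶ (((stdEven T.C).S w)⟦(1 : ℤ)⟧)⟦(1 : ℤ)⟧} (hX : Dist ((3 : ℤ) • 𝟙 _) b d)

include hX

theorem three_b {Y : T.C} (f : X ⟶ Y) : (3 : ℤ) • (b ≫ f) = 0 := by
  rw [← Category.id_comp (b ≫ f), ← Preadditive.zsmul_comp, reassoc_of% hX.zero₁₂, zero_comp]

theorem d_three {Y : T.C} (f : _ ⟶ Y) : d ≫ ((3 : ℤ) • f) = 0 := by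
  have h1 := hX.zero₃₁
  rw [Functor.map_zsmul, CategoryTheory.Functor.map_id] at h1
  rw [← Category.id_comp f, ← Preadditive.zsmul_comp, reassoc_of% h1, zero_comp]

theorem of_d {Y : T.C} (f : _ ⟶ Y) (hf : d ≫ f = 0) : ∃ g, (3 : ℤ) • g = f := by
  obtain ⟨g, rfl⟩ := hX.desc₁ f hf
  exact ⟨g, by rw [Functor.map_zsmul, CategoryTheory.Functor.map_id, Preadditive.zsmul_comp,
    Category.id_comp]⟩

theorem moore_van (f : X ⟶ (U.cobar.Q 1 (𝟙_ T.C))⟦(1 : ℤ)⟧) : f = 0 := by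
  obtain ⟨a, ha⟩ := (shiftFunctor T.C (1 : ℤ)).map_surjective (b ≫ f)
  have h1 : a = 0 := tf_even D U (p := 3) (by norm_num) 0 w a
    ((shiftFunctor T.C (1 : ℤ)).map_injective (by
      rw [Functor.map_zsmul, ha, Functor.map_zero]
      exact three_b hX f))
  obtain ⟨g, rfl⟩ := hX.desc₃ f (by rw [← ha, h1, Functor.map_zero])
  obtain ⟨g, rfl⟩ := (shiftFunctor T.C (1 : ℤ)).map_surjective g
  obtain ⟨g, rfl⟩ := div_odd D U (p := 3) (by norm_num) 0 w 1 g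
  rw [Functor.map_zsmul, pow_one]
  exact d_three hX _

/-- The cocycle modulo three of a map from a Moore spectrum and the lift of its restriction to the
bottom cell. -/
theorem moore_lift (g : X ⟶ (𝟙_ T.C)⟦(1 : ℤ)⟧) :
    ∃ (g₁ : X ⟶ U.cobar.B 1 (𝟙_ T.C)) (y : Cob.wt Laz 1 w') (x : Cob.wt Laz 2 w')
      (c : (stdEven T.C).S w' ⟶ U.cobar.B 2 (𝟙_ T.C)), g₁ ≫ U.bd 0 _ = g ∧
      g₁ ≫ unitMap D.R _ = d ≫ (eS h).inv ≫ D.evw 1 w' y ≫ qq D U 1 ∧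
      Cob.d 1 y.1 = 3 * x.1 ∧ c ≫ bd2 U = (eS h).hom ≫ (b ≫ g)⟦(1 : ℤ)⟧' ∧
      c ≫ unitMap D.R _ = D.evw 2 w' x ≫ qq D U 2 := by
  obtain ⟨g₁, rfl⟩ := (dist_bd U 0).lift₁ g (moore_van D U hX _)
  obtain ⟨c₁, h1, h2⟩ : ∃ c₁ : X ⟶ U.cobar.Q 2 (𝟙_ T.C), c₁ ≫ U.cobar.d 2 (𝟙_ T.C) = 0 ∧
      c₁ ≫ U.cobar.q 1 (𝟙_ T.C) = g₁ ≫ unitMap D.R _ :=
    U.cobar.exists_cocycle (F := preadditiveCoyoneda.obj (Opposite.op X)) 1 (𝟙_ T.C)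
      (g₁ ≫ unitMap D.R _) (by
        change (g₁ ≫ unitMap D.R _) ≫ U.cobar.k 1 (𝟙_ T.C) ≫ _ = 0
        rw [Category.assoc, reassoc_of% (dist_bd U 1).zero₁₂, zero_comp, comp_zero])
  obtain ⟨a, rfl⟩ := hX.desc₃ c₁ (by
    apply (shiftFunctor T.C (1 : ℤ)).map_injective
    rw [← cancel_epi (eS h).hom, Functor.map_zero, comp_zero]
    refine tf_odd D U (p := 3) (by norm_num) 1 w' _ ?_
    rw [← Preadditive.comp_zsmul, ← Functor.map_zsmul]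
    exact (congrArg (fun f => (eS h).hom ≫ f⟦(1 : ℤ)⟧') (three_b hX c₁)).trans
      (by rw [Functor.map_zero, comp_zero]))
  obtain ⟨y, a', h3⟩ := surj_pow D U (p := 3) (by norm_num) 1 w' 1 ((eS h).hom ≫ a)
  replace h3 : d ≫ a = d ≫ (eS h).inv ≫ D.phi U 1 w' y := by
    rw [← Iso.eq_inv_comp] at h3
    rw [h3, Preadditive.comp_add, Preadditive.comp_add, Preadditive.comp_zsmul, pow_one]
    exact add_eq_left.2 (d_three hX _)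
  rw [h3, Category.assoc, Category.assoc] at h1 h2
  obtain ⟨a'', h4⟩ := of_d hX _ h1
  obtain ⟨x, hx⟩ := ker_pow D U (p := 3) (by norm_num) 2 w' 1 (Cob.dwt Laz 1 w' y)
    ((eS h).hom ≫ a'') (by
      rw [D.phi_d, pow_one, ← Preadditive.comp_zsmul]
      exact ((Iso.eq_inv_comp _).1 h4).symm)
  obtain ⟨c, h5, h6⟩ := hX.rot.rot.map₃ (dist_bd U 1) g₁ _ h2
  rw [D.phi_apply, Category.assoc] at h2 h5
  refine ⟨g₁, y, x, -((eS h).hom ≫ c), rfl, h2.symm, ?_, ?_, ?_⟩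
  · refine (congrArg Subtype.val hx).trans ?_
    change ((3 : ℕ) : ℤ) ^ 1 • x.1 = _
    simp
  · rw [bd2, Preadditive.neg_comp, Category.assoc, ← reassoc_of% h6]
    simp
  · rw [← sub_eq_zero]
    refine tf_B D U 2 w' _ ?_
    have h7 : (3 : ℤ) • x = Cob.dwt Laz 1 w' y := by rw [hx]; simp
    have h8 : (3 : ℤ) • (-c) = (eS h).inv ≫ D.evw 1 w' y ≫ qq D U 1 ≫ U.cobar.k 1 (𝟙_ T.C) := by
      simp only [qq, Category.assoc] at h5 ⊢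
      rw [← h5]
      simp
    rw [smul_sub, ← Preadditive.zsmul_comp, ← Preadditive.zsmul_comp, ← map_zsmul, h7, D.evw_dwt,
      ← dd, Category.assoc, dd_qq D U 1, ← Preadditive.comp_neg, ← Preadditive.comp_zsmul, h8]
    simp

end Lift

section Fil

variable {H : T.C} [MonObj H] [IsCommMonObj H] (hH : Tr.IsHF 3 η[H]) (u : D.R ⟶ H) [IsMonHom u]

theorem un_thom' (Y : T.C) : unitMap D.R Y ≫ u ▷ Y = Tr.hur η[H] Y := by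
  rw [unitMap, Tr.hur, Category.assoc, ← comp_whiskerRight, IsMonHom.one_hom]

include u in
theorem null_bd (s : ℕ) : Tr.Null η[H] (U.bd s (𝟙_ T.C)) := by
  rw [Tr.Null, ← un_thom' D u, ← Category.assoc]
  refine (congrArg (· ≫ _) ?_).trans zero_comp
  rw [← cancel_mono (csh D.R 1 _).hom, Category.assoc, unitMap_csh, (dist_bd U s).zero₃₁,
    zero_comp]

include hH u in
theorem af2_of_mem {X : T.C} {w : ℤ} (e : X ⟶ (stdEven T.C).S w) (g₁ : X ⟶ U.cobar.B 1 (𝟙_ T.C))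
    (y : Cob.wt Laz 1 w) (z : Cob.wt Laz 0 w) (hy : y.1 - Cob.d 0 z.1 ∈ II 1)
    (hg : g₁ ≫ unitMap D.R _ = e ≫ D.evw 1 w y ≫ qq D U 1) :
    Tr.AF η[H] 2 (g₁ ≫ U.bd 0 (𝟙_ T.C)) := by
  let t : X ⟶ U.cobar.B 1 (𝟙_ T.C) := e ≫ D.evw 0 w z ≫ qq D U 0 ≫ U.cobar.k 0 (𝟙_ T.C)
  have h1 : g₁ ≫ U.bd 0 (𝟙_ T.C) = (g₁ - t) ≫ U.bd 0 (𝟙_ T.C) := by
    simp only [t, Preadditive.sub_comp, Category.assoc]
    rw [(dist_bd U 0).zero₂₃]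
    simp
  have h2 : t ≫ unitMap D.R _ = e ≫ D.evw 1 w (Cob.dwt Laz 0 w z) ≫ qq D U 1 := by
    rw [D.evw_dwt, ← dd]
    simp only [t, Category.assoc]
    rw [dd_qq D U 0]
  have h3 := evw_thom D hH.conc (p := 3) ((hH.ord 3).2 dvd_rfl) u (inlM H D.R) (s := 1)
    (pairM (u ≫ inlM H D.R) (inrM H D.R)) (v_zero_pairM _ _) (y - Cob.dwt Laz 0 w z) (h := 3) hy
  have h4 : pairM (u ≫ inlM H D.R) (inrM H D.R) = (λ_ D.R).hom ▷ D.R ≫ u ▷ D.R := by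
    have h0 : η[𝟙_ T.C] = 𝟙 _ := rfl
    refine (eq_pairM (g := ((λ_ D.R).hom ≫ u) ▷ D.R) ?_ ?_).symm.trans (comp_whiskerRight _ _ _)
    · change (inrM (𝟙_ T.C) D.R ≫ inlM _ D.R) ≫ _ = _
      rw [Category.assoc, inlM_whiskerRight, inrM, h0]
      simp
    · change inrM _ D.R ≫ _ = _
      rw [inrM_whiskerRight]
  rw [h1]
  refine Tr.AF.succ (Tr.AF.of_null ?_) (null_bd D U u 0)
  rw [Tr.Null, ← un_thom' D u, ← Category.assoc, Preadditive.sub_comp, hg, h2,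
    ← Preadditive.comp_sub, ← Preadditive.sub_comp, ← map_sub, qq, qAm_two, CobarData.q_succ,
    CobarData.q_zero]
  change (_ ≫ _ ≫ (_ ≫ D.R ◁ _) ≫ D.R ◁ _ ≫ 𝟙 _) ≫ u ▷ _ = 0
  rw [h4] at h3
  simp only [Category.assoc, Category.comp_id]
  rw [whisker_exchange, whisker_exchange_assoc, reassoc_of% h3]
  simp

include hH u in
/-- The cocycle of a map of filtration `< 2` is a unit multiple of `t_1 ^ (3 ^ (j + 1))`. -/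
theorem moore_unit {t : Cob Laz 1} (ht : IsT1 3 t) {j : ℕ} {w : ℤ} (h : w + 1 = w0 j) {X : T.C}
    {b : ((stdEven T.C).S w)⟦(1 : ℤ)⟧ ⟶ X} {d : X ⟶ (((stdEven T.C).S w)⟦(1 : ℤ)⟧)⟦(1 : ℤ)⟧}
    (hX : Dist ((3 : ℤ) • 𝟙 _) b d) (g : X ⟶ (𝟙_ T.C)⟦(1 : ℤ)⟧) (hg : ¬ Tr.AF η[H] 2 g) :
    ∃ (g₁ : X ⟶ U.cobar.B 1 (𝟙_ T.C)) (y y' : Cob.wt Laz 1 (w0 j)) (x : Cob.wt Laz 2 (w0 j))
      (z : Cob.wt Laz 0 (w0 j)) (c : (stdEven T.C).S (w0 j) ⟶ U.cobar.B 2 (𝟙_ T.C)) (m : ℤ),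
      ¬ (3 : ℤ) ∣ m ∧ g₁ ≫ U.bd 0 _ = g ∧
      g₁ ≫ unitMap D.R _ = d ≫ (eS h).inv ≫ D.evw 1 _ y ≫ qq D U 1 ∧
      y.1 - Cob.d 0 z.1 - m * t ^ 3 ^ (j + 1) ∈ II 1 ∧
      x.1 - Cob.d 1 y'.1 - (-m : ℤ) * Bt t j ∈ II 2 ∧
      c ≫ bd2 U = (eS h).hom ≫ (b ≫ g)⟦(1 : ℤ)⟧' ∧
      c ≫ unitMap D.R _ = D.evw 2 _ x ≫ qq D U 2 := by
  obtain ⟨g₁, y, x, c, rfl, h1, h2, h3, h4⟩ := moore_lift D U h hX g
  obtain ⟨m, z, y', hz, hy', h5, h6⟩ := listM ht y.2 x.2 (r := 0) (by rw [h2]; ring)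
  refine ⟨g₁, y, ⟨y', hy'⟩, x, ⟨z, hz⟩, c, m, ?_, rfl, h1, h5, ?_, h3, h4⟩
  · rintro ⟨m, rfl⟩
    refine hg (af2_of_mem D U hH u (d ≫ (eS h).inv) g₁ y ⟨z, hz⟩ ?_ (by rw [h1, Category.assoc]))
    have h7 := Ideal.add_mem _ h5 (three_mul_mem ((m : Cob Laz 1) * t ^ 3 ^ (j + 1)))
    convert h7 using 1
    push_cast
    ring
  · rwa [Int.cast_neg, neg_mul, sub_neg_eq_add]

end Fil

end Vale.Agent.P236K
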