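import Vale.Agent.P236K.QEval
import Vale.Agent.P257.H762.MCell
import Vale.Agent.P251.X.StepOdd

/-!
# P236, block S: the dual Steenrod algebra in low degrees, the cocycle `b_j` is not a coboundary
-/

open CategoryTheory MonoidalCategory MonObj Limits Pretriangulated

set_option linter.unusedSectionVars false

universe u

namespace Vale.Agent.P236K

open Vale.Agent.P251 Vale.Agent.P251.S Vale.Agent.P251.T Vale.Agent.P251.M Vale.Agent.P251.F
  Vale.Agent.P251.I Vale.Agent.P251.H EvenSpheres Vale.Agent.P257 Vale.Agent.P257.H80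
  Vale.Agent.P236Z Vale.Agent.P236Z.Det Vale.Agent.P251.Z

variable {T : Type u} [Category.{0} T] [Preadditive T] [HasZeroObject T]
    [HasShift T ℤ] [∀ n : ℤ, (shiftFunctor T n).Additive] [Pretriangulated T] [IsTriangulated T]
    [MonoidalCategory T] [SymmetricCategory T] [TensorTriangulated T] [MonoidalClosed T]
    [HasCoproducts.{0} T] [HasProducts.{0} T] [StableCat T]
  {F : SpaceFunctor T} {e : F.S.obj CCF ≅ (stdEven T).L} {D : MUData T}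

theorem surj_of_cof {X Y : T} {f : X ⟶ Y} {B : ℤ} (h : CofIn (Conn B) f) {w : ℤ} (hw : 2 * w < B)
    (y : (stdEven T).S w ⟶ Y) : ∃ x, x ≫ f = y := by
  obtain ⟨Z, g, d, E, hZ⟩ := h
  refine E.lift₂ y ?_
  rw [← cancel_epi ((stdEven T).sphIso (Iso.refl _) w).inv, hZ _ hw (_ ≫ _), comp_zero]

theorem inj_of_cof {X Y : T} {f : X ⟶ Y} {B : ℤ} (h : CofIn (Conn B) f) {w : ℤ}
    (hw : 2 * w + 1 < B) {x x' : (stdEven T).S w ⟶ X} (hx : x ≫ f = x' ≫ f) : x = x' := by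
  obtain ⟨Z, g, d, E, hZ⟩ := h
  rw [← sub_eq_zero, ← cancel_epi ((stdEven T).sphIso (Iso.refl _) w).inv, comp_zero]
  refine Cv.DivAux.inj_of_surj E (fun z => ⟨0, by rw [zero_comp, hZ _ hw z]⟩) _ ?_
  rw [Category.assoc, Preadditive.sub_comp, hx, sub_self, comp_zero]

theorem cofIn_tensor {X X' Y Y' : T} {f : X ⟶ X'} {g : Y ⟶ Y'} {B : ℤ}
    (hf : CofIn (BigCell T B) f) (hg : CofIn (BigCell T B) g) (hY : BigCell T 0 Y)
    (hX : BigCell T 0 X') : CofIn (BigCell T B) (f ⊗ₘ g) := by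
  rw [MonoidalCategory.tensorHom_def]
  exact (hf.whiskerRight (bigCell_extClosed B) Y fun A hA => hY.tensor hA B (zero_add B)).comp
    (bigCell_extClosed B) (hg.whiskerLeft X' fun A hA => hX.tensor hA B (zero_add B))

section HF

variable {H : T} [MonObj H] [IsCommMonObj H] (hH : Tr.IsHF 3 η[H])

include hH

theorem thom_ext (a b : D.R ⟶ H) [IsMonHom a] [IsMonHom b] : a = b := by
  obtain ⟨J, ρ, δ, hJ⟩ := exists_cone (η[D.R])
  refine (X.bij_of_cofIn hH.conc ⟨J, ρ, δ, hJ, D.conn J ρ δ hJ⟩).1 ?_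
  dsimp only
  rw [IsMonHom.one_hom, IsMonHom.one_hom]

theorem bigCell_H (h0 : Conn 0 (𝟙_ T)) : BigCell T 0 H :=
  have := locallySmall_self.{0} T
  H762.bigCell_of_conn h0 fun k hk f => hH.conc k (by omega) f

theorem intCast_surj : Function.Surjective (Int.castRingHom (HRing (stdEven T) H)) := fun x => by
  have h4 : ∀ m : ℤ, (m : HRing (stdEven T) H) =
      HRing.of (stdEven T) H 0 ((stdEven T).zero.inv ≫ (m • η[H])) := fun m => by
    rw [← zsmul_one, ← of_one, Preadditive.comp_zsmul]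
    exact (map_zsmul (DirectSum.of ((stdEven T).Gr H) 0) m _).symm
  induction x using DirectSum.induction_on with
  | zero => exact ⟨0, map_zero _⟩
  | of w a =>
    by_cases hw : w = 0
    · subst hw
      obtain ⟨m, hm⟩ := hH.gen ((stdEven T).zero.hom ≫ a)
      exact ⟨m, (h4 m).trans (by rw [← hm, Iso.inv_hom_id_assoc])⟩
    · refine ⟨0, (map_zero _).trans ?_⟩
      have h5 : a = 0 := by
        rw [← cancel_epi ((stdEven T).sphIso (Iso.refl _) w).inv,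
          hH.conc _ (by omega) (_ ≫ _), comp_zero]
      rw [h5, map_zero]
  | add x y hx hy =>
    obtain ⟨m, rfl⟩ := hx
    obtain ⟨n, rfl⟩ := hy
    exact ⟨m + n, map_add _ _ _⟩

end HF

section Nat

variable {E E' : T} [MonObj E] [IsCommMonObj E] [MonObj E'] [IsCommMonObj E'] (ρ : E ⟶ E')
  [IsMonHom ρ]

theorem inlM_tensor {Y Y' : T} [MonObj Y] [MonObj Y'] (g : Y ⟶ Y') [IsMonHom g] :
    inlM E Y ≫ (ρ ⊗ₘ g) = ρ ≫ inlM E' Y' := by
  rw [MonoidalCategory.tensorHom_def, inlM_whiskerRight_assoc, inlM, inlM, Category.assoc,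
    ← MonoidalCategory.whiskerLeft_comp, IsMonHom.one_hom]

theorem inrM_tensor {Y Y' : T} (g : Y ⟶ Y') : inrM E Y ≫ (ρ ⊗ₘ g) = g ≫ inrM E' Y' := by
  rw [MonoidalCategory.tensorHom_def, inrM_whiskerRight_assoc, inrM, inrM, Category.assoc,
    ← whisker_exchange, leftUnitor_inv_naturality_assoc]

theorem w₀_nat : w₀ E ≫ (ρ ⊗ₘ ρ ⊗ₘ ρ) = ρ ≫ w₀ E' := inlM_tensor ρ _

theorem w₁_nat : w₁ E ≫ (ρ ⊗ₘ ρ ⊗ₘ ρ) = ρ ≫ w₁ E' := by
  rw [Category.assoc, inrM_tensor, ← Category.assoc, inlM_tensor, Category.assoc]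

theorem w₂_nat : w₂ E ≫ (ρ ⊗ₘ ρ ⊗ₘ ρ) = ρ ≫ w₂ E' := by
  rw [Category.assoc, inrM_tensor, ← Category.assoc, inrM_tensor, Category.assoc]

theorem tensor_descM {K : T} [MonObj K] (a b : E' ⟶ K) :
    (ρ ⊗ₘ ρ) ≫ descM a b = descM (ρ ≫ a) (ρ ≫ b) := by
  rw [descM, descM, tensorHom_comp_tensorHom_assoc]

theorem face_nat {K K' : T} [MonObj K] [IsCommMonObj K] [MonObj K'] [IsCommMonObj K'] (σ : K ⟶ K')
    [IsMonHom σ] {a b : E ⟶ K} [IsMonHom a] [IsMonHom b] {a' b' : E' ⟶ K'} (ha : a ≫ σ = ρ ≫ a')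
    (hb : b ≫ σ = ρ ≫ b') : (ρ ⊗ₘ ρ) ≫ descM a' b' = descM a b ≫ σ := by
  rw [tensor_descM, descM_comp, ha, hb]

theorem th₂_nat (u : D.R ⟶ E) [IsMonHom u] : th₂ u ≫ (ρ ⊗ₘ ρ) = th₂ (u ≫ ρ) := by
  rw [pairM_comp]
  congr 1
  · rw [Category.assoc, inlM_tensor, Category.assoc]
  · rw [Category.assoc, inrM_tensor, Category.assoc]

theorem th₃_nat (u : D.R ⟶ E) [IsMonHom u] : th₃ u ≫ (ρ ⊗ₘ ρ ⊗ₘ ρ) = th₃ (u ≫ ρ) :=
  Am.hom_ext fun i => by
    rw [Am.v_lift_assoc, Am.v_lift]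
    fin_cases i
    · exact (Category.assoc _ _ _).trans ((congrArg _ (w₀_nat ρ)).trans (Category.assoc _ _ _).symm)
    · exact (Category.assoc _ _ _).trans ((congrArg _ (w₁_nat ρ)).trans (Category.assoc _ _ _).symm)
    · exact (Category.assoc _ _ _).trans ((congrArg _ (w₂_nat ρ)).trans (Category.assoc _ _ _).symm)

end Nat

namespace QD

variable {H : T} [MonObj H] [IsCommMonObj H] {B : ℤ} (q : QD D H B) (hH : Tr.IsHF 3 η[H])

theorem cof : CofIn (BigCell T B) q.ρ := by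
  have := locallySmall_self.{0} T
  obtain ⟨C, c, d, E⟩ := exists_cone q.ρ
  exact ⟨C, c, d, E, H762.bigCell_of_conn D.conn_unit (q.conn C c d E)⟩

theorem cell : BigCell T 0 q.Q :=
  have := locallySmall_self.{0} T
  H762.bigCell_of_conn D.conn_unit q.conn₀

include hH

theorem cof₂ : CofIn (BigCell T B) (q.ρ ⊗ₘ q.ρ) :=
  cofIn_tensor q.cof q.cof q.cell (bigCell_H hH D.conn_unit)

theorem cof₃ : CofIn (BigCell T B) (q.ρ ⊗ₘ q.ρ ⊗ₘ q.ρ) :=
  cofIn_tensor q.cof (q.cof₂ hH) (q.cell.tensor q.cell 0 rfl) (bigCell_H hH D.conn_unit)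

end QD

theorem conn_of_cof {X Y : T} {f : X ⟶ Y} {B : ℤ} (h0 : Conn 0 (𝟙_ T))
    (h : CofIn (BigCell T B) f) : CofIn (Conn B) f := h.mono fun _ hA => H762.BigCell.conn' h0 hA

variable (hD : MUUniv e D) {H : T} [MonObj H] [IsCommMonObj H] (hH : Tr.IsHF 3 η[H])
  {t : Cob Laz 1} (ht : IsT1 3 t) (u : D.R ⟶ H) [IsMonHom u]

include hD hH ht

/-- The cocycle `b_j` is not a coboundary modulo degenerate terms. -/
theorem nbh (j : ℕ) (y₁ y₂ y₃ : (stdEven T).S (w0 j) ⟶ H ⊗ H) :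
    D.evw 2 (w0 j) ⟨Bt t j, isWt_Bt ht j⟩ ≫ th₃ u ≠ y₁ ≫ descM (w₁ H) (w₂ H) +
      y₂ ≫ descM (w₀ H) (w₂ H) + y₃ ≫ descM (w₀ H) (w₁ H) := by
  intro h
  obtain ⟨q⟩ := exists_QD hD hH (w0 j).toNat
  have h2 := conn_of_cof D.conn_unit (q.cof₂ hH)
  obtain ⟨y₁, rfl⟩ := surj_of_cof h2 (by omega) y₁
  obtain ⟨y₂, rfl⟩ := surj_of_cof h2 (by omega) y₂
  obtain ⟨y₃, rfl⟩ := surj_of_cof h2 (by omega) y₃
  obtain rfl : q.u ≫ q.ρ = u := thom_ext hH _ _
  rw [← th₃_nat, Category.assoc, Category.assoc, Category.assoc,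
    face_nat q.ρ _ (w₁_nat q.ρ) (w₂_nat q.ρ), face_nat q.ρ _ (w₀_nat q.ρ) (w₂_nat q.ρ),
    face_nat q.ρ _ (w₀_nat q.ρ) (w₁_nat q.ρ), ← Category.assoc y₁, ← Category.assoc y₂,
    ← Category.assoc y₃, ← Preadditive.add_comp, ← Preadditive.add_comp,
    ← Category.assoc (D.evw _ _ _)] at h
  have h3 := congrArg (HRing.of (stdEven T) _ (w0 j))
    (inj_of_cof (conn_of_cof D.conn_unit (q.cof₃ hH)) (by omega) h)
  refine q.nbq hD hH ht j (HRing.of _ _ _ y₁) (HRing.of _ _ _ y₂) (HRing.of _ _ _ y₃) ?_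
  rw [HRing.map_of, HRing.map_of, HRing.map_of]
  refine Eq.trans ?_ (h3.trans ?_)
  · rw [← HRing.map_of, D.of_evw]
  · exact ((DirectSum.of ((stdEven T).Gr _) (w0 j)).map_add _ _).trans
      (congrArg₂ (· + ·) ((DirectSum.of ((stdEven T).Gr _) (w0 j)).map_add _ _) rfl)

/-- The powers of `ξ_1` are not zero. -/
theorem t1_pow_ne (k : ℕ) : HRing.map (E := stdEven T) (th₂ u) (D.ev 1 (t ^ k)) ≠ 0 := by
  intro h
  obtain ⟨q⟩ := exists_QD hD hH (2 * k)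
  obtain rfl : q.u ≫ q.ρ = u := thom_ext hH _ _
  refine q.t1_pow_ne hD hH ht k ?_
  have hw : Cob.IsWt ((k : ℤ) * 2) (t ^ k) := (isWt_t1 ht).pow k
  rw [← D.of_evw ⟨_, hw⟩, HRing.map_of] at h ⊢
  have h1 := of_injective (h.trans (map_zero (DirectSum.of ((stdEven T).Gr _) _)).symm)
  rw [← th₂_nat, ← Category.assoc, ← zero_comp (f := q.ρ ⊗ₘ q.ρ)] at h1
  rw [inj_of_cof (conn_of_cof D.conn_unit (q.cof₂ hH)) (by push_cast; omega) h1]
  exact map_zero (DirectSum.of ((stdEven T).Gr _) _)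

end Vale.Agent.P236K
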