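import Vale.Agent.P236K.AlgB
import Vale.Agent.P257.H712.Bridge

/-!
# P236, block S: the two algebraic inputs of the Toda differential
-/

namespace Vale.Agent.P236K

open Vale.Agent.P251.F Vale.Agent.P251.I

/-- The cohomology modulo three in degree two and weight `18` is generated by `b_1`. -/
def EA : Prop := ∀ t : Cob Laz 1, IsT1 3 t → ∀ y : Cob Laz 2, Cob.IsWt 18 y →
  (3 : Cob Laz 3) ∣ Cob.d 2 y → ∃ (c : ℤ) (y' : Cob Laz 1), Cob.IsWt 18 y' ∧
    (3 : Cob Laz 2) ∣ y - c * Bt t 1 - Cob.d 1 y'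

/-- The product `h_0 b_0 ^ 3` is not a coboundary modulo three. -/
def EB : Prop := ∀ t : Cob Laz 1, IsT1 3 t → ∀ y : Cob Laz 6,
  ¬ (3 : Cob Laz 7) ∣ (P257.H712.cupN t (bcls 3 t) 3 : Cob Laz 7) - Cob.d 6 y

end Vale.Agent.P236K
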