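import Vale.Agent.P257.H80.Idem
import Vale.Agent.P257.H80.HazVV
import Vale.Agent.P251.X.PDSucc
import Vale.Agent.P236Z.Dt.HF
import Vale.Agent.P236Z.Cv.Div

/-!
# P236, block S: the ring `Q = BP / (3, v_1, …, v_{N-1})` approximates `H F_3`
-/

open CategoryTheory MonoidalCategory MonObj Limits Pretriangulated

set_option linter.unusedSectionVars false

universe u

namespace Vale.Agent.P236K

open Vale.Agent.P251 Vale.Agent.P251.S Vale.Agent.P251.T Vale.Agent.P251.M Vale.Agent.P251.F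
  Vale.Agent.P251.I Vale.Agent.P251.H EvenSpheres Vale.Agent.P257 Vale.Agent.P257.H80
  Vale.Agent.P236Z Vale.Agent.P236Z.Det

variable {T : Type u} [Category.{0} T] [Preadditive T] [HasZeroObject T]
    [HasShift T ℤ] [∀ n : ℤ, (shiftFunctor T n).Additive] [Pretriangulated T] [IsTriangulated T]
    [MonoidalCategory T] [SymmetricCategory T] [TensorTriangulated T] [MonoidalClosed T]
    [HasCoproducts.{0} T] [HasProducts.{0} T] [StableCat T]
  {F : SpaceFunctor T} {e : F.S.obj CCF ≅ (stdEven T).L} {D : MUData T}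

theorem locO_of_three {K : T} [MonObj K] (h : (3 : ℤ) • η[K] = 0) : LocO 3 K := by
  intro m hm
  have h3 : (3 : ℤ) • 𝟙 K = 0 := X.zsmul_id_eq_zero h
  obtain ⟨x, y, hxy⟩ := (Int.prime_three.irreducible.coprime_iff_not_dvd.2 hm : IsCoprime 3 m)
  have h1 : (y * m) • 𝟙 K = 𝟙 K := by
    rw [show y * m = 1 - x * 3 by linear_combination hxy, sub_smul, one_smul, mul_smul, h3,
      smul_zero, sub_zero]
  refine ⟨y • 𝟙 K, ?_, ?_⟩
  · rw [Preadditive.zsmul_comp, Category.id_comp, smul_smul, mul_comm, h1]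
  · rw [Preadditive.zsmul_comp, Category.id_comp, smul_smul, h1]

theorem three_of_hom {K K' : T} [MonObj K] [MonObj K'] (h : (3 : ℤ) • η[K] = 0) (f : K ⟶ K')
    [IsMonHom f] : (3 : ℤ) • η[K'] = 0 := by
  rw [← IsMonHom.one_hom f, ← Preadditive.zsmul_comp, h, zero_comp]

theorem three_HRing {K : T} [MonObj K] [IsCommMonObj K] (h : (3 : ℤ) • η[K] = 0) :
    ((3 : ℕ) : HRing (stdEven T) K) = 0 := by
  rw [of_natCast, ← natCast_zsmul, Nat.cast_ofNat, h, comp_zero]
  exact map_zero _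

/-- A ring generated by classes of degree at least `B` has no homotopy in the degrees below. -/
theorem low_of_gen {K : T} [MonObj K] [IsCommMonObj K] {B : ℤ} (hB : 0 < B)
    (φ : MvPolynomial ℕ ℤ →+* HRing (stdEven T) K) (hs : Function.Surjective φ)
    (hφ : ∀ k, φ (MvPolynomial.X k) = 0 ∨ ∃ w, B ≤ w ∧ IsHomog K w (φ (MvPolynomial.X k))) :
    (∀ w, w < B → w ≠ 0 → ∀ a : (stdEven T).S w ⟶ K, a = 0) ∧
      ∀ a : 𝟙_ T ⟶ K, ∃ m : ℤ, a = m • η[K] := by
  let S : AddSubgroup (HRing (stdEven T) K) :=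
    AddSubgroup.closure {x | ∃ w, B ≤ w ∧ IsHomog K w x}
  have h1 : ∀ x ∈ S, ∀ w, w < B → x w = 0 := fun x hx w hw => by
    induction hx using AddSubgroup.closure_induction with
    | mem x hx =>
      obtain ⟨v, hv, a, rfl⟩ := hx
      exact DirectSum.of_eq_of_ne (β := (stdEven T).Gr K) v w a (by omega)
    | zero => rfl
    | add x y _ _ hx hy => rw [DirectSum.add_apply, hx, hy, add_zero]
    | neg x _ hx => rw [DFinsupp.neg_apply, hx, neg_zero]
  have h2 : ∀ x ∈ S, ∀ v y, B ≤ v → IsHomog K v y → x * y ∈ S := fun x hx v y hv hy => by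
    induction hx using AddSubgroup.closure_induction with
    | mem x hx =>
      obtain ⟨w, hw, hx⟩ := hx
      exact AddSubgroup.subset_closure ⟨w + v, by omega, hx.mul hy rfl⟩
    | zero => rw [zero_mul]; exact zero_mem _
    | add x y _ _ hx hy => rw [add_mul]; exact add_mem hx hy
    | neg x _ hx => rw [neg_mul]; exact neg_mem hx
  have h3 : ∀ q, ∃ m : ℤ, φ q - m ∈ S := fun q => by
    induction q using MvPolynomial.induction_on with
    | C a => exact ⟨a, by rw [eq_intCast MvPolynomial.C, map_intCast, sub_self]; exact zero_mem _⟩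
    | add p q hp hq =>
      obtain ⟨m, hm⟩ := hp
      obtain ⟨n, hn⟩ := hq
      refine ⟨m + n, ?_⟩
      rw [map_add, Int.cast_add, add_sub_add_comm]
      exact add_mem hm hn
    | mul_X p k hp =>
      obtain ⟨m, hm⟩ := hp
      refine ⟨0, ?_⟩
      rw [map_mul, Int.cast_zero, sub_zero]
      rcases hφ k with h | ⟨w, hw, h⟩
      · rw [h, mul_zero]
        exact zero_mem _
      · rw [← sub_add_cancel (φ p) m, add_mul, ← zsmul_eq_mul]
        have h5 : φ (MvPolynomial.X k) ∈ S := AddSubgroup.subset_closure ⟨w, hw, h⟩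
        exact add_mem (h2 _ hm w _ hw h) (zsmul_mem h5 m)
  have h4 : ∀ m : ℤ, (m : HRing (stdEven T) K) =
      HRing.of (stdEven T) K 0 (m • ((stdEven T).zero.inv ≫ η[K])) := fun m => by
    rw [← zsmul_one, ← of_one]
    exact (map_zsmul (DirectSum.of ((stdEven T).Gr K) 0) m _).symm
  refine ⟨fun w hw h0 a => ?_, fun a => ?_⟩
  · obtain ⟨q, hq⟩ := hs (HRing.of (stdEven T) K w a)
    obtain ⟨m, hm⟩ := h3 q
    have h5 := h1 _ hm w hw
    rwa [hq, h4, DirectSum.sub_apply, DirectSum.of_eq_same, DirectSum.of_eq_of_ne 0 w _ h0,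
      sub_zero] at h5
  · obtain ⟨q, hq⟩ := hs (HRing.of (stdEven T) K 0 ((stdEven T).zero.inv ≫ a))
    obtain ⟨m, hm⟩ := h3 q
    have h5 := h1 _ hm 0 hB
    rw [hq, h4, DirectSum.sub_apply, DirectSum.of_eq_same, DirectSum.of_eq_same, sub_eq_zero] at h5
    refine ⟨m, (cancel_epi (stdEven T).zero.inv).1 (h5.trans ?_)⟩
    rw [Preadditive.comp_zsmul]

/-- A ring which approximates `H F_3` and is universal among even rings. -/
structure QD (D : MUData T) (H : T) [MonObj H] (B : ℤ) where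
  /-- the ring -/
  Q : T
  [mon : MonObj Q]
  [comm : IsCommMonObj Q]
  /-- the orientation -/
  u : D.R ⟶ Q
  [hu : IsMonHom u]
  /-- the approximation -/
  ρ : Q ⟶ H
  [hρ : IsMonHom ρ]
  odd : X.Odd0 Q
  three : (3 : ℤ) • η[Q] = 0
  surj : Function.Surjective (Laz.lift (lawOf u))
  typ : ∃ φ, lawOf u = (haz 3).map φ
  desc (K : T) [MonObj K] [IsCommMonObj K] (hK : X.Odd0 K) (k : Q ⟶ K) [IsMonHom k]
    (a : D.R ⟶ K) [IsMonHom a] (ha : ∃ φ, lawOf a = (haz 3).map φ) :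
    ∃ f : Q ⟶ K, IsMonHom f ∧ u ≫ f = a
  uniq (K : T) [MonObj K] (hK : X.Odd0 K) (f f' : Q ⟶ K) (hf : IsMonHom f) (hf' : IsMonHom f')
    (h : u ≫ f = u ≫ f') : f = f'
  conn₀ : Conn 0 Q
  conn (C : T) (c : H ⟶ C) (d : C ⟶ Q⟦(1 : ℤ)⟧) (h : Dist ρ c d) : Conn B C

attribute [instance] QD.mon QD.comm QD.hu QD.hρ

theorem vv_H {H : T} [MonObj H] [IsCommMonObj H] (hH : Tr.IsHF 3 η[H]) (a : D.R ⟶ H)
    [IsMonHom a] (i : ℕ) : vv 3 i (lawOf a) = 0 := by
  rcases Nat.eq_zero_or_pos i with rfl | hi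
  · exact (X.vv_zero_lawOf_iff a).2 ((hH.ord 3).2 dvd_rfl)
  · refine (X.vv_lawOf_eq_zero_iff a 3 i).2 ?_
    have h5 : 1 < 3 ^ i := Nat.one_lt_pow hi.ne' (by norm_num)
    have h6 : (1 : ℤ) < ((3 : ℕ) : ℤ) ^ i := by exact_mod_cast h5
    rw [← cancel_epi ((stdEven T).sphIso (Iso.refl _) _).inv, hH.conc _ (by omega) (_ ≫ _),
      comp_zero]

theorem odd_H {H : T} {a : 𝟙_ T ⟶ H} (hH : Tr.IsHF 3 a) : X.Odd0 H :=
  fun l f => hH.conc _ (by omega) f

theorem haz_X_zero {A : Type} [CommRing A] (h3 : ((3 : ℕ) : A) = 0) {φ : MvPolynomial ℕ ℤ →+* A}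
    {N : ℕ} (h : ∀ i < N, vv 3 i ((haz 3).map φ) = 0) (k : ℕ) :
    k + 1 < N → φ (MvPolynomial.X k) = 0 := by
  induction k using Nat.strong_induction_on with
  | _ k ih =>
    intro hk
    rw [← vv_haz_of_zero 3 h3 fun j hj => ih j hj (by omega)]
    exact h _ hk

theorem eq_zero_of_parity {K : T} (hK : X.Odd0 K) {k : ℤ}
    (h : ∀ w, 2 * w = k → ∀ a : (stdEven T).S w ⟶ K, a = 0) (f : (𝟙_ T)⟦k⟧ ⟶ K) : f = 0 := by
  rcases Int.even_or_odd' k with ⟨w, rfl | rfl⟩
  · rw [← cancel_epi ((stdEven T).sphIso (Iso.refl _) w).hom, h w rfl (_ ≫ _), comp_zero]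
  · exact hK w f

theorem exists_QD_of (hD : MUUniv e D) {H : T} [MonObj H] [IsCommMonObj H] (hH : Tr.IsHF 3 η[H])
    {n : ℕ} (P : X.PD D 3 n) (hn : 0 < n) {N : ℤ} (hN : 0 < N)
    (hpow : ∀ k : ℕ, n ≤ k + 1 → N + 1 ≤ 3 ^ (k + 1)) : ∃ (q : QD D H (2 * N + 1))
      (s : q.Q ⟶ P.P) (r : P.P ⟶ q.Q), s ≫ r = 𝟙 _ ∧ P.u ≫ r = q.u := by
  have h3 : (3 : ℤ) • η[P.P] = 0 := (X.vv_zero_lawOf_iff P.u).1 (P.vv_zero_of_lt (by omega))
  have hP := locO_of_three h3
  obtain ⟨ε, hε, hl⟩ := P.desc P.P (typM hD hP P.u) P.odd fun i hi =>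
    X.vv_lawOf_lt P.u _ (fun _ h => P.vv_zero_of_lt h) hi
  have hidem : ε ≫ ε = ε := by
    refine P.uniq _ _ _ inferInstance hε P.odd ?_
    rw [← Category.assoc, hl, ← typM_comp hD hP P.u hP ε]
    exact (typM_congr hD hP hl).trans (typM_eq hD hP _ (lawOf_typM hD hP P.u))
  obtain ⟨Q, s, r, hsr, hrs⟩ := X.exists_split ε hidem
  have hret : X.IsRetMon s r := ⟨hsr, by rw [hrs]; exact hε⟩
  let i1 : MonObj Q := hret.monObj
  have i2 : IsCommMonObj Q := hret.isCommMonObj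
  have i3 : IsMonHom s := hret.isMonHom_s
  have i4 : IsMonHom r := hret.isMonHom_r
  have hQ3 : (3 : ℤ) • η[Q] = 0 := three_of_hom h3 r
  have hQ := locO_of_three hQ3
  have h1 : typM hD hP P.u ≫ r = P.u ≫ r := by
    rw [← hl, Category.assoc, ← hrs, Category.assoc, hsr, Category.comp_id]
  have h2 : typM hD hQ (P.u ≫ r) = P.u ≫ r := by rw [typM_comp hD hP P.u hQ r, h1]
  have hlaw := (lawOf_congr h2).symm.trans (lawOf_typM hD hQ (P.u ≫ r))
  have hodd : X.Odd0 Q := fun l f => by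
    rw [← Category.comp_id f, ← hsr, ← Category.assoc, P.odd l (f ≫ s), zero_comp]
  have hvv : ∀ i < n, vv 3 i (lawOf (P.u ≫ r)) = 0 := fun i hi => by
    rw [lawOf_comp, vv_map]
    exact (congrArg _ (P.vv_zero_of_lt hi)).trans (map_zero _)
  have hsurj : Function.Surjective (Laz.lift (lawOf (P.u ≫ r))) := fun y => by
    obtain ⟨y, rfl⟩ := X.map_surjective_of (E := stdEven T) r
      (fun n y => ⟨y ≫ s, by rw [Category.assoc, hsr, Category.comp_id]⟩) y
    obtain ⟨z, rfl⟩ := P.surj y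
    exact ⟨z, X.lift_lawOf_comp P.u r z⟩
  obtain ⟨t, ht⟩ := Dt.exists_thom D hH.conc
  obtain ⟨f, hf, -⟩ := P.desc H t (odd_H hH) fun i _ => vv_H hH t i
  obtain ⟨hlow, hint⟩ := low_of_gen (B := N) hN
    (vS 3 (typ 3 (pLoc_of_locO hQ) (lawOf (P.u ≫ r)))) (fun y => by
      obtain ⟨z, rfl⟩ := hsurj y
      refine ⟨hazHom 3 z, ?_⟩
      conv_rhs => rw [hlaw, haz, Law.map_map, Laz.lift_map_univ]
      rfl) (fun k => by
      rcases Nat.lt_or_ge (k + 1) n with hk | hk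
      · exact Or.inl (haz_X_zero (three_HRing hQ3) (N := n) (fun i hi => hlaw ▸ hvv i hi) k hk)
      · rw [vS_X]
        refine Or.inr ⟨_, ?_, isHomog_typ _ (P.u ≫ r) _⟩
        have h5 := hpow k hk
        have h6 : ((3 ^ (k + 1) : ℕ) : ℤ) = 3 ^ (k + 1) := by push_cast; rfl
        omega)
  refine ⟨{ Q := Q
            u := P.u ≫ r
            ρ := s ≫ f
            odd := hodd
            three := hQ3
            surj := hsurj
            typ := ⟨_, hlaw⟩
            desc := ?_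
            uniq := ?_
            conn₀ := fun k hk => eq_zero_of_parity hodd fun w hw => hlow w (by omega) (by omega)
            conn := ?_ }, s, r, hsr, rfl⟩
  · intro K _ _ hK k _ a _ ⟨φ, hφ⟩
    have hK3 := locO_of_three (three_of_hom hQ3 k)
    obtain ⟨v, hv, hlv⟩ := P.desc K a hK fun i hi =>
      X.vv_lawOf_lt ((P.u ≫ r) ≫ k) a (fun i hi => by
        rw [X.lawOf_comp, vv_map]
        exact (congrArg _ (hvv i hi)).trans (map_zero _)) hi
    refine ⟨s ≫ v, inferInstance, ?_⟩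
    rw [Category.assoc, ← Category.assoc r, hrs, ← Category.assoc, hl,
      ← typM_comp hD hP P.u hK3 v]
    exact (typM_congr hD hK3 hlv).trans (typM_eq hD hK3 a hφ)
  · intro K _ hK g g' hg hg' h
    have h4 : r ≫ g = r ≫ g' :=
      P.uniq K _ _ inferInstance inferInstance hK (by rw [← Category.assoc, h, Category.assoc])
    rw [← Category.id_comp g, ← Category.id_comp g', ← hsr, Category.assoc, Category.assoc, h4]
  · intro C c d E k hk g
    let z : (𝟙_ T)⟦(0 : ℤ)⟧ ≅ 𝟙_ T := (shiftFunctorZero T ℤ).app (𝟙_ T)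
    have h4 : g ≫ d = 0 := by
      let b : (𝟙_ T)⟦k⟧ ≅ ((𝟙_ T)⟦k - 1⟧)⟦(1 : ℤ)⟧ :=
        (shiftFunctorAdd' T (k - 1) 1 k (by omega)).app (𝟙_ T)
      obtain ⟨x, hx⟩ := (shiftFunctor T (1 : ℤ)).map_surjective (b.inv ≫ g ≫ d)
      have h5 : x ≫ s ≫ f = 0 := by
        apply (shiftFunctor T (1 : ℤ)).map_injective
        rw [Functor.map_comp, hx, Category.assoc, Category.assoc, E.zero₃₁, comp_zero, comp_zero,
          Functor.map_zero]
      have h6 : x = 0 := by
        by_cases h0 : k = 1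
        · subst h0
          obtain ⟨m, hm⟩ := hint (z.inv ≫ x)
          have h7 : m • η[H] = 0 := by
            rw [← IsMonHom.one_hom (s ≫ f), ← Preadditive.zsmul_comp, ← hm]
            exact (Category.assoc _ _ _).trans ((congrArg (z.inv ≫ ·) h5).trans comp_zero)
          obtain ⟨m', rfl⟩ := (hH.ord m).1 h7
          rw [mul_comm, mul_smul, Nat.cast_ofNat, hQ3, smul_zero] at hm
          exact (cancel_epi z.inv).1 (hm.trans comp_zero.symm)
        · exact eq_zero_of_parity hodd (fun w hw => hlow w (by omega) (by omega)) x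
      rw [← cancel_epi b.inv, ← hx, h6, Functor.map_zero, comp_zero]
    obtain ⟨y, rfl⟩ := E.lift₃ g h4
    by_cases h0 : k = 0
    · subst h0
      obtain ⟨m, hm⟩ := hH.gen (z.inv ≫ y)
      rw [← cancel_epi z.inv, ← Category.assoc, hm, ← IsMonHom.one_hom (s ≫ f),
        Preadditive.zsmul_comp, Category.assoc, E.zero₁₂, comp_zero, smul_zero, comp_zero]
    · rw [hH.conc k h0 y, zero_comp]

theorem exists_QD (hD : MUUniv e D) {H : T} [MonObj H] [IsCommMonObj H] (hH : Tr.IsHF 3 η[H])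
    (N : ℕ) : Nonempty (QD D H (2 * (N + 1) + 1)) := by
  obtain ⟨P⟩ := X.exists_PD hD (p := 3) (by norm_num) (Nat.succ_ne_zero (N + 1))
  obtain ⟨q, -⟩ := exists_QD_of hD hH P (by omega) (N := N + 1) (by omega) fun k hk => by
    have h1 := Nat.lt_pow_self (n := k + 1) (by norm_num : 1 < 3)
    have h6 : ((3 ^ (k + 1) : ℕ) : ℤ) = 3 ^ (k + 1) := by push_cast; rfl
    omega
  exact ⟨q⟩

end Vale.Agent.P236K
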