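import Vale.Agent.P236K.QDef
import Vale.Agent.P236K.AlgN
import Vale.Agent.P251.Z.KMU

/-!
# P236, block S: evaluation of cooperations of `Q` on automorphisms of the additive group
-/

open CategoryTheory MonoidalCategory MonObj Limits Pretriangulated

set_option linter.unusedSectionVars false

universe u

namespace Vale.Agent.P236K

open Vale.Agent.P251 Vale.Agent.P251.S Vale.Agent.P251.T Vale.Agent.P251.M Vale.Agent.P251.F
  Vale.Agent.P251.I Vale.Agent.P251.H EvenSpheres Vale.Agent.P257 Vale.Agent.P257.H80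
  Vale.Agent.P236Z Vale.Agent.P236Z.Det Vale.Agent.P251.Z

variable {T : Type u} [Category.{0} T] [Preadditive T] [HasZeroObject T]
    [HasShift T ℤ] [∀ n : ℤ, (shiftFunctor T n).Additive] [Pretriangulated T] [IsTriangulated T]
    [MonoidalCategory T] [SymmetricCategory T] [TensorTriangulated T] [MonoidalClosed T]
    [HasCoproducts.{0} T] [HasProducts.{0} T] [StableCat T]
  {F : SpaceFunctor T} {e : F.S.obj CCF ≅ (stdEven T).L} {D : MUData T}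

section Ser

variable {K : T} [MonObj K] [IsCommMonObj K]

theorem pairM_eq {n : ℕ} (f : Fin (n + 1) → (D.R ⟶ K)) [∀ i, IsMonHom (f i)]
    (α : Fin 2 → Fin (n + 1)) : Am.map D.R α ≫ Am.lift f = pairM (f (α 0)) (f (α 1)) :=
  eq_pairM (by rw [Am.v_map_assoc, Am.v_lift]) (by rw [Am.v_map_assoc, Am.v_lift])

theorem lift_ev_map {n : ℕ} (f : Fin (n + 1) → (D.R ⟶ K)) [∀ i, IsMonHom (f i)]
    (α : Fin 2 → Fin (n + 1)) (x : Cob Laz 1) :
    HRing.map (E := stdEven T) (Am.lift f) (D.ev n (Cob.map α x)) =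
      HRing.map (pairM (f (α 0)) (f (α 1))) (D.ev 1 x) := by
  rw [← D.ev_map, ← HRing_map_congr' (pairM_eq f α), HRing.map_comp]
  rfl

theorem ser_lift {n : ℕ} (f : Fin (n + 1) → (D.R ⟶ K)) [∀ i, IsMonHom (f i)]
    (i k : Fin (n + 1)) : ser (f i) (f k) =
      InvSeries.map ((HRing.map (E := stdEven T) (Am.lift f)).comp (D.ev n))
        ((Cob.univ Laz n).g k * ((Cob.univ Laz n).g i)⁻¹) := by
  have h1 : InvSeries.map (Cob.map ![i, k]) ((Cob.univ Laz 1).g 1) =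
      (Cob.univ Laz n).g k * ((Cob.univ Laz n).g i)⁻¹ :=
    congrArg (fun c => c.g 1) (Cob.univ_map_ev ((Cob.univ Laz n).res ![i, k]))
  rw [← h1, ser, MUData.strictIso, InvSeries.map_map, InvSeries.map_map]
  congr 2
  exact RingHom.ext fun x => (lift_ev_map f ![i, k] x).symm

theorem ser_trans (a b c : D.R ⟶ K) [IsMonHom a] [IsMonHom b] [IsMonHom c] :
    ser b c * ser a b = ser a c := by
  have h1 := ser_lift ![a, b, c] 0 1
  have h2 := ser_lift ![a, b, c] 1 2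
  have h3 := ser_lift ![a, b, c] 0 2
  refine (congrArg₂ (· * ·) h2 h1).trans (Eq.trans ?_ h3.symm)
  rw [← map_mul, _root_.mul_assoc, inv_mul_cancel_left]

theorem ser_congr {a a' b b' : D.R ⟶ K} [IsMonHom a] [IsMonHom a'] [IsMonHom b] [IsMonHom b']
    (h : a = a') (h' : b = b') : ser a b = ser a' b' := by
  subst h h'
  rfl

theorem val_t1 {t : Cob Laz 1} (ht : IsT1 3 t) (a b : D.R ⟶ K) [IsMonHom a] [IsMonHom b]
    {A : Type} [CommRing A] (χ : HRing (stdEven T) K →+* A)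
    (h : (InvSeries.map χ (ser a b)).c 1 = 0) :
    χ (HRing.map (pairM a b) (D.ev 1 t)) = 8 * (InvSeries.map χ (ser a b)).c 2 := by
  obtain ⟨r, hr⟩ := t1_eq ht
  rw [InvSeries.c_map, ser_c] at h
  rw [hr, InvSeries.c_map, ser_c]
  simp only [map_add, map_mul, map_ofNat, h, zero_mul, add_zero]

theorem odd_tensor (hD : MUUniv e D) (hK : X.Odd0 K) (k : D.R ⟶ K) [IsMonHom k] :
    X.Odd0 (K ⊗ D.R) := by
  obtain ⟨b, -, -⟩ := D.exists_basis_of k hD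
  intro l f
  have h1 := b.odd (Iso.refl _) (𝟙_ T) (fun l f => by
    rw [← cancel_mono (ρ_ K).hom, zero_comp]
    exact hK l _) l (f ≫ (ρ_ _).inv)
  rwa [← cancel_mono (ρ_ (K ⊗ D.R)).inv, zero_comp]

variable (hD : MUUniv e D) (k : D.R ⟶ K) [IsMonHom k] {A : Type} [CommRing A]
  (χ : HRing (stdEven T) K →+* A) (g : InvSeries A)

/-- `π_* (K ⊗ MU)` as a polynomial ring -/
noncomputable def epsE : MvPolynomial ℕ (HRing (stdEven T) K) ≃+* HRing (stdEven T) (K ⊗ D.R) :=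
  RingEquiv.ofBijective _ (epsK_bijective (D := D) k hD)

/-- the point of `K ⊗ MU` given by a point of `K` and a strict series -/
noncomputable def chi : HRing (stdEven T) (K ⊗ D.R) →+* A :=
  (MvPolynomial.eval₂Hom χ fun i => g.c (i + 1)).comp (epsE hD k).symm.toRingHom

theorem chi_eps (x : MvPolynomial ℕ (HRing (stdEven T) K)) :
    chi hD k χ g (epsH (bK D k) x) = MvPolynomial.eval₂Hom χ (fun i => g.c (i + 1)) x :=
  congrArg (MvPolynomial.eval₂Hom χ fun i => g.c (i + 1)) ((epsE hD k).symm_apply_apply x)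

theorem chi_inl : (chi hD k χ g).comp (HRing.map (inlM K D.R)) = χ := RingHom.ext fun x => by
  rw [RingHom.comp_apply, ← epsH_C (bK D k), chi_eps, MvPolynomial.eval₂Hom_C]

theorem chi_bK (i : ℕ) : chi hD k χ g (bK D k i) = g.c (i + 1) := by
  rw [← epsH_X (bK D k), chi_eps, MvPolynomial.eval₂Hom_X']

theorem chi_congr (y : HRing (stdEven T) (K ⊗ D.R)) : ∃ M : ℕ, ∀ g g' : InvSeries A,
    (∀ m < M, g.c m = g'.c m) → chi hD k χ g y = chi hD k χ g' y := by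
  obtain ⟨x, rfl⟩ := (epsK_bijective (D := D) k hD).2 y
  refine ⟨x.vars.sup id + 2, fun g g' h => ?_⟩
  rw [chi_eps, chi_eps]
  refine MvPolynomial.eval₂Hom_congr' rfl (fun i hi _ => h _ ?_) rfl
  have : i ≤ x.vars.sup id := Finset.le_sup (f := id) hi
  omega

theorem chi_ser (hg : g ∈ strict A) :
    InvSeries.map (chi hD k χ g) (ser (k ≫ inlM K D.R) (inrM K D.R)) = g := by
  refine InvSeries.ext_c fun n => ?_
  rcases n with _ | n
  · exact (map_mem_strict _ (ser_strict _ _)).trans (mem_strict.1 hg).symm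
  · rw [InvSeries.c_map, ser_c, ← chi_bK hD k χ g n, bK,
      HRing_map_congr' (eq_pairM (D.v_zero_toKR k) (D.v_one_toKR k))]

theorem map_ser_typ (hK : LocO 3 K) (h : (lawOf k).map χ = P251.F.addLaw A) :
    InvSeries.map χ (ser k (typM hD hK k)) = 1 := by
  have hA : PLoc 3 A := (pLoc_of_locO hK).map χ
  rw [ser_typM, map_strictMk, ← strictMk_zero, ← bS_seqV 3 (spZ A), ← typ_haz 3 hA, haz_spZ, ← h]
  congr 1
  funext n
  rw [map_bS]
  congr 1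
  funext m
  exact (typ_map 3 _ hA χ _ m).symm

end Ser

namespace QD

variable {H : T} [MonObj H] {B : ℤ} (q : QD D H B) (hD : MUUniv e D)
  {K : T} [MonObj K] [IsCommMonObj K] {A : Type} [CommRing A]

theorem typ_comp (α : q.Q ⟶ K) [IsMonHom α] : ∃ φ, lawOf (q.u ≫ α) = (haz 3).map φ := by
  obtain ⟨φ, hφ⟩ := q.typ
  exact ⟨_, by rw [lawOf_comp, hφ, Law.map_map]⟩

theorem loc (α : q.Q ⟶ K) [IsMonHom α] : LocO 3 K := locO_of_three (three_of_hom q.three α)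

theorem exists_tau (hK : X.Odd0 K) (α : q.Q ⟶ K) [IsMonHom α] :
    ∃ τ : q.Q ⟶ K ⊗ D.R, IsMonHom τ ∧
      q.u ≫ τ = typM hD (q.loc (α ≫ inlM K D.R)) (inrM K D.R) :=
  q.desc _ (odd_tensor hD hK (q.u ≫ α)) (α ≫ inlM K D.R) _ ⟨_, lawOf_typM _ _ _⟩

theorem step (α : q.Q ⟶ K) [IsMonHom α] {τ : q.Q ⟶ K ⊗ D.R} [IsMonHom τ]
    (hτ : q.u ≫ τ = typM hD (q.loc (α ≫ inlM K D.R)) (inrM K D.R))
    {χ : HRing (stdEven T) K →+* A} (hχ : (lawOf (q.u ≫ α)).map χ = P251.F.addLaw A) {g : InvSeries A}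
    (hg : IsAdd g) :
    InvSeries.map (chi hD (q.u ≫ α) χ g) (ser ((q.u ≫ α) ≫ inlM K D.R) (q.u ≫ τ)) = g ∧
      (lawOf (q.u ≫ τ)).map (chi hD (q.u ≫ α) χ g) = P251.F.addLaw A := by
  have h1 := chi_ser hD (q.u ≫ α) χ g hg.str
  have h2 : (lawOf ((q.u ≫ α) ≫ inlM K D.R)).map (chi hD (q.u ≫ α) χ g) = P251.F.addLaw A := by
    rw [lawOf_comp, Law.map_map, chi_inl, hχ]
  have h4 : (lawOf (inrM K D.R)).map (chi hD (q.u ≫ α) χ g) = P251.F.addLaw A := by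
    rw [← ser_smul ((q.u ≫ α) ≫ inlM K D.R), InvSeries.map_smul, h1, h2, hg.add]
  have h5 : InvSeries.map (chi hD (q.u ≫ α) χ g) (ser ((q.u ≫ α) ≫ inlM K D.R) (q.u ≫ τ)) = g := by
    rw [← ser_trans _ (inrM K D.R), map_mul, h1, ser_congr rfl hτ, map_ser_typ hD _ _ _ h4,
      _root_.one_mul]
  refine ⟨h5, ?_⟩
  rw [← ser_smul ((q.u ≫ α) ≫ inlM K D.R), InvSeries.map_smul, h5, h2, hg.add]

theorem ringHom_ext {χ χ' : HRing (stdEven T) q.Q →+* A}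
    (h : (lawOf q.u).map χ = (lawOf q.u).map χ') : χ = χ' := RingHom.ext fun x => by
  obtain ⟨z, rfl⟩ := q.surj x
  rw [Laz.map_lift, Laz.map_lift, h]

/-- The value of a cooperation at two points depends only on the series between them. -/
theorem eval {τ : q.Q ⟶ q.Q ⊗ D.R} [IsMonHom τ]
    (hτ : q.u ≫ τ = typM hD (q.loc (𝟙 q.Q ≫ inlM q.Q D.R)) (inrM q.Q D.R))
    {χ₀ : HRing (stdEven T) q.Q →+* A} (h₀ : (lawOf (q.u ≫ 𝟙 q.Q)).map χ₀ = P251.F.addLaw A)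
    (hK : X.Odd0 K) (α β : q.Q ⟶ K) [IsMonHom α] [IsMonHom β] (χ : HRing (stdEven T) K →+* A)
    (hχ : (lawOf (q.u ≫ α)).map χ = P251.F.addLaw A) (y : HRing (stdEven T) (q.Q ⊗ q.Q)) :
    χ (HRing.map (descM α β) y) =
      chi hD (q.u ≫ 𝟙 q.Q) χ₀ (InvSeries.map χ (ser (q.u ≫ α) (q.u ≫ β)))
        (HRing.map (descM (inlM q.Q D.R) τ) y) := by
  have h1 : τ ≫ descM α (q.u ≫ β) = β := by
    refine q.uniq K hK _ _ inferInstance inferInstance ?_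
    obtain ⟨φ, hφ⟩ := q.typ_comp β
    rw [← Category.assoc, hτ, ← typM_comp hD _ _ (q.loc α)]
    exact (typM_congr hD _ (inrM_descM _ _)).trans (typM_eq hD _ _ hφ)
  have h2 : descM (inlM q.Q D.R) τ ≫ descM α (q.u ≫ β) = descM α β := by
    refine hom_ext_tensor ?_ ?_
    · rw [inlM_descM_assoc, inlM_descM, inlM_descM]
    · rw [inrM_descM_assoc, h1, inrM_descM]
  rw [← HRing_map_congr' h2, HRing.map_comp, RingHom.comp_apply]
  generalize HRing.map (descM (inlM q.Q D.R) τ) y = x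
  obtain ⟨x, rfl⟩ := (epsK_bijective (D := D) (q.u ≫ 𝟙 q.Q) hD).2 x
  rw [chi_eps]
  refine RingHom.congr_fun (f := (χ.comp (HRing.map (descM α (q.u ≫ β)))).comp
    (epsH (bK D (q.u ≫ 𝟙 q.Q)))) (MvPolynomial.ringHom_ext (fun a => ?_) fun i => ?_) x
  · have h3 : χ.comp (HRing.map α) = χ₀ := q.ringHom_ext (by
      rw [← Law.map_map, ← lawOf_comp, hχ, ← h₀, lawOf_congr (Category.comp_id q.u)])
    rw [MvPolynomial.eval₂Hom_C, ← h3, RingHom.comp_apply, epsH_C, RingHom.comp_apply,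
      ← RingHom.comp_apply (HRing.map _), ← HRing.map_comp, HRing_map_congr' (inlM_descM _ _),
      RingHom.comp_apply]
  · have h3 : D.toKR (q.u ≫ 𝟙 q.Q) ≫ descM α (q.u ≫ β) = pairM (q.u ≫ α) (q.u ≫ β) :=
      eq_pairM (by rw [← Category.assoc, D.v_zero_toKR, Category.assoc, inlM_descM,
        Category.comp_id]) (by rw [← Category.assoc, D.v_one_toKR, inrM_descM])
    rw [MvPolynomial.eval₂Hom_X', RingHom.comp_apply, epsH_X, InvSeries.c_map, ser_c,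
      ← HRing_map_congr' h3, HRing.map_comp]
    rfl

theorem exists_chi [IsCommMonObj H] (hH : Tr.IsHF 3 η[H]) (h3 : (3 : A) = 0) :
    ∃ χ₀ : HRing (stdEven T) q.Q →+* A, (lawOf (q.u ≫ 𝟙 q.Q)).map χ₀ = P251.F.addLaw A := by
  obtain ⟨φ, hφ⟩ := q.typ_comp q.ρ
  have hH3 := three_HRing ((hH.ord 3).2 dvd_rfl)
  have h1 : φ = spZ _ := MvPolynomial.ringHom_ext (fun r => by simp) fun k => by
    rw [haz_X_zero hH3 (N := k + 2) (fun i _ => hφ ▸ vv_H hH _ i) k (by omega)]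
    simp [spZ]
  have h4 : ∀ m : ℤ, (m : HRing (stdEven T) H) =
      HRing.of (stdEven T) H 0 ((stdEven T).zero.inv ≫ (m • η[H])) := fun m => by
    rw [← zsmul_one, ← of_one, Preadditive.comp_zsmul]
    exact (map_zsmul (DirectSum.of ((stdEven T).Gr H) 0) m _).symm
  have hs : Function.Surjective (Int.castRingHom (HRing (stdEven T) H)) := fun x => by
    induction x using DirectSum.induction_on with
    | zero => exact ⟨0, map_zero _⟩
    | of w a =>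
      by_cases hw : w = 0
      · subst hw
        obtain ⟨m, hm⟩ := hH.gen ((stdEven T).zero.hom ≫ a)
        exact ⟨m, (h4 m).trans (by rw [← hm, Iso.inv_hom_id_assoc])⟩
      · refine ⟨0, (map_zero _).trans ?_⟩
        have h5 : a = 0 := by
          rw [← cancel_epi ((stdEven T).sphIso (Iso.refl _) w).inv,
            hH.conc _ (by omega) (_ ≫ _), comp_zero]
        rw [h5, map_zero]
    | add x y hx hy =>
      obtain ⟨m, rfl⟩ := hx
      obtain ⟨n, rfl⟩ := hy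
      exact ⟨m + n, map_add _ _ _⟩
  refine ⟨(RingHom.liftOfSurjective _ hs ⟨Int.castRingHom A, fun m hm => ?_⟩).comp
    (HRing.map q.ρ), ?_⟩
  · have h5 := of_injective ((h4 m).symm.trans ((RingHom.mem_ker.1 hm).trans
      (map_zero (DirectSum.of ((stdEven T).Gr H) 0)).symm))
    obtain ⟨k, rfl⟩ := (hH.ord m).1 ((cancel_epi _).1 (h5.trans comp_zero.symm))
    rw [RingHom.mem_ker, map_mul, map_natCast, Nat.cast_ofNat, h3, zero_mul]
  · rw [← Law.map_map, ← lawOf_comp, lawOf_congr (Category.assoc _ _ _),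
      lawOf_congr (congrArg (q.u ≫ ·) (Category.id_comp q.ρ)), hφ, h1, haz_spZ, map_addLaw]

end QD

section Tri

variable (E : T) [MonObj E]

/-- the first vertex -/
abbrev w₀ : E ⟶ E ⊗ (E ⊗ E) := inlM E (E ⊗ E)

/-- the second vertex -/
abbrev w₁ : E ⟶ E ⊗ (E ⊗ E) := inlM E E ≫ inrM E (E ⊗ E)

/-- the third vertex -/
abbrev w₂ : E ⟶ E ⊗ (E ⊗ E) := inrM E E ≫ inrM E (E ⊗ E)

variable {E} (u : D.R ⟶ E)

/-- the map `MU ⊗ MU ⟶ E ⊗ E` -/
noncomputable abbrev th₂ : Am D.R 2 ⟶ E ⊗ E := pairM (u ≫ inlM E E) (u ≫ inrM E E)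

/-- the map `MU ⊗ MU ⊗ MU ⟶ E ⊗ E ⊗ E` -/
noncomputable abbrev th₃ : Am D.R 3 ⟶ E ⊗ (E ⊗ E) := Am.lift ![u ≫ w₀ E, u ≫ w₁ E, u ≫ w₂ E]

end Tri

theorem descM_comp {X Y K K' : T} [MonObj X] [MonObj Y] [MonObj K] [IsCommMonObj K] [MonObj K']
    [IsCommMonObj K'] (a : X ⟶ K) (b : Y ⟶ K) [IsMonHom a] [IsMonHom b] (f : K ⟶ K')
    [IsMonHom f] : descM a b ≫ f = descM (a ≫ f) (b ≫ f) :=
  hom_ext_tensor (by rw [inlM_descM_assoc, inlM_descM]) (by rw [inrM_descM_assoc, inrM_descM])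

theorem descM_congr {X Y K : T} [MonObj K] {a a' : X ⟶ K} {b b' : Y ⟶ K} (h : a = a')
    (h' : b = b') : descM a b = descM a' b' := by rw [h, h']

namespace QD

variable {H : T} [MonObj H] [IsCommMonObj H] {B : ℤ} (q : QD D H B) (hD : MUUniv e D)
  (hH : Tr.IsHF 3 η[H]) {t : Cob Laz 1} (ht : IsT1 3 t)

include hD hH ht

theorem t1_pow_ne (k : ℕ) : HRing.map (E := stdEven T) (th₂ q.u) (D.ev 1 (t ^ k)) ≠ 0 := by
  intro h
  obtain ⟨χ₀, h₀⟩ := q.exists_chi hH three_Kb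
  obtain ⟨τ, _, hτ⟩ := q.exists_tau hD q.odd (𝟙 q.Q)
  obtain ⟨h1, -⟩ := q.step hD (𝟙 q.Q) hτ h₀ (isAdd_adS three_Kb 1)
  have h2 := val_t1 ht _ _ _ (h1 ▸ adS_c_one 1)
  have h3 : th₂ q.u ≫ descM (inlM q.Q D.R) τ = pairM ((q.u ≫ 𝟙 q.Q) ≫ inlM q.Q D.R) (q.u ≫ τ) := by
    rw [pairM_comp]
    congr 1
    · rw [Category.assoc, inlM_descM, Category.comp_id]
    · rw [Category.assoc, inrM_descM]
  rw [h1, adS_c_two, Polynomial.coeff_one_zero, ← HRing_map_congr' h3, HRing.map_comp,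
    RingHom.comp_apply] at h2
  have h4 := congrArg (fun x => chi hD (q.u ≫ 𝟙 q.Q) χ₀ (adS 1)
    (HRing.map (descM (inlM q.Q D.R) τ) x)) h
  simp only [map_pow, h2, map_zero] at h4
  exact one_ne_zero (α := Kb) (by linear_combination 3 * three_Kb - eq_zero_of_pow_eq_zero h4)

theorem nbq (j : ℕ) (y₁ y₂ y₃ : HRing (stdEven T) (q.Q ⊗ q.Q)) :
    HRing.map (E := stdEven T) (th₃ q.u) (D.ev 2 (Bt t j)) ≠
      HRing.map (descM (w₁ q.Q) (w₂ q.Q)) y₁ + HRing.map (descM (w₀ q.Q) (w₂ q.Q)) y₂ +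
        HRing.map (descM (w₀ q.Q) (w₁ q.Q)) y₃ := by
  intro h
  obtain ⟨χ₀, h₀⟩ := q.exists_chi hH three_Kb
  obtain ⟨τ, _, hτ⟩ := q.exists_tau hD q.odd (𝟙 q.Q)
  have hK₁ := odd_tensor hD q.odd (q.u ≫ 𝟙 q.Q)
  have hK₂ := odd_tensor hD hK₁ (q.u ≫ τ)
  obtain ⟨σ, _, hσ⟩ := q.exists_tau hD hK₁ τ
  obtain ⟨M, hM⟩ := chi_congr hD (q.u ≫ 𝟙 q.Q) χ₀ (HRing.map (descM (inlM q.Q D.R) τ) y₂)
  refine nb_alg j M
    (fun g => chi hD (q.u ≫ 𝟙 q.Q) χ₀ g (HRing.map (descM (inlM q.Q D.R) τ) y₁))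
    (fun g => chi hD (q.u ≫ 𝟙 q.Q) χ₀ g (HRing.map (descM (inlM q.Q D.R) τ) y₃)) _ hM
    fun f g hf hg => ?_
  obtain ⟨f1, f2⟩ := q.step hD (𝟙 q.Q) hτ h₀ hf
  obtain ⟨g1, g2⟩ := q.step hD τ hσ f2 hg
  let χ := chi hD (q.u ≫ τ) (chi hD (q.u ≫ 𝟙 q.Q) χ₀ f) g
  let a₀ : q.Q ⟶ (q.Q ⊗ D.R) ⊗ D.R := inlM _ _ ≫ inlM _ _
  let a₁ : q.Q ⟶ (q.Q ⊗ D.R) ⊗ D.R := τ ≫ inlM _ _
  have e₀ : ((q.u ≫ 𝟙 q.Q) ≫ inlM q.Q D.R) ≫ inlM _ D.R = q.u ≫ a₀ := by simp [a₀]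
  have e₁ : (q.u ≫ τ) ≫ inlM _ D.R = q.u ≫ a₁ := Category.assoc _ _ _
  have s₁ : InvSeries.map χ (ser (q.u ≫ a₀) (q.u ≫ a₁)) = f := by
    rw [← ser_congr e₀ e₁, ser_comp, InvSeries.map_map, chi_inl, f1]
  have s₂ : InvSeries.map χ (ser (q.u ≫ a₁) (q.u ≫ σ)) = g := by
    rw [← ser_congr e₁ rfl, g1]
  have s₃ : InvSeries.map χ (ser (q.u ≫ a₀) (q.u ≫ σ)) = g * f := by
    rw [← ser_trans _ (q.u ≫ a₁), map_mul, s₁, s₂]
  have l₀ : (lawOf (q.u ≫ a₀)).map χ = P251.F.addLaw Kb := by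
    rw [← lawOf_congr e₀, lawOf_comp, lawOf_comp, Law.map_map, chi_inl, Law.map_map, chi_inl, h₀]
  have l₁ : (lawOf (q.u ≫ a₁)).map χ = P251.F.addLaw Kb := by
    rw [← lawOf_congr e₁, lawOf_comp, Law.map_map, chi_inl, f2]
  let Λ : q.Q ⊗ (q.Q ⊗ q.Q) ⟶ (q.Q ⊗ D.R) ⊗ D.R := descM a₀ (descM a₁ σ)
  have v₀ : w₀ q.Q ≫ Λ = a₀ := inlM_descM _ _
  have v₁ : w₁ q.Q ≫ Λ = a₁ := by rw [Category.assoc, inrM_descM, inlM_descM]
  have v₂ : w₂ q.Q ≫ Λ = σ := by rw [Category.assoc, inrM_descM, inrM_descM]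
  have hΛ : th₃ q.u ≫ Λ = Am.lift ![q.u ≫ a₀, q.u ≫ a₁, q.u ≫ σ] := Am.hom_ext fun i => by
    rw [Am.v_lift_assoc, Am.v_lift]
    fin_cases i
    · exact (Category.assoc _ _ _).trans (congrArg _ v₀)
    · exact (Category.assoc _ _ _).trans (congrArg _ v₁)
    · exact (Category.assoc _ _ _).trans (congrArg _ v₂)
  have h1 := congrArg (fun x => χ (HRing.map Λ x)) h
  simp only [map_add, ← RingHom.comp_apply (HRing.map Λ), ← HRing.map_comp] at h1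
  rw [HRing_map_congr' hΛ, HRing_map_congr' ((descM_comp _ _ Λ).trans (descM_congr v₁ v₂)),
    HRing_map_congr' ((descM_comp _ _ Λ).trans (descM_congr v₀ v₂)),
    HRing_map_congr' ((descM_comp _ _ Λ).trans (descM_congr v₀ v₁)),
    q.eval hD hτ h₀ hK₂ _ _ χ l₁, q.eval hD hτ h₀ hK₂ _ _ χ l₀, q.eval hD hτ h₀ hK₂ _ _ χ l₀,
    s₁, s₂, s₃] at h1
  have t₁ := val_t1 ht _ _ χ (s₁ ▸ hf.one)
  have t₂ := val_t1 ht _ _ χ (s₂ ▸ hg.one)
  rw [s₁] at t₁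
  rw [s₂] at t₂
  rw [← h1, ← t₁, ← t₂, Bt, bval]
  simp only [map_add, map_mul, map_pow, e01, e12, lift_ev_map]
  rfl

end QD

end Vale.Agent.P236K
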