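import Vale.Agent.P236K.St
import Vale.Agent.P236Z.Tr.Defs
import Vale.Agent.P251.I.Spaces

/-!
# P236: the final statement and the interface between the construction and the statement

* `FULL`: the final statement;
* `EXF j`: in one model, a class in `π_{4 * 3 ^ (j + 1) - 1} (S / 3)` of Adams filtration `< 2`;
* `EXT j`: in one model, a class in `π_{4 * 3 ^ (j + 1) - 2} S` killed by three, of Adams
  filtration `< 3`;
* `NOT j`: in one model, all classes in `π_{4 * 3 ^ (j + 1) - 2} S` have Adams filtration `≥ 3`.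
-/

open CategoryTheory MonoidalCategory

namespace Vale.Agent.P236K

open Vale.Agent.P251.St Vale.Agent.P251.St.SHCat Vale.Agent.P236Z.St Vale.Agent.P236K.St
open Vale.Agent.P251.I (SpaceFunctor)
open Vale.Agent.P236Z

/-- The final statement. -/
def FULL : Prop := (∃ T : SHCat, Nonempty (Susp T)) ∧ ∀ (T : SHCat) (_ : Susp T),
    (∃ R : RingSp T, IsHF 3 R.unit) ∧
    ∀ R : RingSp T, IsHF 3 R.unit → Nonempty (AdamsTower R.unit) ∧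
      (∃ ξ : Hom (sph T 4) (ten R.obj R.obj), ξ ≠ 0) ∧
      ∀ (A : AdamsTower R.unit) (ξ : Hom (sph T 4) (ten R.obj R.obj)), ξ ≠ 0 →
        (∀ η : Hom (sph T 4) (ten R.obj R.obj), η = 0 ∨ η = ξ ∨ η = -ξ) ∧
        (∀ j : ℕ, ∃ b, ∀ b', IsB A ξ j b' ↔ b' = b ∨ b' = -b) ∧
        K A ξ = {0, 2, 3} ∧
        ∀ j ∈ K A ξ, ∀ b, IsB A ξ j b → ∃ θ, addOrderOf θ = 3 ∧ Detects A b θ

/-- In one model there is a class on the Moore spectrum which is detected by `h_{j+1}`. -/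
def EXF (j : ℕ) : Prop :=
  ∃ (T : SHCat) (_ : SpaceFunctor T.C) (H : T.C) (η : 𝟙_ T.C ⟶ H) (M : T.C) (i : 𝟙_ T.C ⟶ M)
    (δ : M ⟶ (𝟙_ T.C)⟦(1 : ℤ)⟧) (f : (𝟙_ T.C)⟦(4 * 3 ^ (j + 1) - 1 : ℤ)⟧ ⟶ M),
    Tr.IsHF 3 η ∧ P251.H.Dist ((3 : ℤ) • 𝟙 (𝟙_ T.C)) i δ ∧ ¬ Tr.AF η 2 f

/-- In one model there is a class of order three which is detected by `b_j`. -/
def EXT (j : ℕ) : Prop :=
  ∃ (T : SHCat) (_ : SpaceFunctor T.C) (H : T.C) (η : 𝟙_ T.C ⟶ H)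
    (θ : (𝟙_ T.C)⟦(4 * 3 ^ (j + 1) - 2 : ℤ)⟧ ⟶ 𝟙_ T.C),
    Tr.IsHF 3 η ∧ (3 : ℤ) • θ = 0 ∧ ¬ Tr.AF η 3 θ

/-- In one model no class is detected by `b_j`. -/
def NOT (j : ℕ) : Prop :=
  ∃ (T : SHCat) (_ : SpaceFunctor T.C) (H : T.C) (η : 𝟙_ T.C ⟶ H), Tr.IsHF 3 η ∧
    ∀ θ : (𝟙_ T.C)⟦(4 * 3 ^ (j + 1) - 2 : ℤ)⟧ ⟶ 𝟙_ T.C, Tr.AF η 3 θ

/-- (helper94) from the Moore spectrum to the sphere -/
def StMoore : Prop := ∀ j, EXF j → EXT j

/-- (helper94) the final statement from the existence and nonexistence statements -/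
def StFull : Prop := EXT 0 → NOT 1 → EXT 2 → EXT 3 → FULL

end Vale.Agent.P236K
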