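import Vale.Agent.P251.St.Chrom
import Vale.Agent.P236Z.Top.St

/-!
# P236, statement layer: the classes `b_j` in the mod three Adams spectral sequence

`R` is a commutative ring spectrum with underlying spectrum `H` (the mod three Eilenberg-Mac Lane
spectrum), `π_* (H ∧ H)` is the dual Steenrod algebra, `π_* (H ∧ H ∧ H)` its tensor square.
-/

open CategoryTheory MonoidalCategory

namespace Vale.Agent.P236K.St

open Vale.Agent.P251.St Vale.Agent.P251.St.SHCat Vale.Agent.P236Z.St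

variable {T : SHCat}

/-- the associativity `A ⊗ (B ⊗ D) ⟶ (A ⊗ B) ⊗ D` -/
abbrev assocInv (A B D : T.C) : Hom (ten A (ten B D)) (ten (ten A B) D) := (α_ A B D).inv

/-- the suspension `A ∧ S¹` -/
abbrev sig (A : T.C) : T.C := ten A (sus T.one)

/-- the suspension `f ∧ S¹` of a morphism -/
abbrev sigHom {A B : T.C} (f : Hom A B) : Hom (sig A) (sig B) := tenHom f (ident (sus T.one))

/-- the third smash power -/
abbrev cube (V : T.C) : T.C := ten V (ten V V)

/-- the sphere of dimension `4 * 3 ^ j`, as the smash product of `3 ^ j` copies of `S⁴` -/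
def sphPow (T : SHCat) : ℕ → T.C
  | 0 => sph T 4
  | j + 1 => cube (sphPow T j)

variable (R : RingSp T)

/-- the product `x y` in the dual Steenrod algebra `π_* (H ∧ H)` -/
def prod {V W : T.C} (x : Hom V (ten R.obj R.obj)) (y : Hom W (ten R.obj R.obj)) :
    Hom (ten V W) (ten R.obj R.obj) :=
  comp (tenHom x y) (comp (exch R.obj R.obj R.obj R.obj) (tenHom R.mul R.mul))

/-- the symbol `[x | y]` in `π_* (H ∧ H ∧ H)`: multiply the two middle factors of
`x ∧ y : V ∧ W ⟶ H ∧ H ∧ H ∧ H` -/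
def bar {V W : T.C} (x : Hom V (ten R.obj R.obj)) (y : Hom W (ten R.obj R.obj)) :
    Hom (ten V W) (ten R.obj (ten R.obj R.obj)) :=
  comp (tenHom x y) (comp (assoc R.obj R.obj (ten R.obj R.obj))
    (tenHom (ident R.obj) (comp (assocInv R.obj R.obj R.obj) (tenHom R.mul (ident R.obj)))))

/-- the power `ξ ^ (3 ^ j)` of `ξ ∈ π_4 (H ∧ H)` -/
def xiPow (ξ : Hom (sph T 4) (ten R.obj R.obj)) : ∀ j : ℕ, Hom (sphPow T j) (ten R.obj R.obj)
  | 0 => ξ
  | j + 1 => prod R (xiPow ξ j) (prod R (xiPow ξ j) (xiPow ξ j))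

/-- the cochain `[x | x ^ 2] + [x ^ 2 | x]` -/
def bCochain {V : T.C} (x : Hom V (ten R.obj R.obj)) :
    Hom (cube V) (ten R.obj (ten R.obj R.obj)) :=
  bar R x (prod R x x) + comp (assocInv V V V) (bar R (prod R x x) x)

variable {R} (A : AdamsTower R.unit)

/-- `H ∧ d_s : H ∧ H ∧ X s ⟶ H ∧ X (s + 1) ∧ S¹`, `d_s` the connecting map of the tower -/
def conn (s : ℕ) : Hom (ten R.obj (ten R.obj (A.X s))) (sig (ten R.obj (A.X (s + 1)))) :=
  comp (tenHom (ident R.obj) (comp (A.d s) (T.tensor.e (A.X (s + 1))).inv))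
    (assocInv R.obj (A.X (s + 1)) (sus T.one))

/-- the projection `H ∧ H ∧ H ⟶ H ∧ X 2 ∧ S¹ ∧ S¹` from the cobar complex to the `E_1`-term -/
def proj : Hom (ten R.obj (ten R.obj R.obj)) (sig (sig (ten R.obj (A.X 2)))) :=
  comp (tenHom (ident R.obj) (tenHom (ident R.obj)
      (comp (ρ_ R.obj).inv (tenHom (ident R.obj) A.base.inv))))
    (comp (tenHom (ident R.obj) (conn A 0))
      (comp (assocInv R.obj (ten R.obj (A.X 1)) (sus T.one)) (sigHom (conn A 1))))

/-- the stem `4 * 3 ^ (j + 1) - 2` -/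
abbrev stem (j : ℕ) : ℤ := 4 * 3 ^ (j + 1) - 2

/-- `b ∈ E_1^{2, 4 * 3 ^ (j + 1)} = π_{4 * 3 ^ (j + 1) - 2} (H ∧ X 2)` is the image of the cochain
`[ξ ^ (3 ^ j) | ξ ^ (2 * 3 ^ j)] + [ξ ^ (2 * 3 ^ j) | ξ ^ (3 ^ j)]`, for an identification `u` of
the two spheres of dimension `4 * 3 ^ (j + 1)`. -/
def IsB (ξ : Hom (sph T 4) (ten R.obj R.obj)) (j : ℕ)
    (b : Hom (sph T (stem j)) (ten R.obj (A.X 2))) : Prop :=
  ∃ u : sig (sig (sph T (stem j))) ≅ cube (sphPow T j),
    comp u.hom (comp (bCochain R (xiPow R ξ j)) (proj A)) = sigHom (sigHom b)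

/-- the set of all `j` such that `b_j` survives nontrivially to `E_∞` -/
def K (ξ : Hom (sph T 4) (ten R.obj R.obj)) : Set ℕ :=
  {j | ∃ b, IsB A ξ j b ∧ A.IsPermCycle 2 b ∧ ¬ A.IsBoundary 2 b}

/-- `θ ∈ π_n S` is detected by `b ∈ E_1^{2, n + 2}`: it has Adams filtration two, and its image in
`E_∞^{2, n + 2}` is the class of `c b`, `c` not divisible by three. -/
def Detects {n : ℤ} (b : Hom (sph T n) (ten R.obj (A.X 2))) (θ : Hom (sph T n) T.one) : Prop :=
  ¬ A.FiltGe 3 θ ∧ ∃ (w : Hom (sph T n) (A.X 2)) (c : ℤ), comp w (A.toSphere 2) = θ ∧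
    ¬ (3 : ℤ) ∣ c ∧ A.IsBoundary 2 (comp w (hur R.unit (A.X 2)) - zmul c b)

end Vale.Agent.P236K.St
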