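import Vale.Agent.P236K.Xi
import Vale.Agent.P236K.Sk
import Vale.Agent.P236Z.Cv.Fin

/-!
# P236, block S: the first stages of the Adams tower, the kernel of the projection
-/

open CategoryTheory MonoidalCategory MonObj Limits Pretriangulated

set_option linter.unusedSectionVars false

namespace Vale.Agent.P236K

open Vale.Agent.P251 Vale.Agent.P251.S Vale.Agent.P251.T Vale.Agent.P251.M Vale.Agent.P251.F
  Vale.Agent.P251.I Vale.Agent.P251.H EvenSpheres Vale.Agent.P257 Vale.Agent.P257.H80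
  Vale.Agent.P236Z Vale.Agent.P236Z.Det Vale.Agent.P251.Z
open Vale.Agent.P251.St (SHCat RingSp)
open Vale.Agent.P236Z.St (AdamsTower)

variable {T : SHCat}

/-- the circle -/
abbrev S1 (T : SHCat) : T.C := (𝟙_ T.C)⟦(1 : ℤ)⟧

theorem sig_eq {A B : T.C} (f : A ⟶ B) :
    f ▷ S1 T = (T.tensor.e A).hom ≫ f⟦(1 : ℤ)⟧' ≫ (T.tensor.e B).inv := by
  rw [← Category.assoc, ← T.tensor.e_naturality, Category.assoc, Iso.hom_inv_id, Category.comp_id]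

theorem sig_inj {A B : T.C} {f g : A ⟶ B} (h : f ▷ S1 T = g ▷ S1 T) : f = g := by
  rw [sig_eq, sig_eq, cancel_epi, cancel_mono] at h
  exact (shiftFunctor T.C (1 : ℤ)).map_injective h

theorem sig_surj {A B : T.C} (g : A ⊗ S1 T ⟶ B ⊗ S1 T) : ∃ f : A ⟶ B, f ▷ S1 T = g := by
  obtain ⟨f, hf⟩ := (shiftFunctor T.C (1 : ℤ)).map_surjective
    ((T.tensor.e A).inv ≫ g ≫ (T.tensor.e B).hom)
  exact ⟨f, by rw [sig_eq, hf]; simp⟩

/-- the suspension of the inner circle -/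
noncomputable def th1 (X : T.C) : (X ⊗ S1 T) ⊗ S1 T ≅ (X ⊗ S1 T)⟦(1 : ℤ)⟧ :=
  whiskerRightIso (T.tensor.e X) (S1 T) ≪≫ ((tensorRight (S1 T)).commShiftIso (1 : ℤ)).app X

@[reassoc]
theorem th1_nat {X Y : T.C} (f : X ⟶ Y) :
    f ▷ S1 T ▷ S1 T ≫ (th1 Y).hom = (th1 X).hom ≫ (f ▷ S1 T)⟦(1 : ℤ)⟧' := by
  have h := ((tensorRight (S1 T)).commShiftIso (1 : ℤ)).hom.naturality f
  change f⟦(1 : ℤ)⟧' ▷ S1 T ≫ _ = _ ≫ (f ▷ S1 T)⟦(1 : ℤ)⟧' at h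
  change _ ≫ (T.tensor.e Y).hom ▷ S1 T ≫ _ = ((T.tensor.e X).hom ▷ S1 T ≫ _) ≫ _
  rw [← comp_whiskerRight_assoc, T.tensor.e_naturality, comp_whiskerRight_assoc, Category.assoc]
  exact congrArg _ h

/-- the double suspension -/
noncomputable def th2 (X : T.C) : (X ⊗ S1 T) ⊗ S1 T ≅ (X⟦(1 : ℤ)⟧)⟦(1 : ℤ)⟧ :=
  th1 X ≪≫ (shiftFunctor T.C (1 : ℤ)).mapIso (T.tensor.e X)

@[reassoc]
theorem th2_nat {X Y : T.C} (f : X ⟶ Y) :
    f ▷ S1 T ▷ S1 T ≫ (th2 Y).hom = (th2 X).hom ≫ (f⟦(1 : ℤ)⟧')⟦(1 : ℤ)⟧' := by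
  rw [th2, th2, Iso.trans_hom, Iso.trans_hom, th1_nat_assoc, Functor.mapIso_hom,
    Functor.mapIso_hom, Category.assoc, ← Functor.map_comp, ← Functor.map_comp,
    T.tensor.e_naturality]

section Tower

variable {H : T.C} {a : 𝟙_ T.C ⟶ H} (A : AdamsTower a)

/-- the connecting map -/
noncomputable def de (s : ℕ) : H ⊗ A.X s ⟶ A.X (s + 1) ⊗ S1 T := A.d s ≫ (T.tensor.e _).inv

theorem dist_de (s : ℕ) : Dist (Tr.hur a (A.X s)) (de A s)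
    (-(A.g s ▷ S1 T ≫ (T.tensor.e _).hom)) :=
  (Top.tower_dist A s).rot.of_iso₃ (T.tensor.e _).hom (by simp [de])
    (by rw [T.tensor.e_naturality, Preadditive.comp_neg])

theorem dist_de' (s : ℕ) : Dist (Tr.hur a (A.X s ⊗ S1 T)) ((α_ _ _ _).inv ≫ de A s ▷ S1 T)
    (-(A.g s ▷ S1 T ▷ S1 T ≫ (th1 _).hom)) := by
  have h0 : Dist (Tr.hur a (A.X s) ▷ S1 T) (de A s ▷ S1 T)
      ((-(A.g s ▷ S1 T ≫ (T.tensor.e _).hom)) ▷ S1 T ≫
        ((tensorRight (S1 T)).commShiftIso (1 : ℤ)).hom.app (A.X s)) :=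
    dist_whiskerRight (S1 T) (dist_de A s)
  have h := Tr.dist_iso h0 (Iso.refl _) (α_ _ _ _).symm
    (Iso.refl _) (f' := Tr.hur a (A.X s ⊗ S1 T)) (g' := (α_ _ _ _).inv ≫ de A s ▷ S1 T)
    (by simp [Tr.hur_tensor]) (by simp)
  have h1 : (-(A.g s ▷ S1 T ≫ (T.tensor.e _).hom)) ▷ S1 T =
      -((A.g s ▷ S1 T ≫ (T.tensor.e _).hom) ▷ S1 T) := (tensorRight (S1 T)).map_neg
  rw [h1] at h
  simpa [th1] using h

theorem de_hur (s : ℕ) : de A s ≫ Tr.hur a (A.X (s + 1)) ▷ S1 T =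
    Tr.hur a _ ≫ H ◁ de A s ≫ (α_ _ _ _).inv := by
  rw [← Tr.hur_naturality_assoc, Tr.hur_tensor, Category.assoc, Iso.hom_inv_id, Category.comp_id]

/-- A map which dies in the sphere comes from the previous stage. -/
theorem exists_de {V : T.C} (hV : ∀ z : V ⊗ S1 T ⟶ H, z = 0) (y : V ⟶ A.X 2)
    (hy : y ≫ A.toSphere 2 = 0) : ∃ z : V ⊗ S1 T ⟶ H ⊗ A.X 1, z ≫ de A 1 = y ▷ S1 T := by
  have h1 : (y ≫ A.g 1) ≫ A.g 0 = 0 := by
    rw [← cancel_mono A.base.hom, zero_comp, Category.assoc, Category.assoc]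
    exact hy
  obtain ⟨z, hz⟩ := (dist_de A 0).lift₃ ((y ≫ A.g 1) ▷ S1 T) (by
    rw [Preadditive.comp_neg, ← comp_whiskerRight_assoc, h1,
      MonoidalPreadditive.zero_whiskerRight, zero_comp, neg_zero])
  have h2 : z = 0 := by
    rw [← cancel_mono (H ◁ A.base.hom ≫ (ρ_ H).hom), hV (z ≫ _), zero_comp]
  rw [h2, zero_comp] at hz
  exact (dist_de A 1).lift₃ _ (by
    rw [Preadditive.comp_neg, ← comp_whiskerRight_assoc, ← hz, zero_comp, neg_zero])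

/-- The quotient of the sphere by the third stage. -/
theorem exists_quot (h3 : (3 : ℤ) • 𝟙 H = 0) : ∃ (C : T.C) (π : 𝟙_ T.C ⟶ C) (io : H ⊗ A.X 2 ⟶ C)
    (k : ℕ), (3 : ℤ) ^ k • 𝟙 C = 0 ∧ Tr.hur a (A.X 2) ≫ io = A.toSphere 2 ≫ π ∧
    ∀ {V : T.C} (θ : V ⟶ 𝟙_ T.C) (b : V ⟶ H ⊗ A.X 2), θ ≫ π = b ≫ io →
      ∃ w : V ⟶ A.X 2, w ≫ A.toSphere 2 = θ ∧ w ≫ Tr.hur a (A.X 2) = b := by
  obtain ⟨C, π, d, E⟩ := exists_cone (A.toSphere 3)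
  obtain ⟨io, h1, h2⟩ := (Top.tower_dist A 2).map₃ E (𝟙 _) (A.toSphere 2) (Category.id_comp _).symm
  have ht : ∀ s, CofIn (fun X : T.C => ∃ k : ℕ, (3 : ℤ) ^ k • 𝟙 X = 0) (A.g s) := fun s =>
    ⟨_, _, _, Top.tower_dist A s, 1, by rw [pow_one, Cv.three_ten h3]⟩
  obtain ⟨k, hk⟩ := CofIn.of_dist (Dt.extClosed_tors 3) E ((ht 2).comp (Dt.extClosed_tors 3)
    ((ht 1).comp (Dt.extClosed_tors 3) ((ht 0).comp_iso (Dt.extClosed_tors 3) A.base)))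
  refine ⟨C, π, io, k, hk, h1, fun θ b h => ?_⟩
  rw [CategoryTheory.Functor.map_id, Category.comp_id] at h2
  obtain ⟨w, rfl⟩ := (Top.tower_dist A 2).lift₃ b (by
    rw [h2, ← reassoc_of% h, E.zero₂₃, comp_zero])
  obtain ⟨v, hv⟩ := E.lift₂ (θ - w ≫ A.toSphere 2) (by
    rw [Preadditive.sub_comp, h, Category.assoc, Category.assoc, h1, sub_self])
  refine ⟨w + v ≫ A.g 2, ?_, ?_⟩
  · rw [Preadditive.add_comp, Category.assoc, ← eq_sub_iff_add_eq', ← hv]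
    rfl
  · rw [Preadditive.add_comp, Category.assoc, (Top.tower_dist A 2).zero₁₂, comp_zero, add_zero]

end Tower

section Proj

variable {R : RingSp T} (A : AdamsTower R.unit)

/-- the projection to the first stage -/
noncomputable def pr1 : R.obj ⊗ R.obj ⟶ (R.obj ⊗ A.X 1) ⊗ S1 T :=
  R.obj ◁ ((ρ_ R.obj).inv ≫ R.obj ◁ A.base.inv ≫ de A 0) ≫ (α_ _ _ _).inv

theorem proj_eq : St.proj A = R.obj ◁ pr1 A ≫ (α_ _ _ _).inv ≫
    (R.obj ◁ de A 1 ≫ (α_ _ _ _).inv) ▷ S1 T := by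
  simp [St.proj, St.conn, pr1, de]

theorem dist_pr1 : ∃ d, Dist (inlM R.obj R.obj) (pr1 A) d := by
  obtain ⟨d, h⟩ := Tr.dist_tensL (dist_de A 0) R.obj
  let κ : R.obj ≅ R.obj ⊗ A.X 0 := (ρ_ R.obj).symm ≪≫ whiskerLeftIso R.obj A.base.symm
  refine ⟨_, Tr.dist_iso h κ (whiskerLeftIso R.obj κ) (α_ _ _ _) ?_ ?_⟩
  · have h1 : η[R.obj] ≫ (ρ_ R.obj).inv = Tr.hur R.unit (𝟙_ T.C) := by
      rw [Iso.comp_inv_eq, Tr.hur_unit]
    simp only [κ, inlM, Iso.trans_hom, Iso.symm_hom, whiskerLeftIso_hom, Category.assoc,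
      ← MonoidalCategory.whiskerLeft_comp]
    rw [Tr.hur_naturality, reassoc_of% h1]
  · simp [κ, pr1]

theorem pr1_surj {P : T.C} (z : P ⟶ (R.obj ⊗ A.X 1) ⊗ S1 T) : ∃ p, p ≫ pr1 A = z := by
  obtain ⟨d, h⟩ := dist_pr1 A
  have h1 : inlM R.obj R.obj ≫ μ[R.obj] = 𝟙 _ := by simp [inlM]
  obtain ⟨σ, hσ, -⟩ : ∃ σ : (R.obj ⊗ A.X 1) ⊗ S1 T ⟶ R.obj ⊗ R.obj, σ ≫ pr1 A = 𝟙 _ ∧ _ :=
    exists_section_of_retraction _ h μ[R.obj] h1
  exact ⟨z ≫ σ, by rw [Category.assoc, hσ, Category.comp_id]⟩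

theorem inr_eq (X : T.C) : inrM R.obj X = Tr.hur R.unit X := rfl

theorem hur_pr1 : R.obj ◁ inrM R.obj R.obj ≫ R.obj ◁ pr1 A ≫ (α_ _ _ _).inv =
    pr1 A ≫ (R.obj ◁ Tr.hur R.unit (A.X 1)) ▷ S1 T := by
  rw [← MonoidalCategory.whiskerLeft_comp_assoc, pr1, inr_eq, ← Tr.hur_naturality_assoc,
    Tr.hur_tensor]
  simp

/-- The kernel of the projection consists of degenerate cochains. -/
theorem ker_proj {P : T.C} (x : P ⟶ R.obj ⊗ R.obj ⊗ R.obj) (hx : x ≫ St.proj A = 0) :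
    ∃ p q : P ⟶ R.obj ⊗ R.obj, x = p ≫ R.obj ◁ inrM R.obj R.obj + q ≫ R.obj ◁ inlM R.obj R.obj := by
  obtain ⟨d, h⟩ := Tr.dist_tensL (dist_de A 1) R.obj
  obtain ⟨d', h'⟩ := Tr.dist_tensR h (S1 T)
  obtain ⟨z, hz⟩ := h'.lift₂ (x ≫ R.obj ◁ pr1 A ≫ (α_ _ _ _).inv) (by
    rw [proj_eq, comp_whiskerRight] at hx
    rw [← cancel_mono ((α_ _ _ _).inv ▷ S1 T), zero_comp, ← hx]
    simp only [Category.assoc])
  obtain ⟨p, rfl⟩ := pr1_surj A z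
  obtain ⟨d₀, h₀⟩ := dist_pr1 A
  obtain ⟨d₁, h₁⟩ := Tr.dist_tensL h₀ R.obj
  obtain ⟨q, hq⟩ := h₁.lift₂ (x - p ≫ R.obj ◁ inrM R.obj R.obj) (by
    rw [← cancel_mono (α_ _ _ _).inv, zero_comp, Category.assoc, Preadditive.sub_comp, ← hz,
      Category.assoc, Category.assoc, hur_pr1, sub_self])
  exact ⟨p, q, by rw [hq, add_sub_cancel]⟩

/-- A boundary comes from the cobar complex. -/
theorem boundary_proj {V : T.C} (hV : ∀ z : V ⊗ S1 T ⟶ R.obj, z = 0) (y : V ⟶ A.X 2)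
    (hy : y ≫ A.toSphere 2 = 0) : ∃ h : (V ⊗ S1 T) ⊗ S1 T ⟶ R.obj ⊗ R.obj,
    h ≫ inrM R.obj (R.obj ⊗ R.obj) ≫ St.proj A =
      (y ≫ Tr.hur R.unit (A.X 2)) ▷ S1 T ▷ S1 T := by
  obtain ⟨z, hz⟩ := exists_de A hV y hy
  obtain ⟨h, hh⟩ := pr1_surj A (z ▷ S1 T)
  refine ⟨h, ?_⟩
  rw [proj_eq, inr_eq, ← Tr.hur_naturality_assoc, reassoc_of% hh, Tr.hur_tensor, Category.assoc,
    Iso.hom_inv_id_assoc, comp_whiskerRight y, ← hz, Category.assoc, de_hur]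
  simp only [comp_whiskerRight]

end Proj

section Faces

variable {C : Type 1} [Category.{0} C] [MonoidalCategory C] [SymmetricCategory C] (E : C) [MonObj E]
  [IsCommMonObj E]

theorem inrM_tensor' {Y Y' : C} (g : Y ⟶ Y') : inrM E Y ≫ (𝟙 E ⊗ₘ g) = g ≫ inrM E Y' := by
  rw [id_tensorHom, inrM, inrM, Category.assoc, ← whisker_exchange,
    leftUnitor_inv_naturality_assoc]

theorem face₁₂ : descM (inlM E E ≫ inrM E (E ⊗ E)) (inrM E E ≫ inrM E (E ⊗ E)) = inrM E (E ⊗ E) :=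
  (eq_descM _).symm

theorem face₀₂ : descM (inlM E (E ⊗ E)) (inrM E E ≫ inrM E (E ⊗ E)) = E ◁ inrM E E := by
  refine hom_ext_tensor ?_ ?_
  · rw [inlM_descM, inlM, inlM, Category.assoc, ← MonoidalCategory.whiskerLeft_comp,
      IsMonHom.one_hom]
  · rw [inrM_descM, ← id_tensorHom, inrM_tensor']

theorem face₀₁ : descM (inlM E (E ⊗ E)) (inlM E E ≫ inrM E (E ⊗ E)) = E ◁ inlM E E := by
  refine hom_ext_tensor ?_ ?_
  · rw [inlM_descM, inlM, inlM, Category.assoc, ← MonoidalCategory.whiskerLeft_comp]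
    exact congrArg (fun f => _ ≫ E ◁ f) (IsMonHom.one_hom (inlM E E)).symm
  · rw [inrM_descM, inrM, inrM, Category.assoc, ← whisker_exchange,
      leftUnitor_inv_naturality_assoc]

end Faces

end Vale.Agent.P236K
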