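import Vale.Agent.P236K.Cmp

/-!
# P236, block S: the cochain of the statement is the image of the cocycle for `MU`
-/

open CategoryTheory MonoidalCategory MonObj Limits Pretriangulated

set_option linter.unusedSectionVars false

namespace Vale.Agent.P236K

open Vale.Agent.P251 Vale.Agent.P251.S Vale.Agent.P251.T Vale.Agent.P251.M Vale.Agent.P251.F
  Vale.Agent.P251.I Vale.Agent.P251.H EvenSpheres Vale.Agent.P257 Vale.Agent.P257.H80
  Vale.Agent.P236Z Vale.Agent.P236Z.Det Vale.Agent.P251.Z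
open Vale.Agent.P251.St (SHCat RingSp)
open Vale.Agent.P236Z.St (AdamsTower)

open Vale.Agent.P236Z.Dt

variable {T : SHCat}

theorem sgn (F : SpaceFunctor T.C) {Z P : T.C} {k : ℤ} (c : P ≅ (𝟙_ T.C)⟦k⟧) (α β : Z ≅ P) :
    α.hom = β.hom ∨ α.hom = -β.hom := by
  have key : ∀ α β : Z ≅ P, ∃ m : ℤ, α.hom = m • β.hom := fun α β => by
    obtain ⟨g, hg⟩ := (shiftFunctor T.C k).map_surjective (c.inv ≫ β.inv ≫ α.hom ≫ c.hom)
    obtain ⟨m, rfl⟩ := exists_int_unit F g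
    rw [Functor.map_zsmul, CategoryTheory.Functor.map_id, Iso.eq_inv_comp, Iso.eq_inv_comp] at hg
    exact ⟨m, by rw [← cancel_mono c.hom, ← hg]; simp⟩
  obtain ⟨m, hm⟩ := key α β
  obtain ⟨n, hn⟩ := key β α
  have h : m * n - 1 = 0 := eq_zero_of_zsmul_id F _ ((shiftFunctor T.C k).map_injective (by
    rw [← cancel_epi (α.hom ≫ c.hom), Functor.map_zsmul, CategoryTheory.Functor.map_id,
      Functor.map_zero, Preadditive.comp_zsmul, Category.comp_id, comp_zero,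
      ← Preadditive.zsmul_comp, sub_smul, mul_smul, ← hn, ← hm, one_smul, sub_self, zero_comp]))
  rcases Int.eq_one_or_neg_one_of_mul_eq_one (sub_eq_zero.1 h) with rfl | rfl
  · exact Or.inl (by rw [hm, one_smul])
  · exact Or.inr (by rw [hm, neg_smul, one_smul])

/-- the third power of an even sphere -/
noncomputable def cubeIso {V : T.C} {w p : ℤ} (h : w + (w + w) = p) (v : (stdEven T.C).S w ≅ V) :
    (stdEven T.C).S p ≅ V ⊗ V ⊗ V :=
  ((stdEven T.C).mu w (w + w) p h).symm ≪≫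
    tensorIso v (((stdEven T.C).mu w w (w + w) rfl).symm ≪≫ tensorIso v v)

theorem of_cube {V K : T.C} [MonObj K] {w p : ℤ} (h : w + (w + w) = p) (v : (stdEven T.C).S w ≅ V)
    (a b c : V ⟶ K) :
    HRing.of (stdEven T.C) K p ((cubeIso h v).hom ≫ (a ⊗ₘ ((b ⊗ₘ c) ≫ μ[K])) ≫ μ[K]) =
      HRing.of _ K w (v.hom ≫ a) * (HRing.of _ K w (v.hom ≫ b) * HRing.of _ K w (v.hom ≫ c)) := by
  rw [of_mul_of rfl, of_mul_of h]
  congr 1
  simp [cubeIso, gmul, EvenSpheres.ext, tensorHom_comp_tensorHom_assoc]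

variable (R : RingSp T)

theorem prod_eq {V W : T.C} (x : V ⟶ R.obj ⊗ R.obj) (y : W ⟶ R.obj ⊗ R.obj) :
    St.prod R x y = (x ⊗ₘ y) ≫ μ[R.obj ⊗ R.obj] := rfl

theorem bar_eq {V W : T.C} (x : V ⟶ R.obj ⊗ R.obj) (y : W ⟶ R.obj ⊗ R.obj) :
    St.bar R x y = ((x ≫ R.obj ◁ inlM R.obj R.obj) ⊗ₘ (y ≫ inrM R.obj (R.obj ⊗ R.obj))) ≫
      μ[R.obj ⊗ R.obj ⊗ R.obj] := by
  have h : (α_ R.obj R.obj (R.obj ⊗ R.obj)).hom ≫
      R.obj ◁ ((α_ R.obj R.obj R.obj).inv ≫ μ[R.obj] ▷ R.obj) =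
        descM (R.obj ◁ inlM R.obj R.obj) (inrM R.obj (R.obj ⊗ R.obj)) := by
    refine hom_ext_tensor ?_ ?_
    · rw [inlM_descM, inlM_associator_assoc, ← MonoidalCategory.whiskerLeft_comp,
        inlM_associator_inv_assoc, inlM_whiskerRight, inlM_mul_assoc]
    · rw [inrM_descM, inrM_associator_assoc, ← id_tensorHom, inrM_tensor',
        Category.assoc, inrM_associator_inv_assoc, ← comp_whiskerRight_assoc, inrM_mul,
        id_whiskerRight, Category.id_comp]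
  rw [← tensorHom_comp_tensorHom, Category.assoc, ← descM, ← h]
  simp [St.bar]

theorem bCochain_eq {V : T.C} (x : V ⟶ R.obj ⊗ R.obj) : St.bCochain R x =
    ((x ≫ R.obj ◁ inlM R.obj R.obj) ⊗ₘ (((x ≫ inrM R.obj (R.obj ⊗ R.obj)) ⊗ₘ
      (x ≫ inrM R.obj (R.obj ⊗ R.obj))) ≫ μ)) ≫ μ +
    ((x ≫ R.obj ◁ inlM R.obj R.obj) ⊗ₘ (((x ≫ R.obj ◁ inlM R.obj R.obj) ⊗ₘ
      (x ≫ inrM R.obj (R.obj ⊗ R.obj))) ≫ μ)) ≫ μ := by
  rw [St.bCochain, bar_eq, bar_eq, prod_eq, Category.assoc, Category.assoc, IsMonHom.mul_hom,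
    IsMonHom.mul_hom, tensorHom_comp_tensorHom_assoc, tensorHom_comp_tensorHom_assoc]
  congr 1
  generalize x ≫ R.obj ◁ inlM R.obj R.obj = a
  generalize x ≫ inrM R.obj (R.obj ⊗ R.obj) = b
  change (α_ V V V).inv ≫ _ = _
  rw [Iso.inv_comp_eq, ← Category.comp_id b, ← tensorHom_comp_tensorHom, Category.assoc,
    tensorHom_id, MonObj.mul_assoc, associator_naturality_assoc, Category.comp_id,
    ← id_tensorHom, tensorHom_comp_tensorHom_assoc, Category.comp_id]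

theorem of_xiPow (v : (stdEven T.C).S 2 ≅ (𝟙_ T.C)⟦(4 : ℤ)⟧)
    (ξ : (𝟙_ T.C)⟦(4 : ℤ)⟧ ⟶ R.obj ⊗ R.obj) (j : ℕ) :
    ∃ c : (stdEven T.C).S (2 * 3 ^ j) ≅ St.sphPow T j,
      HRing.of _ _ _ (c.hom ≫ St.xiPow R ξ j) = HRing.of _ _ _ (v.hom ≫ ξ) ^ 3 ^ j := by
  induction j with
  | zero => exact ⟨v, (pow_one _).symm⟩
  | succ j ih =>
    obtain ⟨c, hc⟩ := ih
    refine ⟨cubeIso (by ring) c, (of_cube _ c _ _ _).trans ?_⟩
    rw [hc]
    ring

variable {R} {D : MUData T.C} (u : D.R ⟶ R.obj) [IsMonHom u] {t : Cob Laz 1} (ht : IsT1 3 t)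

/-- The cochain of the statement. -/
theorem val_b (v : (stdEven T.C).S 2 ≅ (𝟙_ T.C)⟦(4 : ℤ)⟧) (ξ : (𝟙_ T.C)⟦(4 : ℤ)⟧ ⟶ R.obj ⊗ R.obj)
    {s : ℤ} (hs : s = 1 ∨ s = -1) (hξ : v.hom ≫ ξ = s • (D.evw 1 2 ⟨t, isWt_t1 ht⟩ ≫ th₂ u))
    (j : ℕ) : ∃ κ : (stdEven T.C).S (w0 j) ≅ St.cube (St.sphPow T j),
      κ.hom ≫ St.bCochain R (St.xiPow R ξ j) =
        s • (D.evw 2 (w0 j) ⟨Bt t j, isWt_Bt ht j⟩ ≫ th₃ u) := by
  obtain ⟨c, hc⟩ := of_xiPow R v ξ j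
  have hz : ∀ {K : T.C} [MonObj K] {w : ℤ} (a : (stdEven T.C).S w ⟶ K),
      HRing.of _ K w (s • a) = s * HRing.of _ K w a := fun {K} _ {w} a => by
    rw [← zsmul_eq_mul]
    exact map_zsmul (DirectSum.of ((stdEven T.C).Gr K) w) s _
  rw [hξ, hz, ← HRing.map_of (th₂ u), D.of_evw] at hc
  have h1 : HRing.map (R.obj ◁ inlM R.obj R.obj) (HRing.map (th₂ u) (D.ev 1 t)) =
      HRing.map (E := stdEven T.C) (th₃ u) (D.ev 2 (e01 t)) := by
    rw [e01, lift_ev_map, ← RingHom.comp_apply, ← HRing.map_comp]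
    refine RingHom.congr_fun (HRing_map_congr' ?_) _
    rw [pairM_comp, ← face₀₁, Category.assoc, Category.assoc, inlM_descM, inrM_descM]
    rfl
  have h2 : HRing.map (inrM R.obj (R.obj ⊗ R.obj)) (HRing.map (th₂ u) (D.ev 1 t)) =
      HRing.map (E := stdEven T.C) (th₃ u) (D.ev 2 (e12 t)) := by
    rw [e12, lift_ev_map, ← RingHom.comp_apply, ← HRing.map_comp]
    refine RingHom.congr_fun (HRing_map_congr' ?_) _
    rw [pairM_comp, Category.assoc, Category.assoc]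
    rfl
  have hw : 2 * 3 ^ j + (2 * 3 ^ j + 2 * 3 ^ j) = w0 j := by rw [w0]; ring
  refine ⟨cubeIso hw c, of_injective ?_⟩
  rw [bCochain_eq, Preadditive.comp_add, hz, ← HRing.map_of, D.of_evw]
  refine ((DirectSum.of ((stdEven T.C).Gr _) (w0 j)).map_add _ _).trans
    ((congrArg₂ (· + ·) (of_cube hw c _ _ _) (of_cube hw c _ _ _)).trans ?_)
  rw [← Category.assoc, ← Category.assoc c.hom, ← HRing.map_of (R.obj ◁ inlM R.obj R.obj),
    ← HRing.map_of (inrM R.obj (R.obj ⊗ R.obj)), hc]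
  simp only [Bt, map_add, map_mul, map_pow, map_intCast, h1, h2, mul_pow]
  have ho : Odd (3 ^ j) := Odd.pow (by decide)
  rcases hs with rfl | rfl
  · simp
  · simp only [Int.cast_neg, Int.cast_one, ho.neg_one_pow]
    ring

end Vale.Agent.P236K
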