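import Vale.Agent.P236K.NBH

/-!
# P236, block S: `π_4 (H ⊗ H)` is generated by `ξ_1`
-/

open CategoryTheory MonoidalCategory MonObj Limits Pretriangulated

set_option linter.unusedSectionVars false

universe u

namespace Vale.Agent.P236K

open Vale.Agent.P251 Vale.Agent.P251.S Vale.Agent.P251.T Vale.Agent.P251.M Vale.Agent.P251.F
  Vale.Agent.P251.I Vale.Agent.P251.H EvenSpheres Vale.Agent.P257 Vale.Agent.P257.H80
  Vale.Agent.P236Z Vale.Agent.P236Z.Det Vale.Agent.P251.Z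

variable {T : Type u} [Category.{0} T] [Preadditive T] [HasZeroObject T]
    [HasShift T ℤ] [∀ n : ℤ, (shiftFunctor T n).Additive] [Pretriangulated T] [IsTriangulated T]
    [MonoidalCategory T] [SymmetricCategory T] [TensorTriangulated T] [MonoidalClosed T]
    [HasCoproducts.{0} T] [HasProducts.{0} T] [StableCat T]
  {F : SpaceFunctor T} {e : F.S.obj CCF ≅ (stdEven T).L} {D : MUData T}

theorem exists_PD_cone (D : MUData T) :
    ∃ (P : X.PD D 3 1) (d : P.P ⟶ D.R⟦(1 : ℤ)⟧), Dist ((3 : ℤ) • 𝟙 D.R) P.u d := by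
  have hp : (3 : ℕ) ≠ 2 := by norm_num
  obtain ⟨M, iM, δM, hM⟩ := distinguished_cocone_triangle (((3 : ℕ) : ℤ) • 𝟙 (𝟙_ T))
  obtain ⟨o⟩ := X.QIn.quot (X.baseQIn D.R hM) (X.baseQIn_van D.R (by decide) hM
    (X.odd_base D hp hM))
  let _ := o.mon
  have _ := o.comm
  have h1 : IsMonHom (X.iB D iM) := o.hom
  refine ⟨{ P := D.R ⊗ M
            u := X.iB D iM
            odd := X.odd_base D hp hM
            surj := X.surj_lift_base D hp hM
            ker := X.ker_lift_base D hp hM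
            desc := ?_
            uniq := ?_ }, _, Dt.dist_red hM D.R⟩
  · intro N _ _ g _ hN hg
    have h2 := (X.vv_zero_lawOf_iff g).1 (hg 0 zero_lt_one)
    have h3 : (X.baseQIn D.R hM).v ≫ g = 0 := by
      change (((3 : ℕ) : ℤ) • η[D.R]) ≫ g = 0
      rw [Preadditive.zsmul_comp, IsMonHom.one_hom, h2]
    exact o.desc N g h3 (fun f => hN.h1 0 f) fun f hf => X.eq_zero_of_two hp h2 f hf
  · intro N _ f f' hf hf' hN h
    exact o.uniq N f f' hf hf' h (fun f => hN.h1 0 f)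

theorem two_c_one {B : Type*} [CommRing B] (G : Law B) {f : InvSeries B} (hf : f.c 0 = 1)
    (h : f • G = G) : 2 * f.c 1 = 0 := by
  have h0 := congrArg (PowerSeries.coeff 2) (smul_multSeries f G 2)
  have h1 : PowerSeries.coeff 1 f.val = 1 := hf
  rw [h, coeff2_subst (constantCoeff_multSeries _ _), coeff2_subst f.cc,
    coeff_one_multSeries, h1] at h0
  change 2 * PowerSeries.coeff 2 f.val = 0
  push_cast at h0
  linear_combination h0

/-- The lowest homotopy group of a ring with given generators. -/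
theorem low_two {K : T} [MonObj K] [IsCommMonObj K] {A : Type} [CommRing A]
    (hA : Function.Surjective (Int.castRingHom A))
    (φ : MvPolynomial ℕ A →+* HRing (stdEven T) K) (h0 : φ (MvPolynomial.X 0) = 0)
    (hφ : ∀ k : ℕ, IsHomog K ((k + 1 : ℕ) : ℤ) (φ (MvPolynomial.X k)))
    (a : (stdEven T).S 2 ⟶ K) (x : MvPolynomial ℕ A) (hx : φ x = HRing.of (stdEven T) K 2 a) :
    ∃ n : ℤ, φ x = n * φ (MvPolynomial.X 1) := by
  let S : AddSubgroup (HRing (stdEven T) K) :=
    AddSubgroup.closure {x | ∃ w, 3 ≤ w ∧ IsHomog K w x}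
  have h1 : ∀ x ∈ S, x 2 = 0 := fun x hx => by
    induction hx using AddSubgroup.closure_induction with
    | mem x hx =>
      obtain ⟨v, hv, a, rfl⟩ := hx
      exact DirectSum.of_eq_of_ne (β := (stdEven T).Gr K) v 2 a (by omega)
    | zero => rfl
    | add x y _ _ hx hy => rw [DirectSum.add_apply, hx, hy, add_zero]
    | neg x _ hx => rw [DFinsupp.neg_apply, hx, neg_zero]
  have h2 : ∀ x ∈ S, ∀ v y, 0 ≤ v → IsHomog K v y → x * y ∈ S := fun x hx v y hv hy => by
    induction hx using AddSubgroup.closure_induction with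
    | mem x hx =>
      obtain ⟨w, hw, hx⟩ := hx
      exact AddSubgroup.subset_closure ⟨w + v, by omega, hx.mul hy rfl⟩
    | zero => rw [zero_mul]; exact zero_mem _
    | add x y _ _ hx hy => rw [add_mul]; exact add_mem hx hy
    | neg x _ hx => rw [neg_mul]; exact neg_mem hx
  have h3 : ∀ q, ∃ m n : ℤ, φ q - m - n * φ (MvPolynomial.X 1) ∈ S := fun q => by
    induction q using MvPolynomial.induction_on with
    | C a =>
      obtain ⟨m, rfl⟩ := hA a
      exact ⟨m, 0, by simp⟩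
    | add p q hp hq =>
      obtain ⟨m, n, hm⟩ := hp
      obtain ⟨m', n', hn⟩ := hq
      refine ⟨m + m', n + n', ?_⟩
      convert add_mem hm hn using 1
      push_cast
      rw [map_add]
      ring
    | mul_X p k hp =>
      obtain ⟨m, n, hm⟩ := hp
      have h4 := h2 _ hm _ _ (by omega) (hφ k)
      rcases k with _ | k
      · exact ⟨0, 0, by simp [h0]⟩
      have h5 : φ (MvPolynomial.X 1) * φ (MvPolynomial.X (k + 1)) ∈ S :=
        AddSubgroup.subset_closure ⟨_, by omega, (hφ 1).mul (hφ (k + 1)) rfl⟩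
      rcases k with _ | k
      · refine ⟨0, m, ?_⟩
        convert add_mem h4 (zsmul_mem h5 n) using 1
        rw [map_mul, zsmul_eq_mul]
        push_cast
        ring
      · have h6 : φ (MvPolynomial.X (k + 1 + 1)) ∈ S :=
          AddSubgroup.subset_closure ⟨_, by omega, hφ (k + 1 + 1)⟩
        refine ⟨0, 0, ?_⟩
        convert add_mem (add_mem h4 (zsmul_mem h5 n)) (zsmul_mem h6 m) using 1
        rw [map_mul, zsmul_eq_mul, zsmul_eq_mul]
        push_cast
        ring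
  obtain ⟨m, n, hm⟩ := h3 x
  obtain ⟨b, hb⟩ : IsHomog K 2 (φ (MvPolynomial.X 1)) := hφ 1
  have h4 : (m : HRing (stdEven T) K) =
      HRing.of (stdEven T) K 0 (m • ((stdEven T).zero.inv ≫ η[K])) := by
    rw [← zsmul_one, ← of_one]
    exact (map_zsmul (DirectSum.of ((stdEven T).Gr K) 0) m _).symm
  have h6 : n * HRing.of (stdEven T) K 2 b = HRing.of (stdEven T) K 2 (n • b) := by
    rw [← zsmul_eq_mul]
    exact (map_zsmul (DirectSum.of ((stdEven T).Gr K) 2) n _).symm
  have h5 := h1 _ hm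
  rw [hx, h4, hb, h6, DirectSum.sub_apply, DirectSum.sub_apply, DirectSum.of_eq_same,
    DirectSum.of_eq_same, DirectSum.of_eq_of_ne 0 2 _ (by norm_num), sub_zero, sub_eq_zero] at h5
  exact ⟨n, by rw [hx, hb, h6]; exact congrArg _ h5⟩

variable (hD : MUUniv e D) {H : T} [MonObj H] [IsCommMonObj H] (hH : Tr.IsHF 3 η[H])
  {t : Cob Laz 1} (ht : IsT1 3 t) (u : D.R ⟶ H) [IsMonHom u]

include hD hH

theorem xi_lift (x : (stdEven T).S 2 ⟶ H ⊗ H) : ∃ y : (stdEven T).S 2 ⟶ H ⊗ D.R,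
    y ≫ H ◁ u = x := by
  obtain ⟨P, d, E⟩ := exists_PD_cone D
  obtain ⟨q, s, r, hsr, hr⟩ := exists_QD_of hD hH P one_pos (N := 2) two_pos fun k _ => by
    have : (0 : ℤ) < 3 ^ k := by positivity
    rw [pow_succ]
    omega
  obtain ⟨y, rfl⟩ := surj_of_cof (conn_of_cof D.conn_unit (q.cof.whiskerLeft H
    fun A hA => (bigCell_H hH D.conn_unit).tensor hA _ (zero_add _))) (by norm_num) x
  obtain ⟨d', E'⟩ := Tr.dist_tensL E H
  obtain ⟨z, hz⟩ := E'.lift₃ (y ≫ H ◁ s) (by
    obtain ⟨g, hg⟩ := (shiftFunctor T (1 : ℤ)).map_surjective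
      ((Dt.eS (w := 1) (w' := 2) (by norm_num)).inv ≫ (y ≫ H ◁ s) ≫ d')
    rw [← cancel_epi (Dt.eS (w := 1) (w' := 2) (by norm_num)).inv, ← hg,
      ← Category.id_comp g, ← (Dt.eO 1).hom_inv_id, Category.assoc,
      odd_tensor hD (odd_H hH) u 1 (_ ≫ g), comp_zero, Functor.map_zero, comp_zero])
  refine ⟨z, ?_⟩
  rw [thom_ext hH u (q.u ≫ q.ρ), ← hr, MonoidalCategory.whiskerLeft_comp,
    MonoidalCategory.whiskerLeft_comp, Category.assoc, reassoc_of% hz,
    ← MonoidalCategory.whiskerLeft_comp_assoc, hsr, MonoidalCategory.whiskerLeft_id,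
    Category.id_comp]

theorem b_one : (ser (u ≫ inlM H H) (u ≫ inrM H H)).c 1 = 0 := by
  have h1 : HRing.map (E := stdEven T) (inlM H H) = HRing.map (inrM H H) := RingHom.ext fun x => by
    obtain ⟨m, rfl⟩ := intCast_surj hH x
    rw [eq_intCast, map_intCast, map_intCast]
  have h2 := two_c_one (lawOf (u ≫ inlM H H)) (ser_strict (u ≫ inlM H H) (u ≫ inrM H H))
    (by rw [ser_smul, lawOf_comp, lawOf_comp, h1])
  have h3 := three_HRing (three_of_hom ((hH.ord 3).2 dvd_rfl) (inlM H H))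
  push_cast at h3
  linear_combination (ser (u ≫ inlM H H) (u ≫ inrM H H)).c 1 * h3 - h2

include ht

/-- `π_4 (H ⊗ H)` is generated by the image of `t_1`. -/
theorem xi_gen (x : (stdEven T).S 2 ⟶ H ⊗ H) :
    ∃ m : ℤ, x = m • (D.evw 1 2 ⟨t, isWt_t1 ht⟩ ≫ th₂ u) := by
  obtain ⟨y, rfl⟩ := xi_lift hD hH u x
  obtain ⟨z, hz⟩ := (epsK_bijective (D := D) u hD).2 (HRing.of _ _ 2 y)
  have h1 : D.toKR u ≫ H ◁ u = th₂ u :=
    eq_pairM (by rw [← Category.assoc, D.v_zero_toKR, Category.assoc, ← id_tensorHom, inlM_tensor,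
      Category.id_comp]) (by rw [← Category.assoc, D.v_one_toKR, ← id_tensorHom, inrM_tensor])
  have h2 : ∀ k, HRing.map (H ◁ u) (epsH (bK D u) (MvPolynomial.X k)) =
      (ser (u ≫ inlM H H) (u ≫ inrM H H)).c (k + 1) := fun k => by
    rw [epsH_X, ser_c, ← HRing_map_congr' h1, HRing.map_comp]
    rfl
  obtain ⟨n, hn⟩ := low_two (intCast_surj hH) ((HRing.map (H ◁ u)).comp (epsH (bK D u)))
    ((h2 0).trans (b_one hD hH u)) (fun k => by
      rw [RingHom.comp_apply, h2, ser_c, ← D.of_evw ⟨_, Cob.isWt_X (0 : Fin 1) k⟩, HRing.map_of]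
      exact ⟨_, rfl⟩) (y ≫ H ◁ u) z (by rw [RingHom.comp_apply, hz, HRing.map_of])
  have h3 := val_t1 ht (u ≫ inlM H H) (u ≫ inrM H H) (RingHom.id _) (by
    rw [InvSeries.c_map, b_one hD hH u, map_zero])
  have h4 := three_HRing (three_of_hom ((hH.ord 3).2 dvd_rfl) (inlM H H))
  rw [RingHom.comp_apply, RingHom.comp_apply, hz, HRing.map_of, h2] at hn
  rw [RingHom.id_apply, InvSeries.c_map, RingHom.id_apply, ← D.of_evw ⟨t, isWt_t1 ht⟩,
    HRing.map_of] at h3
  refine ⟨-n, of_injective (hn.trans (Eq.trans ?_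
    (map_zsmul (DirectSum.of ((stdEven T).Gr (H ⊗ H)) 2) (-n) _).symm))⟩
  refine Eq.trans ?_ (congrArg ((-n) • ·) h3.symm)
  push_cast at h4
  rw [zsmul_eq_mul]
  push_cast
  linear_combination (3 * n * (ser (u ≫ inlM H H) (u ≫ inrM H H)).c (1 + 1)) * h4

end Vale.Agent.P236K
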